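import Crest.Agent.R309.AlgPTAux

/-!
Row 309: the algorithm runs in polynomial time (on all inputs, `s` being given in unary).

Prove `@[fun_prop]` lemmas for the definitions of `Alg.lean` in order (`unfold …; fun_prop`), in the
form of `pt_est` below.  Loops: in `run` and `sample` the state is either the initial one or valid
for some `θ ∈ θs` (entries bounded by the capacities and `θ.1`); in `est` every stage appends one
parameter triple whose temperature is at most `pM0`, whose exponents grow by at most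
`log₂ (pN * 2 ^ pA)` in absolute value and whose cycles are bounded by `sz_kruskal`, and multiplies the
rational by a ratio of bounded height (`ht` in `Lib/PT/Rat.lean`); use `PT.foldl` with an explicit
bound depending on the number of steps.
-/

set_option autoImplicit false

namespace Crest.Agent.R309

open Finset Crest.Agent.Lib.PT

theorem pt_rTot {α : Type} [Enc α] {s : α → ℕ} (hs : PT s) (hb : PB s) :
    PT (fun a => rTot (s a)) ∧ PB (fun a => rTot (s a)) := by
  unfold rTot
  exact ⟨by fun_prop, by fun_prop⟩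

namespace Inst

/-- growth of the logarithmic quantities in one stage -/
def algptK (s : ℕ) : ℕ := pN s + pA s + 2

theorem algpt_acc_lt (I : Inst) (s M M' : ℕ) {Ss : List (List ℤ)} (h : Ss.length = pN s) (i j : ℕ) :
    I.acc s M M' Ss i j < 2 ^ (pN s + pA s) := by
  have h1 : I.acc s M M' Ss i j ≤ pN s * 2 ^ pA s := by
    unfold acc
    refine (List.sum_le_card_nsmul _ (2 ^ pA s) fun x hx => ?_).trans (by simp [h])
    obtain ⟨S, -, rfl⟩ := List.mem_map.1 hx
    unfold yv
    split_ifs
    · exact Nat.pow_le_pow_right (by norm_num) (Nat.sub_le _ _)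
    · exact Nat.zero_le _
    · exact Nat.zero_le _
  rw [pow_add]
  exact h1.trans_lt (Nat.mul_lt_mul_of_pos_right Nat.lt_two_pow_self (by positivity))

theorem algpt_ht_nat {n k : ℕ} (h : n < 2 ^ k) : ht (n : ℚ) ≤ k + 1 := by
  have := Nat.size_le.2 h
  simp only [ht, Rat.num_natCast, Int.natAbs_natCast, Rat.den_natCast, Nat.size_one]
  omega

theorem algpt_ht_ratio (I : Inst) (s M M' : ℕ) {Ss : List (List ℤ)} (h : Ss.length = pN s) :
    ht (I.ratio s M M' Ss) ≤ 2 * algptK s := by
  unfold ratio algptK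
  have h1 := algpt_ht_nat (I.algpt_acc_lt s M M' h 0 0)
  have h2 : I.bc M Ss < 2 ^ pN s :=
    (List.countP_le_length.trans h.le).trans_lt Nat.lt_two_pow_self
  have h3 : 2 ^ pA s * I.bc M Ss < 2 ^ (pA s + pN s) := by
    rw [pow_add]; exact Nat.mul_lt_mul_of_pos_left h2 (by positivity)
  have h4 := algpt_ht_nat h3
  push_cast at h4
  have h5 := ht_div_le (I.acc s M M' Ss 0 0 : ℚ) (2 ^ pA s * (I.bc M Ss : ℚ))
  omega

/-- the invariant of a parameter triple after `n` stages -/
def algptOk (I : Inst) (s B n : ℕ) (θ : Th) : Prop :=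
  θ.1 ≤ pM0 s ∧ sz θ.2.2 ≤ B ∧ θ.2.1.length ≤ I.nv ∧
    ∀ row ∈ θ.2.1, row.length ≤ I.nv ∧ ∀ x ∈ row, |x| ≤ (n * algptK s : ℕ)

theorem algptOk.mono {I : Inst} {s B n n' : ℕ} {θ : Th} (h : I.algptOk s B n θ) (hn : n ≤ n') :
    I.algptOk s B n' θ :=
  ⟨h.1, h.2.1, h.2.2.1, fun row hr => ⟨(h.2.2.2 row hr).1, fun x hx =>
    ((h.2.2.2 row hr).2 x hx).trans (by exact_mod_cast Nat.mul_le_mul_right _ hn)⟩⟩

theorem algptOk.getD {I : Inst} {s B n : ℕ} {θ : Th} (h : I.algptOk s B n θ) (i j : ℕ) :
    |(θ.2.1.getD i []).getD j 0| ≤ (n * algptK s : ℕ) := by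
  rcases lt_or_ge i θ.2.1.length with hi | hi
  · rw [List.getD_eq_getElem _ _ hi]
    rcases lt_or_ge j (θ.2.1[i]).length with hj | hj
    · rw [List.getD_eq_getElem _ _ hj]
      exact (h.2.2.2 _ (List.getElem_mem _)).2 _ (List.getElem_mem _)
    · rw [List.getD_eq_default _ _ hj, abs_zero]
      exact Int.natCast_nonneg _
  · rw [List.getD_eq_default _ _ hi, List.getD_nil, abs_zero]
    exact Int.natCast_nonneg _

theorem algptOk.sz_le {I : Inst} {s B n : ℕ} {θ : Th} (h : I.algptOk s B n θ) :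
    sz θ ≤ sz (pM0 s) + (((6 * (n * algptK s) + 8) * I.nv + 2) * I.nv + 1) + B + 2 := by
  have h1 := sz_nat_mono h.1
  have h2 : sz θ.2.1 ≤ ((6 * (n * algptK s) + 8) * I.nv + 2) * I.nv + 1 := by
    refine (sz_list_le _ ((6 * (n * algptK s) + 8) * I.nv + 1) fun row hr => ?_).trans
      (Nat.add_le_add_right (Nat.mul_le_mul_left _ h.2.2.1) 1)
    refine (sz_list_le _ (6 * (n * algptK s) + 7) fun x hx => ?_).trans
      (Nat.add_le_add_right (Nat.mul_le_mul_left _ (h.2.2.2 row hr).1) 1)
    have h3 := sz_int_le_of_abs_le ((h.2.2.2 row hr).2 x hx)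
    have h4 := sz_nat_le_self (n * algptK s)
    omega
  have h3 := h.2.1
  rw [sz_prod θ, sz_prod θ.2]
  omega

theorem algpt_stage_inv {I : Inst} {s B H : ℕ} (hB : ∀ M Rf, sz (I.kruskal M Rf) ≤ B)
    {st : List Th × ℚ} (ω : List Bool) (h1 : ∀ θ ∈ st.1, I.algptOk s B st.1.length θ)
    (h2 : ht st.2 ≤ H + st.1.length * (2 * algptK s)) :
    (I.stage s st ω).1.length = st.1.length + 1 ∧
      (∀ θ ∈ (I.stage s st ω).1, I.algptOk s B (I.stage s st ω).1.length θ) ∧
      ht (I.stage s st ω).2 ≤ H + (I.stage s st ω).1.length * (2 * algptK s) := by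
  have hlen : (I.stage s st ω).1.length = st.1.length + 1 := by simp [stage]
  have hS : (I.samples s st.1 ω).length = pN s := by simp [samples, chunks]
  have hlast : I.algptOk s B st.1.length (st.1.getLastD (0, [], [])) := by
    rcases List.mem_cons.1 (List.getLastD_mem_cons (l := st.1) (a := ((0, [], []) : Th))) with h | h
    · rw [h]
      refine ⟨Nat.zero_le _, (sz_pos (I.kruskal 0 [])).trans_le (hB _ _), Nat.zero_le _, by simp⟩
    · exact h1 _ h
  refine ⟨hlen, ?_, ?_⟩
  · rw [hlen]
    intro θ hθ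
    simp only [stage, List.mem_append, List.mem_singleton] at hθ
    rcases hθ with hθ | rfl
    · exact (h1 θ hθ).mono (Nat.le_succ _)
    · refine ⟨?_, hB _ _, by simp [nextTh, nextU], fun row hr => ?_⟩
      · change nextM s st.1 ≤ _
        unfold nextM cool
        split_ifs
        · exact (Nat.sub_le _ _).trans hlast.1
        · exact Nat.zero_le _
      · simp only [nextTh, nextU, List.mem_map] at hr
        obtain ⟨i, -, rfl⟩ := hr
        refine ⟨by simp, fun x hx => ?_⟩
        obtain ⟨j, -, rfl⟩ := List.mem_map.1 hx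
        have a1 := abs_le.1 (hlast.getD i j)
        have key : ∀ i j, Nat.log 2 (I.acc s (st.1.getLastD (0, [], [])).1 (nextM s st.1)
            (I.samples s st.1 ω) i j) ≤ algptK s := by
          intro i j
          have := Nat.size_le.2 (I.algpt_acc_lt s (st.1.getLastD (0, [], [])).1 (nextM s st.1) hS i j)
          rw [log2_eq_size_sub_one]
          unfold algptK
          omega
        have a2 := key 0 0
        have a3 := key i j
        rw [add_mul, one_mul, abs_le]
        omega
  · rw [hlen]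
    have a1 := I.algpt_ht_ratio s (st.1.getLastD (0, [], [])).1 (nextM s st.1) hS
    have a2 := ht_mul_le st.2
      (I.ratio s (st.1.getLastD (0, [], [])).1 (nextM s st.1) (I.samples s st.1 ω))
    change ht (st.2 * _) ≤ _
    rw [add_mul, one_mul]
    omega

theorem algpt_foldl_inv {I : Inst} {s B H : ℕ} (hB : ∀ M Rf, sz (I.kruskal M Rf) ≤ B)
    (l : List (List Bool)) {st : List Th × ℚ} (h1 : ∀ θ ∈ st.1, I.algptOk s B st.1.length θ)
    (h2 : ht st.2 ≤ H + st.1.length * (2 * algptK s)) :
    (l.foldl (I.stage s) st).1.length = st.1.length + l.length ∧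
      (∀ θ ∈ (l.foldl (I.stage s) st).1, I.algptOk s B (l.foldl (I.stage s) st).1.length θ) ∧
      ht (l.foldl (I.stage s) st).2 ≤ H + (l.foldl (I.stage s) st).1.length * (2 * algptK s) := by
  induction l generalizing st with
  | nil => exact ⟨rfl, h1, h2⟩
  | cons x l ih =>
    obtain ⟨a1, a2, a3⟩ := algpt_stage_inv hB x h1 h2
    obtain ⟨b1, b2, b3⟩ := ih a2 a3
    refine ⟨?_, b2, b3⟩
    rw [List.foldl_cons, b1, a1, List.length_cons]
    omega

end Inst

theorem Inst.pt_est {α : Type} [Enc α] {I : α → Inst} {s : α → ℕ} {ω : α → List Bool} (hI : PT I)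
    (hs : PT s) (hb : PB s) (hω : PT ω) : PT fun a => (I a).est (s a) (ω a) := by
  obtain ⟨B, hBp, hB⟩ := Inst.sz_kruskal
  have hK : PB fun a => Inst.algptK (s a) := by unfold Inst.algptK; fun_prop
  have hB' : PB fun a => B (I a) := hBp.comp hI
  unfold Inst.est
  refine PT.snd (PT.foldl (f := fun a => (I a).stage (s a))
    (fun a => (sz (pM0 (s a)) + (((6 * ((pTa (s a) + 2) * Inst.algptK (s a)) + 8) * (I a).nv + 2) *
        (I a).nv + 1) + B (I a) + 2 + 1) * (pTa (s a) + 2) + 1 +
      (12 * (ht ((I a).tot : ℚ) + (pTa (s a) + 2) * (2 * Inst.algptK (s a))) + 12) + 1)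
    (by fun_prop) (by fun_prop) (by fun_prop) (by fun_prop) fun a i => ?_)
  obtain ⟨h1, h2, h3⟩ := Inst.algpt_foldl_inv (s := s a) (H := ht ((I a).tot : ℚ)) (hB (I a))
    ((chunks (pTa (s a) + 1) (pN (s a) * rS (s a)) ((ω a).drop (rI (s a)))).take i)
    (st := ([(I a).th0 (s a) (ω a)], ((I a).tot : ℚ)))
    (fun θ hθ => by
      rw [List.mem_singleton.1 hθ]
      exact ⟨le_rfl, hB _ _ _, Nat.zero_le _, by simp [Inst.th0]⟩) (Nat.le_add_right _ _)
  set st := ((chunks (pTa (s a) + 1) (pN (s a) * rS (s a)) ((ω a).drop (rI (s a)))).take i).foldl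
    ((I a).stage (s a)) ([(I a).th0 (s a) (ω a)], ((I a).tot : ℚ))
  have h4 : st.1.length ≤ pTa (s a) + 2 := by
    rw [h1]
    simp only [chunks, List.length_take, List.length_map, List.length_range, List.length_singleton]
    omega
  rw [sz_prod st]
  refine Nat.add_le_add_right (Nat.add_le_add ?_ ?_) 1
  · exact (sz_list_le _ _ fun θ hθ => ((h2 θ hθ).mono h4).sz_le).trans
      (Nat.add_le_add_right (Nat.mul_le_mul_left _ h4) 1)
  · refine (sz_le_ht _).trans (Nat.add_le_add_right (Nat.mul_le_mul_left _ (h3.trans ?_)) 12)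
    exact Nat.add_le_add_left (Nat.mul_le_mul_right _ h4) _

end Crest.Agent.R309
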