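import Crest.Agent.R309.Estim

/-! Row 309: correctness of the estimate. -/

set_option autoImplicit false

namespace Crest.Agent.R309

open Finset Crest.Agent.Lib.PT

lemma anneal_Ex_le {r : ℕ} {F : List Bool → ℝ} (P : List Bool → Prop) {c : ℝ} (hc : 0 ≤ c)
    (h1 : ∀ u, F u ≤ 1) (h : ∀ u, ¬ P u → F u ≤ c) : Ex r F ≤ Pr r P + c := by
  rw [← Ex_const r c, Pr, ← Ex_add]
  refine Ex_mono fun u _ => ?_
  split_ifs with hu
  · linarith [h1 u]
  · linarith [h u hu]

lemma anneal_Pr_succ (n m : ℕ) (P : List (List Bool) → Prop) :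
    Pr ((n + 1) * m) (fun l => P (chunks (n + 1) m l)) =
      Ex (n * m) fun u => Pr m fun v => P (chunks n m u ++ [v]) :=
  Ex_chunks_succ' n m fun L => @ite ℝ (P L) (Classical.propDecidable _) 1 0

lemma anneal_pow_le {δ : ℝ} (hδ : 0 ≤ δ) (k : ℕ) (h : 2 * k * δ ≤ 1) :
    (1 + δ) ^ k ≤ 1 + 2 * k * δ := by
  induction k with
  | zero => simp
  | succ k ih =>
    push_cast at h ⊢
    have h1 : 2 * k * δ ≤ 1 := by linarith
    rw [pow_succ]
    nlinarith [mul_le_mul_of_nonneg_right (ih h1) (by linarith : 0 ≤ 1 + δ),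
      mul_le_mul_of_nonneg_right h1 hδ]

namespace Inst

variable {I : Inst} {s : ℕ}

lemma anneal_length (L : List (List Bool)) (st : List Th × ℚ) :
    (L.foldl (I.stage s) st).1.length = st.1.length + L.length := by
  induction L generalizing st with
  | nil => rfl
  | cons v L ih => rw [List.foldl_cons, ih, stage, List.length_append, List.length_cons,
      List.length_cons, List.length_nil, zero_add, add_assoc, add_comm 1]

theorem est_nonneg (I : Inst) (s : ℕ) (ω : List Bool) : 0 ≤ I.est s ω := by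
  have key : ∀ (L : List (List Bool)) (st : List Th × ℚ), 0 ≤ st.2 →
      0 ≤ (L.foldl (I.stage s) st).2 := by
    intro L
    induction L with
    | nil => exact fun _ h => h
    | cons v L ih =>
      refine fun st h => ih _ (mul_nonneg h ?_)
      unfold ratio
      positivity
  exact key _ _ (Nat.cast_nonneg _)

/-- In the last stage `θs.length = pTa + 1`, so `nextM = 0` and `acc 0 0 = 0` (`cnt_pos`). -/
theorem Sz.est_zero (H : I.Sz s) (hc : I.cnt = 0) (ω : List Bool) : I.est s ω = 0 := by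
  rw [est, chunks_succ', List.foldl_append, List.foldl_cons, List.foldl_nil, stage]
  refine mul_eq_zero_of_right _ ?_
  rw [nextM, if_neg (by rw [anneal_length, length_chunks]; simp), ratio, div_eq_zero_iff]
  refine Or.inl (Nat.cast_eq_zero.mpr (List.sum_eq_zero fun x hx => ?_))
  obtain ⟨S, -, rfl⟩ := List.mem_map.mp hx
  unfold yv
  split_ifs with h1 h2
  · exact absurd hc (H.cnt_pos h2 h1).ne'
  · rfl
  · rfl

theorem Sz.est_take (H : I.Sz s) (ω : List Bool) : I.est s (ω.take (rTot s)) = I.est s ω := by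
  have h1 : I.init s (ω.take (rTot s)) = I.init s ω := by
    rw [← H.init_take, List.take_take, min_eq_left (show rI s ≤ rTot s from Nat.le_add_right _ _),
      H.init_take]
  rw [est, est, th0, th0, h1, List.drop_take, chunks_take (by rw [rTot, Nat.add_sub_cancel_left])]

/-- `init_law`, `init_valid`, `badR_mass`, `Zt_M0`, `atw_M0`; `GoodU` for `u = []` by `Zt_M0`. -/
lemma Sz.th0_good (H : I.Sz s) (hc : 0 < I.cnt) :
    Pr (rI s) (fun ω => ¬ I.GoodTh s 0 (I.th0 s ω)) ≤ 1 / (s : ℝ) ^ 10 := by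
  classical
  have hs : (100 : ℝ) ≤ s := by exact_mod_cast H.big
  have hM : 0 < pM0 s := by
    have := H.big
    unfold pM0 pJ
    positivity
  have ht : (0 : ℝ) < I.tot := by exact_mod_cast tot_pos
  have h0 : 0 < I.nv := Nat.succ_pos _
  have h1 := H.badR_mass hc hM le_rfl
  rw [sum_congr rfl fun S hS => H.atw_M0 ((H.mem_OmL le_rfl S).mp (mem_filter.mp hS).1),
    H.Zt_M0 h0 h0] at h1
  refine (Pr_mono (Q := fun ω => ∃ S ∈ (I.OmL s (pM0 s)).filter
    (fun S => I.isCls S 0 0 = true ∧ ¬ I.GoodR s (pM0 s) S), I.init s ω = S)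
    fun ω _ h => ⟨_, mem_filter.mpr ⟨(H.mem_OmL le_rfl _).mpr (H.init_valid ω).1,
      (H.init_valid ω).2, fun hR => h ⟨rfl, fun i hi j hj _ => ?_, _, hR, rfl⟩⟩, rfl⟩).trans
    ((Pr_exists_le _ _ _).trans ((sum_le_sum fun S _ => H.init_law S).trans ?_))
  · rw [sum_const, nsmul_eq_mul] at h1 ⊢
    rw [mul_one] at h1
    refine (mul_le_mul_of_nonneg_right h1 (by positivity)).trans ?_
    rw [mul_assoc, mul_div_cancel₀ _ ht.ne', pW, div_mul_eq_mul_div, Nat.cast_pow, ← pow_mul,
      div_le_div_iff₀ (by positivity) (by positivity), one_mul,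
      show 130 * 4 = 1 + 509 + 10 by norm_num, pow_add, pow_add, pow_one]
    have : (1 : ℝ) ≤ s ^ 509 := one_le_pow₀ (by linarith)
    exact mul_le_mul_of_nonneg_right (by nlinarith) (by positivity)
  · simp only [th0, List.getD_nil, zpow_zero, one_mul, H.Zt_M0 h0 h0, H.Zt_M0 hi hj]
    constructor <;> linarith

/-- The state after `k` stages is good. -/
structure AnnealInv (I : Inst) (s k : ℕ) (st : List Th × ℚ) : Prop where
  len : st.1.length = k + 1
  good : ∀ t (h : t < st.1.length), t ≤ pTa s → I.GoodTh s t st.1[t]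
  last : k = pTa s + 1 → (st.1.getLastD (0, [], [])).1 = 0
  low : (1 - 1 / (s : ℝ) ^ 10) ^ k * I.Zt s (st.1.getLastD (0, [], [])).1 0 0 ≤ st.2
  up : (st.2 : ℝ) ≤ (1 + 1 / (s : ℝ) ^ 10) ^ k * I.Zt s (st.1.getLastD (0, [], [])).1 0 0

lemma AnnealInv.step (H : I.Sz s) (hc : 0 < I.cnt) {k : ℕ} {st : List Th × ℚ}
    (h : I.AnnealInv s k st) (hk : k ≤ pTa s) {v : List Bool} (hv : I.StageOK s st.1 v) :
    I.AnnealInv s (k + 1) (I.stage s st v) := by
  have hs : (100 : ℝ) ≤ s := by exact_mod_cast H.big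
  have hδ : 0 ≤ 1 - 1 / (s : ℝ) ^ 10 :=
    sub_nonneg.mpr ((div_le_one (by positivity)).mpr (one_le_pow₀ (by linarith)))
  have hl : st.1.getLastD (0, [], []) = st.1[k]'(by rw [h.len]; omega) := by
    simp [List.getLastD_eq_getLast?, List.getLast?_eq_getElem?, h.len]
  have hM : (st.1.getLastD (0, [], [])).1 ≤ pM0 s := by
    rw [hl, (h.good k _ hk).1]
    exact Mt_le s k
  have hZ : 0 < I.Zt s (st.1.getLastD (0, [], [])).1 0 0 :=
    (Nat.cast_pos.mpr hc).trans_le (H.cnt_le_Zt hM)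
  have hZ' := Zt_nonneg (I := I) (s := s) (nextM s st.1) 0 0
  have hl' : ((I.stage s st v).1.getLastD (0, [], [])).1 = nextM s st.1 := by
    simp [stage, nextTh]
  obtain ⟨r1, r2⟩ := abs_le.mp hv.2
  have e : ∀ c : ℝ, c ^ (k + 1) * I.Zt s (nextM s st.1) 0 0 =
      c ^ k * I.Zt s (st.1.getLastD (0, [], [])).1 0 0 *
        (c * (I.Zt s (nextM s st.1) 0 0 / I.Zt s (st.1.getLastD (0, [], [])).1 0 0)) := by
    intro c
    field_simp
    ring
  have hq : 0 ≤ I.Zt s (nextM s st.1) 0 0 / I.Zt s (st.1.getLastD (0, [], [])).1 0 0 := by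
    positivity
  have h0 : (0 : ℝ) ≤ st.2 := le_trans (by positivity) h.low
  refine ⟨by simp [stage, h.len], fun t ht ht' => ?_, fun hk' => ?_, ?_, ?_⟩
  · by_cases h1 : t < st.1.length
    · simpa only [stage, List.getElem_append_left h1] using h.good t h1 ht'
    · obtain rfl : t = st.1.length := by
        simp only [stage, List.length_append, List.length_singleton] at ht
        omega
      simpa only [stage, List.getElem_concat_length rfl] using hv.1 ht'
  · rw [hl', nextM, if_neg (by rw [h.len]; omega)]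
  · rw [hl', e, stage, Rat.cast_mul]
    exact mul_le_mul h.low (by linarith) (mul_nonneg hδ hq) h0
  · rw [hl', e, stage, Rat.cast_mul]
    exact mul_le_mul h.up (by linarith) (by nlinarith [mul_nonneg hδ hq]) (h0.trans h.up)

lemma Sz.anneal_prob (H : I.Sz s) (hc : 0 < I.cnt) {st : List Th × ℚ} (h : I.AnnealInv s 0 st)
    (k : ℕ) (hk : k ≤ pTa s + 1) :
    Pr (k * (pN s * rS s)) (fun l =>
      ¬ I.AnnealInv s k ((chunks k (pN s * rS s) l).foldl (I.stage s) st)) ≤
        k * (3 / (s : ℝ) ^ 10) := by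
  classical
  induction k with
  | zero =>
    refine (Pr_mono (Q := fun _ => False) fun l _ hl => hl ?_).trans (by simp [Pr_false])
    rwa [List.length_eq_zero_iff.mp (length_chunks 0 _ l)]
  | succ k ih =>
    refine (anneal_Pr_succ k (pN s * rS s) fun L =>
      ¬ I.AnnealInv s (k + 1) (L.foldl (I.stage s) st)).trans_le
      ((anneal_Ex_le (c := 3 / (s : ℝ) ^ 10)
      (fun l => ¬ I.AnnealInv s k ((chunks k (pN s * rS s) l).foldl (I.stage s) st))
      (by positivity) (fun u => Pr_le_one _ _) fun u hu => ?_).trans ?_)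
    · have hu := not_not.mp hu
      refine le_trans ?_ (H.stage_ok hc
        (fun t ht => hu.good t ht (by have := hu.len; omega))
        (List.ne_nil_of_length_pos (by rw [hu.len]; omega)) (by rw [hu.len]; omega))
      refine Pr_mono fun v _ h1 h2 => h1 ?_
      rw [List.foldl_append, List.foldl_cons, List.foldl_nil]
      exact hu.step H hc (by omega) h2
    · push_cast
      linarith [ih (by omega)]

/-- Induction on the number `k ≤ pTa + 1` of processed chunks (`Ex_chunks_succ'`, `stage_ok`): with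
probability `≥ 1 - (3 k + 1) / s ^ 10` the state `(θs, z)` has `θs.length = k + 1`, the first
`min (k + 1) (pTa + 1)` parameters are good, and
`(1 - s⁻¹⁰) ^ k Z ≤ z ≤ (1 + s⁻¹⁰) ^ k Z` with `Z = Zt M 0 0`, `M` the temperature of the last entry
of `θs` (`Zt_M0` at the start, `Zt_zero` at the end).  For `cnt = 0` use `est_zero`. -/
theorem Sz.est_good (H : I.Sz s) :
    Pr (rTot s) (fun ω => ¬ ((1 - 1 / (s : ℚ)) * I.cnt ≤ I.est s ω ∧
      I.est s ω ≤ (1 + 1 / (s : ℚ)) * I.cnt)) ≤ 1 / 16 := by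
  rcases Nat.eq_zero_or_pos I.cnt with hc | hc
  · refine (Pr_mono (Q := fun _ => False) fun ω _ h => h ?_).trans (by rw [Pr_false]; norm_num)
    simp [H.est_zero hc, hc]
  have hs : (100 : ℝ) ≤ s := by exact_mod_cast H.big
  have h0 : 0 < I.nv := Nat.succ_pos _
  have hK : ((pTa s + 1 : ℕ) : ℝ) * (1 / (s : ℝ) ^ 10) ≤ 1 / 50 * (1 / s) := by
    have h1 : (1 : ℝ) ≤ s ^ 8 := one_le_pow₀ (by linarith)
    rw [pTa, mul_one_div, mul_one_div, div_le_div_iff₀ (by positivity) (by positivity),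
      show (s : ℝ) ^ 10 = s ^ 8 * s * s by ring, ← mul_assoc]
    push_cast
    exact mul_le_mul_of_nonneg_right (by nlinarith) (by positivity)
  have hs' : 1 / (s : ℝ) ≤ 1 / 100 := one_div_le_one_div_of_le (by norm_num) hs
  have hδ : (0 : ℝ) ≤ 1 / (s : ℝ) ^ 10 := by positivity
  have hδ' : 1 / (s : ℝ) ^ 10 ≤ 1 / 100 :=
    one_div_le_one_div_of_le (by norm_num) (hs.trans (le_self_pow₀ (by linarith) (by norm_num)))
  refine (Pr_mono (Q := fun ω => ¬ I.AnnealInv s (pTa s + 1)
    ((chunks (pTa s + 1) (pN s * rS s) (ω.drop (rI s))).foldl (I.stage s)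
      ([I.th0 s (ω.take (rI s))], (I.tot : ℚ)))) ?_).trans ?_
  · refine fun ω _ h hI => h ?_
    have h1 := hI.low
    have h2 := hI.up
    rw [hI.last rfl, H.Zt_zero, show I.th0 s (ω.take (rI s)) = I.th0 s ω by
      rw [th0, th0, H.init_take], ← est] at h1 h2
    have h3 := one_add_mul_le_pow (a := -(1 / (s : ℝ) ^ 10)) (by linarith) (pTa s + 1)
    have h4 := anneal_pow_le hδ (pTa s + 1) (by linarith)
    have h5 : (0 : ℝ) ≤ I.cnt := Nat.cast_nonneg _
    have h6 : (0 : ℝ) ≤ 1 / s := by positivity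
    rw [← sub_eq_add_neg] at h3
    constructor <;> rw [← Rat.cast_le (K := ℝ)] <;> push_cast at *
    · exact (mul_le_mul_of_nonneg_right (by linarith) h5).trans h1
    · exact h2.trans (mul_le_mul_of_nonneg_right (by linarith) h5)
  · rw [rTot, Pr_split _ _ fun u v => ¬ I.AnnealInv s (pTa s + 1)
      ((chunks (pTa s + 1) (pN s * rS s) v).foldl (I.stage s) ([I.th0 s u], (I.tot : ℚ)))]
    refine (anneal_Ex_le (c := ((pTa s + 1 : ℕ) : ℝ) * (3 / (s : ℝ) ^ 10))
      (fun u => ¬ I.GoodTh s 0 (I.th0 s u)) (by positivity) (fun _ => Pr_le_one _ _)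
      fun u hu => H.anneal_prob hc ⟨rfl, fun t ht _ => ?_, fun h => absurd h (by omega), ?_, ?_⟩
        _ le_rfl).trans ?_
    · obtain rfl : t = 0 := by simpa using ht
      exact not_not.mp hu
    · simp [th0, H.Zt_M0 h0 h0]
    · simp [th0, H.Zt_M0 h0 h0]
    · have := H.th0_good hc
      rw [show (3 : ℝ) / s ^ 10 = 1 / s ^ 10 * 3 by ring, ← mul_assoc]
      linarith

end Inst

end Crest.Agent.R309
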