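import Crest.Agent.R309.TabDefs
import Crest.Agent.R309.Anneal
import Crest.Agent.R309.AlgPT

/-! Row 309: the boosted estimate for bounded tables. -/

set_option autoImplicit false

namespace Crest.Agent.R309

open Finset Crest.Agent.Lib.PT Crest.Tables

lemma med_mem_or (l : List ℚ) : med l ∈ l ∨ med l = 0 := by
  unfold med
  cases h : List.argmin (fun z => z) (l.filter _) with
  | none => exact Or.inr rfl
  | some z => exact Or.inl (List.mem_filter.1 (List.argmin_mem h)).1

/-- The largest good entry is a candidate; an entry below `a` is not. -/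
lemma med_between {l : List ℚ} {a b : ℚ}
    (h : l.length < 2 * l.countP fun z => decide (a ≤ z ∧ z ≤ b)) : a ≤ med l ∧ med l ≤ b := by
  obtain ⟨g, hg, hm⟩ := exists_max_image (l.filter fun z => decide (a ≤ z ∧ z ≤ b)).toFinset id
    (by
      obtain ⟨z, hz⟩ := List.countP_pos_iff.1 (Nat.pos_of_mul_pos_left (Nat.zero_lt_of_lt h))
      exact ⟨z, List.mem_toFinset.2 (List.mem_filter.2 hz)⟩)
  simp only [List.mem_toFinset, List.mem_filter, decide_eq_true_eq, id] at hg hm
  have hc : g ∈ l.filter fun z => decide (l.length < 2 * l.countP fun y => decide (y ≤ z)) :=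
    List.mem_filter.2 ⟨hg.1, decide_eq_true (h.trans_le (Nat.mul_le_mul_left _
      (List.countP_mono_left fun y hy e => decide_eq_true (hm y ⟨hy, of_decide_eq_true e⟩))))⟩
  unfold med
  cases e : List.argmin (fun z => z) (l.filter _) with
  | none => simp [List.argmin_eq_none.1 e] at hc
  | some z =>
    refine ⟨not_lt.1 fun hz => ?_, (List.le_of_mem_argmin hc e).trans hg.2.2⟩
    have h1 := of_decide_eq_true (List.mem_filter.1 (List.argmin_mem e)).2
    have h2 := List.length_eq_countP_add_countP (fun y => decide (y ≤ z)) (l := l)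
    have h3 : (l.countP fun z => decide (a ≤ z ∧ z ≤ b)) ≤
        l.countP fun y => decide ¬ decide (y ≤ z) = true :=
      List.countP_mono_left fun y _ e => by
        simpa using hz.trans_le (of_decide_eq_true e).1
    omega

lemma boost_q (rs cs b : List ℕ) : (tinst rs cs b).q = rs.length * cs.length := by
  simp [tinst, Inst.q]

lemma boost_p (rs cs b : List ℕ) : (tinst rs cs b).p = rs.length + cs.length := by
  simp [tinst, Inst.p]

lemma boost_TL {rs cs b : List ℕ} {e : ℕ} (he : e < (tinst rs cs b).q) :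
    (tinst rs cs b).TL e = e / cs.length := by
  rw [Inst.TL, if_pos he]; rw [boost_q] at he; simp [tinst, he]

lemma boost_HD {rs cs b : List ℕ} {e : ℕ} (he : e < (tinst rs cs b).q) :
    (tinst rs cs b).HD e = rs.length + e % cs.length := by
  rw [Inst.HD, if_pos he]; rw [boost_q] at he; simp [tinst, he]

lemma boost_cap {rs cs b : List ℕ} {e : ℕ} (he : e < (tinst rs cs b).q) :
    (tinst rs cs b).cap e = b.getD e 0 := by
  rw [boost_q] at he; simp [Inst.cap, tinst, he]

lemma TSz.sz {rs cs b : List ℕ} {s : ℕ} (H : TSz rs cs b s) : (tinst rs cs b).Sz s := by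
  have hd := H.dim
  have hn : ∀ e < (tinst rs cs b).q, 0 < cs.length ∧ e / cs.length < rs.length := fun e he => by
    rw [boost_q] at he
    exact ⟨Nat.pos_of_mul_pos_left (Nat.zero_lt_of_lt he), Nat.div_lt_of_lt_mul (by rwa [mul_comm])⟩
  refine ⟨fun e he => ?_, fun e he => ?_, fun e he => ?_, H.big, ?_, ?_, fun e he => ?_,
    fun v hv => ?_⟩
  · rw [boost_TL he, boost_p]; have := hn e he; omega
  · rw [boost_HD he, boost_p]; have := Nat.mod_lt e (hn e he).1; omega
  · rw [boost_TL he, boost_HD he]; have := hn e he; omega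
  · rw [Inst.nv, boost_p]; omega
  · rw [Inst.ne, boost_p, boost_q]; omega
  · rw [boost_cap he]
    rcases lt_or_ge e b.length with c | c
    · rw [List.getD_eq_getElem _ _ c]; exact H.b_lt _ (List.getElem_mem c)
    · rw [List.getD_eq_default _ _ c]; positivity
  · rw [Inst.DD, if_pos hv, List.getD_eq_getElem _ _ hv]
    rcases List.mem_append.1 (List.getElem_mem hv) with c | c <;>
      obtain ⟨x, hx, e⟩ := List.mem_map.1 c <;> rw [← e]
    · exact_mod_cast H.rs_lt x hx
    · rw [abs_neg]; exact_mod_cast H.cs_lt x hx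

lemma length_flat {m n : ℕ} (X : Fin m → Fin n → ℕ) : (flat X).length = m * n := by
  simp [flat, List.length_flatten, List.map_ofFn, Function.comp_def]

lemma getD_flat {m n : ℕ} (X : Fin m → Fin n → ℕ) (i : Fin m) (j : Fin n) :
    (flat X).getD (i * n + j) 0 = X i j := by
  have d : ∀ (i : Fin m) (j : Fin n), (i * n + j) / n = i ∧ (i * n + j) % n = j := fun i j => by
    simp [Nat.mod_eq_of_lt j.2, add_comm (_ * n), Nat.add_mul_div_right _ _ j.pos,
      Nat.div_eq_of_lt j.2]
  have e : flat X = List.ofFn fun k : Fin (m * n) => X k.divNat k.modNat := by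
    rw [List.ofFn_mul, flat]
    congr 2; funext i; congr 1; funext j
    simp [Fin.divNat, Fin.modNat, d]
  have h : i * n + j < m * n := by nlinarith [i.2, j.2]
  simp [e, h, Fin.divNat, Fin.modNat, d]

lemma flat_injective {m n : ℕ} : Function.Injective (flat : (Fin m → Fin n → ℕ) → List ℕ) := by
  intro X Y h
  funext i j
  rw [← getD_flat X, h, getD_flat]

/-- The flows of the instance are the bounded tables (`b` only matters through its first `m * n`
entries). -/
theorem cnt_tinst {m n : ℕ} (rs : Fin m → ℕ) (cs : Fin n → ℕ) (b : List ℕ) :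
    (tinst (List.ofFn rs) (List.ofFn cs) b).cnt =
      numBoundedTables rs cs (fun i j => b.getD (i * n + j) 0) := by
  set I := tinst (List.ofFn rs) (List.ofFn cs) b with hI
  have hq : I.q = m * n := by simp [hI, boost_q]
  let σ : Fin m × Fin n ≃ Fin I.q := finProdFinEquiv.trans (finCongr hq.symm)
  have hσ : ∀ i j, (σ (i, j) : ℕ) = i * n + j := fun i j => by simp [σ, add_comm, mul_comm]
  have hc : ∀ i j, I.cap (σ (i, j)) = b.getD (i * n + j) 0 := fun i j => by
    rw [boost_cap (σ (i, j)).2, hσ]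
  have hi : ∀ v i j, I.inc v (σ (i, j)) =
      (if (i : ℕ) = v then 1 else 0) - if m + j = v then 1 else 0 := fun v i j => by
    rw [Inst.inc, boost_TL (σ (i, j)).2, boost_HD (σ (i, j)).2, hσ]
    simp [Nat.mod_eq_of_lt j.2, add_comm (_ * n), Nat.add_mul_div_right _ _ j.pos,
      Nat.div_eq_of_lt j.2]
  have hs : ∀ X : Fin m → Fin n → ℕ,
      (∀ v < I.p, ∑ e : Fin I.q, I.inc v e * (X (σ.symm e).1 (σ.symm e).2 : ℤ) = I.DD v) ↔
        (∀ i, ∑ j, X i j = rs i) ∧ ∀ j, ∑ i, X i j = cs j := fun X => by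
    have hp : I.p = m + n := by simp [hI, boost_p]
    have e : ∀ v, ∑ e : Fin I.q, I.inc v e * (X (σ.symm e).1 (σ.symm e).2 : ℤ) =
        ∑ i : Fin m, ∑ j : Fin n,
          ((if (i : ℕ) = v then 1 else 0) - if m + j = v then 1 else 0) * (X i j : ℤ) :=
      fun v => by rw [← σ.sum_comp, Fintype.sum_prod_type]; simp only [hi, Equiv.symm_apply_apply]
    simp only [e, hp]
    rw [Nat.forall_lt_iff_fin, Fin.forall_fin_add]
    refine and_congr (forall_congr' fun i => ?_) (forall_congr' fun j => ?_)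
    · have : ∀ j : Fin n, m + j ≠ i := fun j => by omega
      have d : I.DD i = rs i := by
        rw [Inst.DD, if_pos (by omega)]; simp [hI, tinst, List.getElem?_append_left]
      simp [this, d, Fin.val_inj, ite_mul, ← Nat.cast_sum]
    · have : ∀ i : Fin m, (i : ℕ) ≠ m + j := fun i => by omega
      have d : I.DD (m + j) = -cs j := by
        rw [Inst.DD, if_pos (by omega)]; simp [hI, tinst]
      simp [this, d, Fin.val_inj, ite_mul, ← Nat.cast_sum]
  rw [numBoundedTables, Fintype.card_subtype, Inst.cnt]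
  refine (card_bij (fun X _ e => ((X (σ.symm e).1 (σ.symm e).2 : ℕ) : ℤ)) (fun X hX => ?_)
    (fun X _ Y _ h => ?_) fun x hx => ?_).symm
  · refine mem_filter.2 ⟨Fintype.mem_piFinset.2 fun e => ?_, (hs _).2 (mem_filter.1 hX).2⟩
    obtain ⟨⟨i, j⟩, rfl⟩ := σ.surjective e
    rw [Equiv.symm_apply_apply, hc, mem_Icc]
    exact ⟨Nat.cast_nonneg _, Nat.cast_le.2 (Nat.lt_succ_iff.1 (X i j).2)⟩
  · funext i j
    have := congrFun h (σ (i, j))
    rw [Equiv.symm_apply_apply] at this
    exact Fin.ext (Nat.cast_injective this)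
  · obtain ⟨h1, h2⟩ := mem_filter.1 hx
    have h3 := fun e => mem_Icc.1 (Fintype.mem_piFinset.1 h1 e)
    have h4 : (fun e => ((x (σ ((σ.symm e).1, (σ.symm e).2))).toNat : ℤ)) = x := by
      funext e; simpa using (h3 e).1
    refine ⟨fun i j => ⟨(x (σ (i, j))).toNat, by have := h3 (σ (i, j)); rw [hc] at this; omega⟩,
      mem_filter.2 ⟨mem_univ _, (hs fun i j => (x (σ (i, j))).toNat).1 fun v hv => ?_⟩, h4⟩
    simpa only [congrFun h4] using h2 v hv

theorem best_nonneg (rs cs b : List ℕ) (s k : ℕ) (ω : List Bool) : 0 ≤ best rs cs b s k ω := by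
  rcases med_mem_or _ with h | h
  · obtain ⟨u, -, e⟩ := List.mem_map.1 h
    exact (Inst.est_nonneg _ _ u).trans_eq e
  · exact h.ge

theorem TSz.best_zero {rs cs b : List ℕ} {s : ℕ} (H : TSz rs cs b s) (hc : (tinst rs cs b).cnt = 0)
    (k : ℕ) (ω : List Bool) : best rs cs b s k ω = 0 := by
  rcases med_mem_or _ with h | h
  · obtain ⟨u, -, e⟩ := List.mem_map.1 h
    exact e.symm.trans (H.sz.est_zero hc u)
  · exact h

theorem best_take (rs cs b : List ℕ) (s k : ℕ) (ω : List Bool) :
    best rs cs b s k (ω.take (k * rTot s)) = best rs cs b s k ω := by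
  rw [best, chunks_take le_rfl, best]

/-- `est_good`, `Pr_majority`, `med_between`. -/
theorem TSz.best_good {rs cs b : List ℕ} {s : ℕ} (H : TSz rs cs b s) (k : ℕ) :
    Pr (k * rTot s) (fun ω => ¬ ((1 - 1 / (s : ℚ)) * (tinst rs cs b).cnt ≤ best rs cs b s k ω ∧
      best rs cs b s k ω ≤ (1 + 1 / (s : ℚ)) * (tinst rs cs b).cnt)) ≤ (1 / 2) ^ k := by
  refine (Pr_mono fun ω _ h => not_lt.1 fun c => h (med_between ?_)).trans
    (Pr_majority k _ _ H.sz.est_good)
  have := List.length_eq_countP_add_countP (fun u => decide ((1 - 1 / (s : ℚ)) * (tinst rs cs b).cnt ≤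
    (tinst rs cs b).est s u ∧ (tinst rs cs b).est s u ≤ (1 + 1 / (s : ℚ)) * (tinst rs cs b).cnt))
    (l := chunks k (rTot s) ω)
  rw [List.length_map, List.countP_map]
  simp only [length_chunks, decide_eq_true_eq, Function.comp_def] at this c ⊢
  refine lt_of_not_ge fun d => c.not_ge (le_trans ?_ (Nat.mul_le_mul_left 2
    (List.countP_mono_left fun u _ e => @decide_eq_true _ (_) (of_decide_eq_true e))))
  omega

theorem pt_best {α : Type} [Enc α] {rs cs b : α → List ℕ} {s k : α → ℕ} {ω : α → List Bool}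
    (hr : PT rs) (hc : PT cs) (hb : PT b) (hs : PT s) (hs' : PB s) (hk : PT k) (hk' : PB k)
    (hω : PT ω) : PT fun a => best (rs a) (cs a) (b a) (s a) (k a) (ω a) := by
  have h1 : PT fun a => tinst (rs a) (cs a) (b a) := by unfold tinst; fun_prop
  have h2 : PT fun a => (chunks (k a) (rTot (s a)) (ω a)).map ((tinst (rs a) (cs a) (b a)).est (s a)) :=
    (PT.chunks hk hk' (pt_rTot hs hs').1 hω).map
      (Inst.pt_est (h1.comp PT.id.fst) (hs.comp PT.id.fst) (hs'.comp PT.id.fst) PT.id.snd)
  have h3 : PT med := by unfold med; fun_prop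
  exact h3.comp h2

end Crest.Agent.R309
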