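import Crest.Agent.R309.RamCompD

/-!
Row 309: compiling the repeat-until-success loop to the word RAM.

Suggested plan (helper files `RamComp*.lean`).
1. A structured language over `r` registers (basic non-jump instruction, `seq`, `ifz a c₁ c₂`,
   `whilenz a c`), big-step semantics with step counts on `(regs, mem, drawn)`, compilation to a list of
   instructions at an offset, and the simulation lemma for `step`.
2. Trees `D` in memory: `nil` is the word `0`, `cons a b` an address `p > 0` with `mem p`, `mem (p+1)`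
   representing `a`, `b`, all addresses below the heap pointer (`Rep mem hp d p`, monotone under
   writes at addresses `≥ hp`).  `Prog` has no recursion, so it compiles with a static register
   allocation (`cons p q` at depth `k` saves into register `k`): `Eval p x y n` ⇒ at most `K_p * n`
   steps, heap growth at most `2 n`.
3. Wrappers.  Setup: the heap starts above the input; build a raw tree for the input (e.g. the
   reversed list of words, each as the list of its bits produced by `rem 2` / `quot 2`, bit = `D.ofBool`);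
   run the program for `len` (composed with a `PT` decoder of the raw tree, `Reads.exists_pt` /
   `PT.extend`); remember the heap pointer.  Round: reset the heap pointer, walk along the unary list
   drawing one word per cell and consing its low bit (this produces the reversed bit string; undo it
   in the `PT` decoder), pair with the raw input, run `encoder ∘ Rd ∘ decoder`; if the result is
   `nil` jump to the loop head, otherwise write the output words (Horner on most-significant-first bit
   lists prepared by the `PT` encoder) above the heap, set registers `0` (length) and `1` (start), halt.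
   The `PT` decoder/encoder do not depend on `len`, `Rd`, which gives the universal exponent `k`
   (`TimeF.comp`, `TimeF.sz_in_le`, `TimeF.sz_le`).
-/

set_option autoImplicit false

namespace Crest.Agent.R309

open Crest.WordRAM Crest.Agent.Lib.PT

lemma timeF_sandwich {α α' β β' : Type} [Enc α] [Enc α'] [Enc β] [Enc β'] {dec : α' → α}
    {en : β → β'} (hd : PT dec) (he : PT en) : ∃ c k : ℕ, 1 ≤ c ∧ 1 ≤ k ∧ ∀ (f : α → β) (T : α → ℕ),
      TimeF f T → ∃ p : Prog, ∀ a a', dec a' = a → sz a' ≤ sz a →
        EvalLe p (enc a') (enc (en (f a))) (c * T a ^ k) := by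
  obtain ⟨c1, k1, hd⟩ := hd.exists_bound
  obtain ⟨c2, k2, he⟩ := he.exists_bound
  refine ⟨c1 + c2 + 1, k1 + k2 + 1, by omega, by omega, fun f T hf => ?_⟩
  obtain ⟨p, hp⟩ := he.comp (hf.comp hd)
  refine ⟨p, fun a a' ha hs => ?_⟩
  subst ha
  refine (hp a').mono ?_
  have h1 := hf.sz_in_le (dec a')
  have h2 := hf.sz_le (dec a')
  have h0 : 0 < T (dec a') := lt_of_lt_of_le (sz_pos _) h1
  have h3 : sz a' ^ k1 ≤ T (dec a') ^ (k1 + k2 + 1) :=
    (Nat.pow_le_pow_left (hs.trans h1) _).trans (Nat.pow_le_pow_right h0 (by omega))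
  have h4 : sz (f (dec a')) ^ k2 ≤ T (dec a') ^ (k1 + k2 + 1) :=
    (Nat.pow_le_pow_left h2 _).trans (Nat.pow_le_pow_right h0 (by omega))
  have h5 : T (dec a') ≤ T (dec a') ^ (k1 + k2 + 1) := Nat.le_self_pow (by omega) _
  have h6 := Nat.mul_le_mul_left c1 h3
  have h7 := Nat.mul_le_mul_left c2 h4
  simp only [add_mul]
  omega

/-- Decoding the raw input. -/
def unraw (r : List (List Bool)) : List ℕ := r.map fun l => ofBits l.reverse

lemma unraw_raw (x : List ℕ) : unraw (Ram.raw x) = x := by
  simp [unraw, Ram.raw, Function.comp_def]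

theorem exists_roundSpec : ∃ k : ℕ, ∀ (len : List ℕ → ℕ) (Rd : List ℕ × List Bool → Option (List ℕ))
    (T₀ : List ℕ → ℕ) (T : List ℕ × List Bool → ℕ),
    TimeF (fun x => List.replicate (len x) ()) T₀ → TimeF Rd T →
    ∃ (P : Program) (K : ℕ), ∀ (x : List ℕ) (w B : ℕ), T₀ x ≤ B →
      (∀ ω : List Bool, ω.length = len x → T (x, ω) ≤ B) → K * B ^ k < 2 ^ w → 0 < w →
      (∀ a ∈ x, a < 2 ^ w) →
      (∀ ω : List Bool, ω.length = len x → ∀ y, Rd (x, ω) = some y → ∀ a ∈ y, a < 2 ^ w) →
      ∃ Head : ℕ → Cfg P.numRegs → Prop, RoundSpec P w x (len x) (fun ω => Rd (x, ω))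
        (K * T₀ x ^ k) (fun ω => K * T (x, ω) ^ k) Head := by
  have hu : PT unraw := by unfold unraw; fun_prop
  have hr : PT Ram.raw := by unfold Ram.raw; fun_prop
  obtain ⟨c1, k1, hc1, hk1, h1⟩ := timeF_sandwich (en := fun u : List Unit => u) hu PT.id
  obtain ⟨c2, k2, hc2, hk2, h2⟩ := timeF_sandwich
    (dec := fun p : List (List Bool) × List Bool => (unraw p.1, p.2.reverse))
    (en := fun o : Option (List ℕ) => o.map Ram.raw) (by fun_prop) (by fun_prop)
  refine ⟨k1 + k2, fun len Rd T₀ T hl hR => ?_⟩
  obtain ⟨p₀, hp₀⟩ := h1 _ _ hl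
  obtain ⟨p, hp⟩ := h2 _ _ hR
  refine ⟨⟨20, Ram.whole p₀ p⟩, (Ram.kp p₀ + Ram.kp p + 40) * (c1 + c2),
    fun x w B hB₀ hB hw _ hx ho => ?_⟩
  have key : ∀ c k t : ℕ, c ≤ c1 + c2 → k ≤ k1 + k2 → 0 < t → c * t ^ k ≤ (c1 + c2) * t ^ (k1 + k2) :=
    fun c k t hc hk ht => Nat.mul_le_mul hc (Nat.pow_le_pow_right ht hk)
  have := Ram.roundSpec_whole p₀ p (x := x) (w := w) (len := len x)
    (N₀ := (c1 + c2) * T₀ x ^ (k1 + k2)) (B := (c1 + c2) * B ^ (k1 + k2))
    (Rd := fun ω => Rd (x, ω)) (N := fun ω => (c1 + c2) * T (x, ω) ^ (k1 + k2))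
    ((hp₀ x _ (unraw_raw x) (Ram.sz_raw x).le).mono (key _ _ _ (by omega) (by omega)
      (lt_of_lt_of_le (sz_pos _) (hl.sz_in_le x))))
    (fun ω _ => (hp (x, ω) (Ram.raw x, ω.reverse) (by simp [unraw_raw])
      (by simp [Ram.sz_raw])).mono (key _ _ _ (by omega) (by omega)
      (lt_of_lt_of_le (sz_pos _) (hR.sz_in_le (x, ω)))))
    (Nat.mul_le_mul_left _ (Nat.pow_le_pow_left hB₀ _))
    (fun ω h => Nat.mul_le_mul_left _ (Nat.pow_le_pow_left (hB ω h) _))
    (by rw [← mul_assoc]; exact hw) hx ho
  simpa only [mul_assoc] using this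

end Crest.Agent.R309
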