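import Crest.Agent.R309.RamSpec

/-!
Row 309: probabilities for the repeat-until-success loop.

Notation: `ω_i = bitsAt w ρ (i * len) len`, `p = Pr (Rd succeeds)`, `f = 1 - p`.  Useful facts:
a halted configuration never changes; the run for `T` steps only reads `ρ k` for `k < T` (`drawn ≤`
number of steps), so `probAfter T E` equals the uniform probability over tables of any length
`N ≥ T`; for a table of `n * len` uniform words the strings `ω_0, …, ω_{n-1}` are independent uniform
(the low bit of a uniform word is fair as `w ≥ 1`), i.e. the concatenation `bitsAt w ρ 0 (n * len)` is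
uniform on bit strings and `ω_i` are its `chunks`.  By induction on `i`: if rounds `0 … i-1` fail, the
run is at `Head (i * len)` at some time in `[i, t₀ + ∑_{j<i} t ω_j]`.
-/

set_option autoImplicit false

namespace Crest.Agent.R309

open Crest.WordRAM

variable {P : Program} {w : ℕ} {x : List ℕ} {len : ℕ} {Rd : List Bool → Option (List ℕ)} {t₀ : ℕ}
  {t : List Bool → ℕ} {Head : ℕ → Cfg P.numRegs → Prop}

/-! ### expectations over tables of random words -/

/-- Expectation over a uniform table of `N` words below `m`. -/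
noncomputable def ramprobTE (m N : ℕ) (F : (ℕ → ℕ) → ℝ) : ℝ :=
  (∑ tab : Fin N → Fin m, F (streamOf tab)) / (m : ℝ) ^ N

/-- Prepending a word to a stream. -/
def ramprobCons (a : ℕ) (ρ : ℕ → ℕ) : ℕ → ℕ
  | 0 => a
  | k + 1 => ρ k

lemma ramprob_streamOf_cons {m N : ℕ} (a : Fin m) (tab : Fin N → Fin m) :
    streamOf (Fin.cons a tab : Fin (N + 1) → Fin m) = ramprobCons a (streamOf tab) := by
  funext k
  cases k with
  | zero => simp [streamOf, ramprobCons]
  | succ k =>
    simp only [streamOf, ramprobCons, Nat.add_lt_add_iff_right]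
    split_ifs with h
    · rfl
    · rfl

lemma ramprob_TE_succ (m N : ℕ) (F : (ℕ → ℕ) → ℝ) :
    ramprobTE m (N + 1) F =
      (∑ a : Fin m, ramprobTE m N fun ρ => F (ramprobCons a ρ)) / m := by
  unfold ramprobTE
  rw [← Finset.sum_div, div_div, ← pow_succ, ← Fintype.sum_prod_type',
    ← (Fin.consEquiv fun _ : Fin (N + 1) => Fin m).sum_comp]
  congr 1
  refine Finset.sum_congr rfl fun p _ => ?_
  exact congrArg F (ramprob_streamOf_cons p.1 p.2)

lemma ramprob_TE_const {m : ℕ} (hm : 0 < m) (N : ℕ) (c : ℝ) : ramprobTE m N (fun _ => c) = c := by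
  have : (0 : ℝ) < m := by exact_mod_cast hm
  simp only [ramprobTE, Finset.sum_const, Finset.card_univ, Fintype.card_fun, Fintype.card_fin,
    nsmul_eq_mul, Nat.cast_pow]
  field_simp

lemma ramprob_TE_mono {m N : ℕ} {F G : (ℕ → ℕ) → ℝ} (h : ∀ ρ, F ρ ≤ G ρ) :
    ramprobTE m N F ≤ ramprobTE m N G :=
  div_le_div_of_nonneg_right (Finset.sum_le_sum fun _ _ => h _) (by positivity)

lemma ramprob_TE_sum (m N : ℕ) (s : Finset ℕ) (F : ℕ → (ℕ → ℕ) → ℝ) :
    ramprobTE m N (fun ρ => ∑ i ∈ s, F i ρ) = ∑ i ∈ s, ramprobTE m N (F i) := by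
  unfold ramprobTE
  rw [Finset.sum_comm, Finset.sum_div]

lemma ramprob_TE_add (m N : ℕ) (F G : (ℕ → ℕ) → ℝ) :
    ramprobTE m N (fun ρ => F ρ + G ρ) = ramprobTE m N F + ramprobTE m N G := by
  unfold ramprobTE
  rw [Finset.sum_add_distrib, add_div]

lemma ramprob_TE_mul (m N : ℕ) (c : ℝ) (F : (ℕ → ℕ) → ℝ) :
    ramprobTE m N (fun ρ => c * F ρ) = c * ramprobTE m N F := by
  unfold ramprobTE
  rw [← Finset.mul_sum, mul_div_assoc]

lemma ramprob_TE_prefix {m : ℕ} (hm : 0 < m) (T : ℕ) : ∀ (N : ℕ) (F : (ℕ → ℕ) → ℝ), T ≤ N →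
    (∀ ρ ρ' : ℕ → ℕ, (∀ k, k < T → ρ k = ρ' k) → F ρ = F ρ') →
    ramprobTE m N F = ramprobTE m T F := by
  induction T with
  | zero =>
    intro N F _ h
    have e : F = fun _ => F fun _ => 0 := funext fun ρ => h _ _ fun k hk => absurd hk (by omega)
    rw [e, ramprob_TE_const hm, ramprob_TE_const hm]
  | succ T ih =>
    intro N F hN h
    obtain ⟨N, rfl⟩ : ∃ N', N = N' + 1 := ⟨N - 1, by omega⟩
    rw [ramprob_TE_succ, ramprob_TE_succ]
    congr 1
    refine Finset.sum_congr rfl fun a _ => ih N _ (by omega) fun ρ ρ' h' => h _ _ fun k hk => ?_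
    cases k with
    | zero => rfl
    | succ k => exact h' k (by omega)

lemma ramprob_fair_aux (G : Bool → ℝ) (k : ℕ) :
    ∑ a ∈ Finset.range (2 * k), G (decide (a % 2 = 1)) = k * (G false + G true) := by
  induction k with
  | zero => simp
  | succ k ih =>
    rw [show 2 * (k + 1) = 2 * k + 1 + 1 by ring, Finset.sum_range_succ, Finset.sum_range_succ, ih]
    have h1 : 2 * k % 2 = 0 := by omega
    have h2 : (2 * k + 1) % 2 = 1 := by omega
    rw [h1, h2]
    push_cast
    simp only [decide_false, decide_true]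
    ring

lemma ramprob_fair (hw : 0 < w) (G : Bool → ℝ) :
    (∑ a : Fin (2 ^ w), G (decide ((a : ℕ) % 2 ^ w % 2 = 1))) / ((2 ^ w : ℕ) : ℝ) =
      (G false + G true) / 2 := by
  obtain ⟨v, rfl⟩ : ∃ v, w = v + 1 := ⟨w - 1, by omega⟩
  have h1 : ∑ a : Fin (2 ^ (v + 1)), G (decide ((a : ℕ) % 2 ^ (v + 1) % 2 = 1)) =
      ∑ a : Fin (2 ^ (v + 1)), G (decide ((a : ℕ) % 2 = 1)) :=
    Finset.sum_congr rfl fun a _ => by rw [Nat.mod_eq_of_lt a.2]
  rw [h1, Fin.sum_univ_eq_sum_range (fun a => G (decide (a % 2 = 1))), pow_succ',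
    ramprob_fair_aux]
  push_cast
  field_simp

lemma ramprob_bitsAt_cons (a : ℕ) (ρ : ℕ → ℕ) (L : ℕ) :
    bitsAt w (ramprobCons a ρ) 0 (L + 1) = decide (a % 2 ^ w % 2 = 1) :: bitsAt w ρ 0 L := by
  simp [bitsAt, List.range_succ_eq_map, ramprobCons, Function.comp_def]

lemma ramprob_indep (hw : 0 < w) (N : ℕ) (F : (ℕ → ℕ) → ℝ) (L : ℕ) : ∀ g : List Bool → ℝ,
    ramprobTE (2 ^ w) (L + N) (fun ρ => g (bitsAt w ρ 0 L) * F fun k => ρ (L + k)) =
      Ex L g * ramprobTE (2 ^ w) N F := by
  induction L with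
  | zero =>
    intro g
    simp only [bitsAt, List.range_zero, List.map_nil, zero_add, Ex_zero]
    exact ramprob_TE_mul _ _ _ _
  | succ L ih =>
    intro g
    rw [show L + 1 + N = L + N + 1 by ring, ramprob_TE_succ, Ex_succ]
    have h1 : ∀ a : Fin (2 ^ w), (ramprobTE (2 ^ w) (L + N) fun ρ =>
        g (bitsAt w (ramprobCons a ρ) 0 (L + 1)) * F fun k => ramprobCons a ρ (L + 1 + k)) =
        (Ex L fun l => g (decide ((a : ℕ) % 2 ^ w % 2 = 1) :: l)) * ramprobTE (2 ^ w) N F := by
      intro a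
      rw [← ih]
      congr 1
      funext ρ
      rw [ramprob_bitsAt_cons]
      congr 2
      funext k
      rw [show L + 1 + k = L + k + 1 by ring]
      rfl
    simp only [h1]
    rw [← Finset.sum_mul, mul_div_right_comm,
      ramprob_fair hw fun b => Ex L fun l => g (b :: l)]

/-- The first `i` rounds fail. -/
def ramprobFail (w len : ℕ) (Rd : List Bool → Option (List ℕ)) (ρ : ℕ → ℕ) (i : ℕ) : Prop :=
  ∀ j, j < i → Rd (bitsAt w ρ (j * len) len) = none

lemma ramprob_bitsAt_shift (ρ : ℕ → ℕ) (i : ℕ) :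
    bitsAt w ρ ((i + 1) * len) len = bitsAt w (fun k => ρ (len + k)) (i * len) len := by
  unfold bitsAt
  refine List.map_congr_left fun k _ => ?_
  rw [show (i + 1) * len + k = len + (i * len + k) by ring]

lemma ramprob_fail_succ (ρ : ℕ → ℕ) (i : ℕ) :
    ramprobFail w len Rd ρ (i + 1) ↔
      Rd (bitsAt w ρ 0 len) = none ∧ ramprobFail w len Rd (fun k => ρ (len + k)) i := by
  constructor
  · intro h
    refine ⟨by simpa using h 0 (by omega), fun j hj => ?_⟩
    rw [← ramprob_bitsAt_shift]
    exact h _ (by omega)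
  · rintro ⟨h0, h⟩ j hj
    cases j with
    | zero => simpa using h0
    | succ j => rw [ramprob_bitsAt_shift]; exact h j (by omega)

open Classical in
lemma ramprob_round (hw : 0 < w) (g : List Bool → ℝ) (i : ℕ) : ∀ N, (i + 1) * len ≤ N →
    ramprobTE (2 ^ w) N (fun ρ => (if ramprobFail w len Rd ρ i then 1 else 0) *
      g (bitsAt w ρ (i * len) len)) =
      (1 - Pr len fun ω => (Rd ω).isSome = true) ^ i * Ex len g := by
  induction i with
  | zero =>
    intro N hN
    obtain ⟨N, rfl⟩ : ∃ N', N = len + N' := ⟨N - len, by omega⟩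
    have h := ramprob_indep hw N (fun _ => 1) len g
    rw [ramprob_TE_const (by positivity)] at h
    simpa [ramprobFail] using h
  | succ i ih =>
    intro N hN
    have hN' : len + (i + 1) * len ≤ N := by
      rw [show len + (i + 1) * len = (i + 1 + 1) * len by ring]; exact hN
    obtain ⟨N, rfl⟩ : ∃ N', N = len + N' := ⟨N - len, by omega⟩
    have h := ramprob_indep hw N (fun ρ => (if ramprobFail w len Rd ρ i then 1 else 0) *
      g (bitsAt w ρ (i * len) len)) len fun ω => if ¬ (Rd ω).isSome = true then 1 else 0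
    have e : (Ex len fun ω => if ¬ (Rd ω).isSome = true then (1 : ℝ) else 0) =
        1 - Pr len fun ω => (Rd ω).isSome = true := by
      rw [← Pr_not, Pr]
      congr 1
      funext ω
      congr 1
    rw [ih N (by omega), e] at h
    rw [pow_succ', mul_assoc, ← h]
    congr 1
    funext ρ
    rw [ramprob_bitsAt_shift, ramprob_fail_succ]
    by_cases h1 : Rd (bitsAt w ρ 0 len) = none <;>
      by_cases h2 : ramprobFail w len Rd (fun k => ρ (len + k)) i <;> simp [h1, h2]

/-! ### deterministic facts -/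

lemma ramprob_step_halted (ρ : ℕ → ℕ) {c : Cfg P.numRegs} (h : c.halted = true) (n : ℕ) :
    (step P w ρ)^[n] c = c :=
  Function.iterate_fixed (by simp [step, h]) n

lemma ramprob_run_add (ρ : ℕ → ℕ) (n k : ℕ) :
    run P w ρ x (n + k) = (step P w ρ)^[k] (run P w ρ x n) := by
  unfold run
  rw [add_comm, Function.iterate_add_apply]

lemma ramprob_run_halted (ρ : ℕ → ℕ) {n k : ℕ} (h : (run P w ρ x n).halted = true) (hk : n ≤ k) :
    run P w ρ x k = run P w ρ x n := by
  obtain ⟨k, rfl⟩ := Nat.exists_eq_add_of_le hk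
  rw [ramprob_run_add, ramprob_step_halted ρ h]

lemma ramprob_step_drawn (ρ : ℕ → ℕ) (c : Cfg P.numRegs) :
    (step P w ρ c).drawn ≤ c.drawn + 1 := by
  unfold step
  split_ifs
  · omega
  · dsimp only
    split <;> simp

lemma ramprob_step_congr {ρ ρ' : ℕ → ℕ} {c : Cfg P.numRegs} (h : ρ c.drawn = ρ' c.drawn) :
    step P w ρ c = step P w ρ' c := by
  unfold step
  rw [h]

lemma ramprob_run_drawn (ρ : ℕ → ℕ) (T : ℕ) : (run P w ρ x T).drawn ≤ T := by
  induction T with
  | zero => exact le_rfl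
  | succ T ih =>
    rw [ramprob_run_add]
    exact (ramprob_step_drawn ρ _).trans (by omega)

lemma ramprob_run_congr {ρ ρ' : ℕ → ℕ} (T : ℕ) (h : ∀ k, k < T → ρ k = ρ' k) :
    run P w ρ x T = run P w ρ' x T := by
  induction T with
  | zero => rfl
  | succ T ih =>
    rw [ramprob_run_add, ramprob_run_add, ← ih fun k hk => h k (by omega)]
    exact ramprob_step_congr (h _ (Nat.lt_succ_of_le (ramprob_run_drawn ρ T)))

open Classical in
lemma ramprob_probAfter (T : ℕ) (E : Cfg P.numRegs → Prop) {N : ℕ} (hN : T ≤ N) :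
    probAfter P w x T E =
      ramprobTE (2 ^ w) N fun ρ => if E (run P w ρ x T) then 1 else 0 := by
  rw [ramprob_TE_prefix (by positivity) T N _ hN fun ρ ρ' h => by rw [ramprob_run_congr T h]]
  unfold probAfter Crest.FinProb.uniformProb ramprobTE
  rw [Finset.sum_boole]
  simp only [Fintype.card_fun, Fintype.card_fin, Nat.cast_pow, Set.mem_ofPred_eq]

lemma ramprob_head (H : RoundSpec P w x len Rd t₀ t Head) (ρ : ℕ → ℕ) (i : ℕ)
    (h : ramprobFail w len Rd ρ i) :
    ∃ n, i ≤ n ∧ n ≤ t₀ + ∑ j ∈ Finset.range i, t (bitsAt w ρ (j * len) len) ∧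
      Head (i * len) (run P w ρ x n) := by
  induction i with
  | zero =>
    obtain ⟨n, h1, h2⟩ := H.init ρ
    exact ⟨n, Nat.zero_le _, by simpa using h1, by simpa using h2⟩
  | succ i ih =>
    obtain ⟨n, h1, h2, h3⟩ := ih fun j hj => h j (by omega)
    obtain ⟨k, k1, k2, -, k4⟩ := H.round ρ _ _ h3
    refine ⟨n + k, by omega, by rw [Finset.sum_range_succ]; omega, ?_⟩
    rw [ramprob_run_add, add_mul, one_mul]
    exact k4 (h i (by omega))

lemma ramprob_halt (H : RoundSpec P w x len Rd t₀ t Head) (ρ : ℕ → ℕ) (i : ℕ)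
    (h : ramprobFail w len Rd ρ i) {y : List ℕ} (hy : Rd (bitsAt w ρ (i * len) len) = some y) :
    ∃ n, n ≤ t₀ + ∑ j ∈ Finset.range (i + 1), t (bitsAt w ρ (j * len) len) ∧
      (run P w ρ x n).halted = true ∧ (run P w ρ x n).output = y := by
  obtain ⟨n, -, h2, h3⟩ := ramprob_head H ρ i h
  obtain ⟨k, -, k2, k3, -⟩ := H.round ρ _ _ h3
  refine ⟨n + k, by rw [Finset.sum_range_succ]; omega, ?_⟩
  rw [ramprob_run_add]
  exact k3 y hy

lemma ramprob_first (ρ : ℕ → ℕ) {n : ℕ} (h : ¬ ramprobFail w len Rd ρ n) :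
    ∃ i y, i < n ∧ ramprobFail w len Rd ρ i ∧ Rd (bitsAt w ρ (i * len) len) = some y := by
  induction n with
  | zero => exact absurd (fun j hj => absurd hj (by omega)) h
  | succ n ih =>
    by_cases h' : ramprobFail w len Rd ρ n
    · cases e : Rd (bitsAt w ρ (n * len) len) with
      | none =>
        refine absurd (fun j hj => ?_) h
        rcases Nat.lt_succ_iff_lt_or_eq.1 hj with hj | rfl
        · exact h' j hj
        · exact e
      | some y => exact ⟨n, y, by omega, h', e⟩
    · obtain ⟨i, y, h1, h2⟩ := ih h'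
      exact ⟨i, y, by omega, h2⟩

lemma ramprob_of_halts (H : RoundSpec P w x len Rd t₀ t Head) (ρ : ℕ → ℕ) (T : ℕ) (out : List ℕ)
    (h : HaltsWithin P w ρ x T out) :
    ∃ i, i < T ∧ ramprobFail w len Rd ρ i ∧ Rd (bitsAt w ρ (i * len) len) = some out := by
  have h1 : ¬ ramprobFail w len Rd ρ T := by
    intro h1
    obtain ⟨n, h2, -, h3⟩ := ramprob_head H ρ T h1
    have h4 := H.head _ _ h3
    rw [ramprob_run_halted ρ h.1 h2, h.1] at h4
    exact absurd h4 (by simp)
  obtain ⟨i, y, h2, h3, h4⟩ := ramprob_first ρ h1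
  obtain ⟨n, -, h5, h6⟩ := ramprob_halt H ρ i h3 h4
  refine ⟨i, h2, h3, ?_⟩
  rw [h4, ← h6, ← h.2, ← ramprob_run_halted ρ h5 (le_max_left n T),
    ← ramprob_run_halted ρ h.1 (le_max_right n T)]

lemma ramprob_geom {p c : ℝ} (hp : 0 < p) (hp1 : p ≤ 1) (hc : 0 ≤ c) (n : ℕ) :
    ∑ i ∈ Finset.range n, (1 - p) ^ i * c ≤ c / p := by
  have h := (hasSum_geometric_of_lt_one (r := 1 - p) (by linarith) (by linarith)).mul_right c
  rw [sub_sub_cancel, ← div_eq_inv_mul] at h
  exact sum_le_hasSum _ (fun i _ => mul_nonneg (pow_nonneg (by linarith) _) hc) h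

lemma ramprob_length (ρ : ℕ → ℕ) (i : ℕ) : (bitsAt w ρ i len).length = len := by
  simp [bitsAt]

/-- If the first `T` rounds fail the run is not halted at some time `≥ T`; otherwise the first
successful round determines the output. -/
theorem RoundSpec.sound (H : RoundSpec P w x len Rd t₀ t Head) (ρ : ℕ → ℕ) (T : ℕ) (out : List ℕ)
    (h : HaltsWithin P w ρ x T out) : ∃ ω : List Bool, ω.length = len ∧ Rd ω = some out := by
  obtain ⟨i, -, -, h⟩ := ramprob_of_halts H ρ T out h
  exact ⟨_, ramprob_length ρ _, h⟩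

/-- Upper bound `probAfter T ≤ ∑_{i<T} f ^ i p_y ≤ p_y / p`; lower bound `∑_{i<n} f ^ i p_y` for
`T ≥ t₀ + n * max t`. -/
theorem RoundSpec.prob (H : RoundSpec P w x len Rd t₀ t Head) (hw : 0 < w) (hlen : 0 < len)
    (hp : 0 < Pr len fun ω => (Rd ω).isSome = true) (y : List ℕ) :
    probHaltsWith P w x (fun out => out = y) =
      Pr len (fun ω => Rd ω = some y) / Pr len fun ω => (Rd ω).isSome = true := by
  classical
  have hp1 := Pr_le_one len fun ω => (Rd ω).isSome = true
  have hy := Pr_nonneg len fun ω => Rd ω = some y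
  have key : ∀ n N, n * len ≤ N → ramprobTE (2 ^ w) N (fun ρ => ∑ i ∈ Finset.range n,
      (if ramprobFail w len Rd ρ i then (1 : ℝ) else 0) *
        (if Rd (bitsAt w ρ (i * len) len) = some y then 1 else 0)) =
      ∑ i ∈ Finset.range n, (1 - Pr len fun ω => (Rd ω).isSome = true) ^ i *
        Pr len fun ω => Rd ω = some y := by
    intro n N hN
    rw [ramprob_TE_sum]
    refine Finset.sum_congr rfl fun i hi => ?_
    have h1 : (i + 1) * len ≤ N :=
      (Nat.mul_le_mul_right _ (Finset.mem_range.1 hi)).trans hN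
    rw [ramprob_round hw (fun ω => if Rd ω = some y then 1 else 0) i N h1, Pr]
    congr 2
    funext ω
    congr 1
  have up : ∀ T, (probAfter P w x T fun c => c.halted = true ∧ c.output = y) ≤
      Pr len (fun ω => Rd ω = some y) / Pr len fun ω => (Rd ω).isSome = true := by
    intro T
    rw [ramprob_probAfter T _ (Nat.le_mul_of_pos_right T hlen)]
    refine le_trans (ramprob_TE_mono fun ρ => ?_)
      ((key T _ le_rfl).le.trans (ramprob_geom hp hp1 hy T))
    have h0 : ∀ i ∈ Finset.range T, 0 ≤ (if ramprobFail w len Rd ρ i then (1 : ℝ) else 0) *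
        (if Rd (bitsAt w ρ (i * len) len) = some y then 1 else 0) := fun i _ => by
      split_ifs <;> simp
    split_ifs with h
    · obtain ⟨i, h1, h2, h3⟩ := ramprob_of_halts H ρ T y h
      refine le_trans ?_ (Finset.single_le_sum h0 (Finset.mem_range.2 h1))
      rw [if_pos h2, if_pos h3, one_mul]
    · exact Finset.sum_nonneg h0
  refine le_antisymm (ciSup_le up) ?_
  have hs := (hasSum_geometric_of_lt_one (r := 1 - Pr len fun ω => (Rd ω).isSome = true)
    (by linarith) (by linarith)).mul_right (Pr len fun ω => Rd ω = some y)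
  rw [sub_sub_cancel, ← div_eq_inv_mul] at hs
  refine le_of_tendsto' hs.tendsto_sum_nat fun n => ?_
  obtain ⟨M, hM⟩ : ∃ M, ∀ ω : List Bool, ω.length = len → t ω ≤ M := by
    obtain ⟨M, hM⟩ := ((List.finite_length_eq Bool len).image t).bddAbove
    exact ⟨M, fun ω h => hM ⟨ω, h, rfl⟩⟩
  refine le_trans ?_ (le_ciSup ⟨_, Set.forall_mem_range.2 up⟩ (t₀ + n * M))
  rw [ramprob_probAfter _ _ (le_max_left (t₀ + n * M) (n * len)), ← key n _ (le_max_right _ _)]
  refine ramprob_TE_mono fun ρ => ?_
  split_ifs with h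
  · have tele : ∀ k, ∑ i ∈ Finset.range k, (if ramprobFail w len Rd ρ i then (1 : ℝ) else 0) *
        (if Rd (bitsAt w ρ (i * len) len) = some y then 1 else 0) ≤
        1 - if ramprobFail w len Rd ρ k then (1 : ℝ) else 0 := by
      intro k
      induction k with
      | zero => simp [ramprobFail]
      | succ k ih =>
        rw [Finset.sum_range_succ]
        by_cases h1 : ramprobFail w len Rd ρ (k + 1)
        · have h2 : ramprobFail w len Rd ρ k := fun j hj => h1 j (by omega)
          have h3 : ¬ Rd (bitsAt w ρ (k * len) len) = some y := by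
            rw [h1 k (by omega)]; simp
          rw [if_pos h2] at ih
          rw [if_pos h1, if_neg h3]
          linarith
        · rw [if_neg h1]
          split_ifs at ih ⊢ <;> linarith
    refine (tele n).trans ?_
    split_ifs <;> simp
  · refine le_of_eq (Finset.sum_eq_zero fun i hi => ?_)
    split_ifs with h1 h2
    · obtain ⟨k, h3, h4, h5⟩ := ramprob_halt H ρ i h1 h2
      have h6 : ∑ j ∈ Finset.range (i + 1), t (bitsAt w ρ (j * len) len) ≤ (i + 1) * M := by
        have := Finset.sum_le_card_nsmul (Finset.range (i + 1))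
          (fun j => t (bitsAt w ρ (j * len) len)) M fun j _ => hM _ (ramprob_length ρ _)
        simpa using this
      have h7 : (i + 1) * M ≤ n * M := Nat.mul_le_mul_right _ (Finset.mem_range.1 hi)
      rw [ramprob_run_halted ρ h4 (by omega)] at h
      exact absurd ⟨h4, h5⟩ h
    all_goals simp

/-- For every `n`, `∑_{T<n} [not halted at T] ≤ t₀ + ∑_{i<n} [rounds 0 … i-1 fail] t ω_i` pointwise,
whose expectation is `t₀ + ∑_{i<n} f ^ i E t ≤ (t₀ + E t) / p`. -/
theorem RoundSpec.time (H : RoundSpec P w x len Rd t₀ t Head) (hw : 0 < w) (hlen : 0 < len)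
    (hp : 0 < Pr len fun ω => (Rd ω).isSome = true) :
    expectedTime P w x ≤
      ENNReal.ofReal ((t₀ + Ex len fun ω => t ω) / Pr len fun ω => (Rd ω).isSome = true) := by
  classical
  have hp1 := Pr_le_one len fun ω => (Rd ω).isSome = true
  have ht : 0 ≤ Ex len fun ω => (t ω : ℝ) := Ex_nonneg fun _ _ => Nat.cast_nonneg _
  unfold expectedTime
  rw [ENNReal.tsum_eq_iSup_nat]
  refine iSup_le fun n => ?_
  have h0 : ∀ T ∈ Finset.range n, 0 ≤ probAfter P w x T fun c => c.halted = false := by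
    intro T _
    unfold probAfter Crest.FinProb.uniformProb
    positivity
  rw [← ENNReal.ofReal_sum_of_nonneg h0]
  refine ENNReal.ofReal_le_ofReal ?_
  have e1 : ∑ T ∈ Finset.range n, (probAfter P w x T fun c => c.halted = false) =
      ramprobTE (2 ^ w) (n * len) fun ρ => ∑ T ∈ Finset.range n,
        if (run P w ρ x T).halted = false then 1 else 0 := by
    rw [ramprob_TE_sum]
    refine Finset.sum_congr rfl fun T hT => ?_
    rw [ramprob_probAfter T _
      ((Finset.mem_range.1 hT).le.trans (Nat.le_mul_of_pos_right n hlen))]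
    congr 1
    funext ρ
    congr 1
  have e2 : ramprobTE (2 ^ w) (n * len) (fun ρ => (t₀ : ℝ) + ∑ i ∈ Finset.range n,
      (if ramprobFail w len Rd ρ i then (1 : ℝ) else 0) * (t (bitsAt w ρ (i * len) len) : ℝ)) =
      t₀ + ∑ i ∈ Finset.range n, (1 - Pr len fun ω => (Rd ω).isSome = true) ^ i *
        Ex len fun ω => (t ω : ℝ) := by
    rw [ramprob_TE_add, ramprob_TE_const (by positivity), ramprob_TE_sum]
    congr 1
    exact Finset.sum_congr rfl fun i hi => ramprob_round hw (fun ω => (t ω : ℝ)) i _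
      (Nat.mul_le_mul_right _ (Finset.mem_range.1 hi))
  rw [e1]
  refine le_trans (ramprob_TE_mono fun ρ => ?_) (e2.le.trans ?_)
  · have main : ∀ i k : ℕ, i ≤ n → (∀ j, j < i → ramprobFail w len Rd ρ j) →
        k ≤ t₀ + ∑ j ∈ Finset.range i, t (bitsAt w ρ (j * len) len) →
        (∀ T, T < n → (run P w ρ x T).halted = false → T < k) →
        (∑ T ∈ Finset.range n, if (run P w ρ x T).halted = false then (1 : ℝ) else 0) ≤
          (t₀ : ℝ) + ∑ i ∈ Finset.range n, (if ramprobFail w len Rd ρ i then (1 : ℝ) else 0) *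
            (t (bitsAt w ρ (i * len) len) : ℝ) := by
      intro i k hi hf hk hT
      rw [Finset.sum_boole]
      have a1 : ((Finset.range n).filter fun T => (run P w ρ x T).halted = false).card ≤ k := by
        refine le_trans (Finset.card_le_card fun T h => ?_) (Finset.card_range k).le
        rw [Finset.mem_filter, Finset.mem_range] at h
        exact Finset.mem_range.2 (hT T h.1 h.2)
      have a2 : ((((Finset.range n).filter fun T => (run P w ρ x T).halted = false).card : ℕ) : ℝ) ≤
          ((t₀ + ∑ j ∈ Finset.range i, t (bitsAt w ρ (j * len) len) : ℕ) : ℝ) := by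
        exact_mod_cast a1.trans hk
      refine a2.trans ?_
      push_cast
      refine add_le_add le_rfl (le_trans (le_of_eq (Finset.sum_congr rfl fun j hj => ?_))
        (Finset.sum_le_sum_of_subset_of_nonneg (Finset.range_mono hi) fun j _ _ => ?_))
      · rw [if_pos (hf j (Finset.mem_range.1 hj)), one_mul]
      · split_ifs <;> simp
    by_cases h : ramprobFail w len Rd ρ n
    · obtain ⟨k, h1, h2, -⟩ := ramprob_head H ρ n h
      exact main n k le_rfl (fun j hj l hl => h l (by omega)) h2 fun T hT _ => by omega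
    · obtain ⟨i, y, h1, h2, h3⟩ := ramprob_first ρ h
      obtain ⟨k, h4, h5, -⟩ := ramprob_halt H ρ i h2 h3
      refine main (i + 1) k h1 (fun j hj l hl => h2 l (by omega)) h4 fun T _ hT => ?_
      by_contra h6
      rw [ramprob_run_halted ρ h5 (not_lt.1 h6), h5] at hT
      exact absurd hT (by simp)
  · rw [add_div]
    refine add_le_add ?_ (ramprob_geom hp hp1 ht n)
    rw [le_div_iff₀ hp]
    exact mul_le_of_le_one_right (Nat.cast_nonneg _) hp1

end Crest.Agent.R309
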