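import Mathlib

/-!
Row 309 (contingency tables): definitions for the theory of weighted integer flows.

A state is an integer flow `z : E → ℤ` on a finite directed multigraph; it carries the product weight
`wt a z = ∏ e, a e (z e)` of log-concave edge weights.  `Zc G R a c` is the total weight of the flows of
divergence `c`.  All sums run over the fixed finite box `box R`, which contains the support.
-/

set_option autoImplicit false
set_option linter.unusedSectionVars false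

namespace Crest.Agent.R309

open Finset

/-- A directed multigraph. -/
structure Gr (V E : Type) where
  /-- tail -/
  tl : E → V
  /-- head -/
  hd : E → V

/-- Log-concave with interval support (the `PF₂` form; `v = x + y - u` also lies in `[x, y]`). -/
def LC (p : ℤ → ℝ) : Prop :=
  (∀ x, 0 ≤ p x) ∧ ∀ x u v y, x ≤ u → u ≤ y → x + y = u + v → p x * p y ≤ p u * p v

/-- The potential `D² (D² - 1)`; it vanishes for `|D| ≤ 1` and is at least `12` otherwise. -/
def psi (D : ℤ) : ℝ := (D : ℝ) ^ 2 * ((D : ℝ) ^ 2 - 1)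

noncomputable section

variable {V E : Type} [Fintype V] [DecidableEq V] [Fintype E] [DecidableEq E]

/-- The root `e_i - e_j` (zero when `i = j`). -/
def rt (i j : V) : V → ℤ := fun v => (if i = v then 1 else 0) - (if j = v then 1 else 0)

/-- A root or zero. -/
def IsRt (δ : V → ℤ) : Prop := ∃ i j, δ = rt i j

instance (δ : V → ℤ) : Decidable (IsRt δ) := by unfold IsRt; infer_instance

/-- Incidence number. -/
def Gr.inc (G : Gr V E) (v : V) (e : E) : ℤ := rt (G.tl e) (G.hd e) v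

/-- Divergence (net outflow). -/
def Gr.div (G : Gr V E) (z : E → ℤ) : V → ℤ := fun v => ∑ e, G.inc v e * z e

/-- Net outflow at `v` through the edges of `A`. -/
def Gr.gf (G : Gr V E) (v : V) (A : Finset E) (z : E → ℤ) : ℤ := ∑ e ∈ A, G.inc v e * z e

/-- The box `[-R, R]^E`. -/
def box (E : Type) [Fintype E] [DecidableEq E] (R : ℕ) : Finset (E → ℤ) :=
  Fintype.piFinset fun _ : E => Finset.Icc (-(R : ℤ)) R

/-- Product weight. -/
def wt (a : E → ℤ → ℝ) (z : E → ℤ) : ℝ := ∏ e, a e (z e)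

/-- The flows in the box with divergence `c`. -/
def cls (G : Gr V E) (R : ℕ) (c : V → ℤ) : Finset (E → ℤ) := (box E R).filter fun z => G.div z = c

/-- Total weight of the class `c`. -/
def Zc (G : Gr V E) (R : ℕ) (a : E → ℤ → ℝ) (c : V → ℤ) : ℝ := ∑ z ∈ cls G R c, wt a z

/-- Admissible weights: log-concave, supported in `[-R, R]`. -/
def Adm (R : ℕ) (a : E → ℤ → ℝ) : Prop := (∀ e, LC (a e)) ∧ ∀ e x, a e x ≠ 0 → |x| ≤ R

/-- The reflected product `a^W (z) = a z * a (W - z)`. -/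
def rfl' (a : E → ℤ → ℝ) (W : E → ℤ) : E → ℤ → ℝ := fun e x => a e x * a e (W e - x)

/-- Symmetry about `W / 2`. -/
def Sym (a : E → ℤ → ℝ) (W : E → ℤ) : Prop := ∀ e x, a e x = a e (W e - x)

/-- Any two points of the support of each edge weight are at distance at most `w`. -/
def Wid (a : E → ℤ → ℝ) (w : ℕ) : Prop := ∀ e x y, a e x ≠ 0 → a e y ≠ 0 → |x - y| ≤ w

/-- The level-`l` coupling of the classes `d + ρ` and `d` (unnormalised, total mass
`Zc (d + ρ) * Zc d`): level `0` is the product; level `l + 1` draws an independent pair, keeps the sum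
`W` of the pair only, and uses level `l` for the weights `a^W`. -/
def Gam (G : Gr V E) (R : ℕ) (d ρ : V → ℤ) :
    ℕ → (E → ℤ → ℝ) → (E → ℤ) → (E → ℤ) → ℝ
  | 0, a => fun N X => if G.div N = d + ρ ∧ G.div X = d then wt a N * wt a X else 0
  | l + 1, a => fun N X =>
      ∑ W ∈ cls G (2 * R) (d + d + ρ), Gam G R d ρ l (rfl' a W) N X / Zc G R (rfl' a W) d

/-- Integral of `h` against the level-`l` coupling. -/
def GS (G : Gr V E) (R : ℕ) (d ρ : V → ℤ) (l : ℕ) (a : E → ℤ → ℝ)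
    (h : (E → ℤ) → (E → ℤ) → ℝ) : ℝ :=
  ∑ N ∈ box E R, ∑ X ∈ box E R, Gam G R d ρ l a N X * h N X

/-- `D` has entries in `{-1, 0, 1}` and at most one outgoing and one incoming unit at each vertex
(for loopless graphs). -/
def Good (G : Gr V E) (D : E → ℤ) : Prop := ∀ v e e', |G.gf v {e, e'} D| ≤ 1

instance (G : Gr V E) (D : E → ℤ) : Decidable (Good G D) := by unfold Good; infer_instance

/-- The congestion weight of a near-flow `S`. -/
def om (G : Gr V E) (R : ℕ) (d ρ : V → ℤ) (a : E → ℤ → ℝ) (S : E → ℤ) : ℝ :=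
  wt a S * Zc G R a (d + d + ρ - G.div S)

/-- Dirichlet form of the unit moves between near-flows, for the vertex weights `π`. -/
def UDir (G : Gr V E) (R : ℕ) (d : V → ℤ) (π f : (E → ℤ) → ℝ) : ℝ :=
  ∑ e, ∑ S ∈ box E R,
    if S + Pi.single e 1 ∈ box E R ∧ IsRt (G.div S - d) ∧ IsRt (G.div (S + Pi.single e 1) - d) then
      min (π S) (π (S + Pi.single e 1)) * (f S - f (S + Pi.single e 1)) ^ 2 else 0

/-- The ideal stationary weight: every class has total mass one. -/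
def pstar (G : Gr V E) (R : ℕ) (a : E → ℤ → ℝ) (S : E → ℤ) : ℝ :=
  wt a S / Zc G R a (G.div S)

/-- Index of the window (side `P`, offset `o`) containing `z`. -/
def win (P o : ℕ) (z : E → ℤ) : E → ℤ := fun e => (z e + o) / P

/-- The weights restricted to the window with index `k`. -/
def cut (a : E → ℤ → ℝ) (P o : ℕ) (k : E → ℤ) : E → ℤ → ℝ :=
  fun e x => if (x + o) / P = k e then a e x else 0

/-- Mean of `f` over the class `d` inside the window with index `k`. -/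
def wmean (G : Gr V E) (R : ℕ) (d : V → ℤ) (a : E → ℤ → ℝ) (f : (E → ℤ) → ℝ)
    (P o : ℕ) (k : E → ℤ) : ℝ :=
  (∑ X ∈ cls G R d, wt (cut a P o k) X * f X) / Zc G R (cut a P o k) d

/-- Window energy of the class `d`. -/
def WE (G : Gr V E) (R : ℕ) (d : V → ℤ) (a : E → ℤ → ℝ) (f : (E → ℤ) → ℝ)
    (P o : ℕ) : ℝ :=
  ∑ X ∈ cls G R d, wt a X * (f X - wmean G R d a f P o (win P o X)) ^ 2

/-- `lo ≤ z ≤ hi`. -/
def InBox (lo hi z : E → ℤ) : Prop := ∀ e, lo e ≤ z e ∧ z e ≤ hi e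

instance (lo hi z : E → ℤ) : Decidable (InBox lo hi z) := by unfold InBox; infer_instance

/-- Standing hypotheses of the weak Poincaré inequality; `n` bounds every size parameter. -/
structure Hyp (G : Gr V E) (R : ℕ) (lo hi : E → ℤ) (a : E → ℤ → ℝ) (d : V → ℤ) (n : ℕ) : Prop where
  noloop : ∀ e, G.tl e ≠ G.hd e
  adm : Adm R a
  pos : ∀ e x, 0 < a e x ↔ lo e ≤ x ∧ x ≤ hi e
  big : 1000 ≤ n
  cardV : Fintype.card V ≤ n
  cardE : Fintype.card E ≤ n
  width : ∀ e, hi e - lo e < 2 ^ n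
  ratio : ∀ z, InBox lo hi z → Zc G R a d ≤ 2 ^ n * wt a z
  flat : ∀ z z', InBox lo hi z → InBox lo hi z' → (∀ e, (n : ℤ) * |z e - z' e| ≤ hi e - lo e) →
    wt a z ≤ 2 * wt a z'
  zpos : 0 < Zc G R a d

/-- The range of the coordinate `e` over the flows of class `d` in the box. -/
def rng (G : Gr V E) (R : ℕ) (lo hi : E → ℤ) (d : V → ℤ) (e : E) : ℕ :=
  (((cls G R d).filter (InBox lo hi)) ×ˢ ((cls G R d).filter (InBox lo hi))).sup
    fun p => (p.1 e - p.2 e).toNat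

/-- The margin of the deep sub-box. -/
def mrg (G : Gr V E) (R : ℕ) (lo hi : E → ℤ) (d : V → ℤ) (n : ℕ) (e : E) : ℕ :=
  rng G R lo hi d e / n ^ 6

/-- The deep sub-box. -/
def Deep (G : Gr V E) (R : ℕ) (lo hi : E → ℤ) (d : V → ℤ) (n : ℕ) (z : E → ℤ) : Prop :=
  InBox (fun e => lo e + mrg G R lo hi d n e) (fun e => hi e - mrg G R lo hi d n e) z

instance (G : Gr V E) (R : ℕ) (lo hi : E → ℤ) (d : V → ℤ) (n : ℕ) (z : E → ℤ) :
    Decidable (Deep G R lo hi d n z) := by unfold Deep; infer_instance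

/-- Distance of `z e` to the boundary of `[lo e, hi e]`. -/
def dep (lo hi z : E → ℤ) (e : E) : ℤ := min (z e - lo e) (hi e - z e)

/-- A system of fundamental cycles of a spanning forest `T` that is greedy for the priority `pr`. -/
structure Cyc (G : Gr V E) (pr : E → ℤ) (T : Finset E) (C : E → E → ℤ) (n : ℕ) : Prop where
  circ : ∀ f, G.div (C f) = 0
  bdd : ∀ f t, |C f t| ≤ n
  tree : ∀ t ∈ T, C t = 0
  span : ∀ z, G.div z = 0 → z = ∑ f, z f • C f
  deep : ∀ f t, C f t ≠ 0 → pr f ≤ pr t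

/-- Dirichlet form of the cycle moves inside the class `d`. -/
def CDir (G : Gr V E) (R : ℕ) (d : V → ℤ) (a : E → ℤ → ℝ) (C : E → E → ℤ) (n : ℕ)
    (f : (E → ℤ) → ℝ) : ℝ :=
  ∑ g, ∑ j ∈ range n, ∑ y ∈ cls G R d,
    if y + (2 : ℤ) ^ j • C g ∈ box E R then
      min (wt a y) (wt a (y + (2 : ℤ) ^ j • C g)) * (f y - f (y + (2 : ℤ) ^ j • C g)) ^ 2 else 0

/-- The moves of the chain: `j = 0` is the unit move on `e`, `j = i + 1` is `2 ^ i` times the cycle
of `e`. -/
def mv (C : E → E → ℤ) (e : E) (j : ℕ) : E → ℤ :=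
  if j = 0 then Pi.single e 1 else (2 : ℤ) ^ (j - 1) • C e

/-- The state space: flows in `[lo, hi]` whose defect is a root or zero. -/
def Om (G : Gr V E) (R : ℕ) (lo hi : E → ℤ) (d : V → ℤ) : Finset (E → ℤ) :=
  (box E R).filter fun S => InBox lo hi S ∧ IsRt (G.div S - d)

/-- Dirichlet form of all moves, for the vertex weights `π`. -/
def Dir (Ω : Finset (E → ℤ)) (C : E → E → ℤ) (n : ℕ) (π f : (E → ℤ) → ℝ) : ℝ :=
  ∑ e, ∑ j ∈ range (n + 1), ∑ S ∈ Ω,
    if S + mv C e j ∈ Ω then min (π S) (π (S + mv C e j)) * (f S - f (S + mv C e j)) ^ 2 else 0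

/-- `f` takes values in `[0, 1]`. -/
def Unit01 {α : Type} (f : α → ℝ) : Prop := ∀ x, 0 ≤ f x ∧ f x ≤ 1

/-! ### elementary facts -/

lemma mem_box {R : ℕ} {z : E → ℤ} : z ∈ box E R ↔ ∀ e, |z e| ≤ R := by
  simp [box, abs_le]

lemma mem_cls {G : Gr V E} {R : ℕ} {c : V → ℤ} {z : E → ℤ} :
    z ∈ cls G R c ↔ z ∈ box E R ∧ G.div z = c := by simp [cls]

lemma rt_self (i : V) : rt i i = 0 := by funext v; simp [rt]

lemma rt_neg (i j : V) : -rt i j = rt j i := by funext v; simp [rt]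

lemma sum_rt (i j : V) : ∑ v, rt i j v = 0 := by simp [rt, Finset.sum_sub_distrib]

lemma IsRt.neg {δ : V → ℤ} (h : IsRt δ) : IsRt (-δ) := by
  obtain ⟨i, j, rfl⟩ := h; exact ⟨j, i, rt_neg i j⟩

lemma isRt_zero [Nonempty V] : IsRt (0 : V → ℤ) :=
  ⟨Classical.arbitrary V, _, (rt_self _).symm⟩

lemma Gr.div_add (G : Gr V E) (x y : E → ℤ) : G.div (x + y) = G.div x + G.div y := by
  funext v; simp [Gr.div, mul_add, Finset.sum_add_distrib]

lemma Gr.div_sub (G : Gr V E) (x y : E → ℤ) : G.div (x - y) = G.div x - G.div y := by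
  funext v; simp [Gr.div, mul_sub, Finset.sum_sub_distrib]

lemma Gr.div_smul (G : Gr V E) (c : ℤ) (x : E → ℤ) : G.div (c • x) = c • G.div x := by
  funext v; simp [Gr.div, Finset.mul_sum, mul_left_comm]

lemma Gr.div_zero (G : Gr V E) : G.div 0 = 0 := by funext v; simp [Gr.div]

lemma Gr.div_sum (G : Gr V E) {ι : Type} (s : Finset ι) (x : ι → E → ℤ) :
    G.div (∑ i ∈ s, x i) = ∑ i ∈ s, G.div (x i) := by
  classical
  induction s using Finset.induction_on with
  | empty => simp [G.div_zero]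
  | insert i s h ih => rw [Finset.sum_insert h, Finset.sum_insert h, G.div_add, ih]

lemma Gr.div_single (G : Gr V E) (e : E) (c : ℤ) :
    G.div (Pi.single e c) = c • rt (G.tl e) (G.hd e) := by
  funext v
  simp only [Gr.div, Pi.smul_apply, smul_eq_mul]
  rw [Finset.sum_eq_single e]
  · simp [Gr.inc, mul_comm]
  · intro b _ hb; simp [Pi.single_eq_of_ne hb]
  · simp

lemma Gr.sum_div (G : Gr V E) (z : E → ℤ) : ∑ v, G.div z v = 0 := by
  simp only [Gr.div]
  rw [Finset.sum_comm]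
  refine Finset.sum_eq_zero fun e _ => ?_
  rw [← Finset.sum_mul]
  simp [Gr.inc, sum_rt]

lemma Gr.gf_sub (G : Gr V E) (v : V) (A : Finset E) (x y : E → ℤ) :
    G.gf v A (x - y) = G.gf v A x - G.gf v A y := by
  simp [Gr.gf, mul_sub, Finset.sum_sub_distrib]

lemma Gr.gf_add (G : Gr V E) (v : V) (A : Finset E) (x y : E → ℤ) :
    G.gf v A (x + y) = G.gf v A x + G.gf v A y := by
  simp [Gr.gf, mul_add, Finset.sum_add_distrib]

lemma Gr.gf_single_tl (G : Gr V E) (e : E) (h : G.tl e ≠ G.hd e) (z : E → ℤ) :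
    G.gf (G.tl e) {e} z = z e := by
  simp [Gr.gf, Gr.inc, rt, h.symm]

lemma Adm.nonneg {R : ℕ} {a : E → ℤ → ℝ} (h : Adm R a) (e : E) (x : ℤ) : 0 ≤ a e x := (h.1 e).1 x

lemma Adm.wt_nonneg {R : ℕ} {a : E → ℤ → ℝ} (h : Adm R a) (z : E → ℤ) : 0 ≤ wt a z :=
  Finset.prod_nonneg fun e _ => h.nonneg e _

lemma Adm.Zc_nonneg {R : ℕ} {a : E → ℤ → ℝ} (h : Adm R a) (G : Gr V E) (c : V → ℤ) :
    0 ≤ Zc G R a c := Finset.sum_nonneg fun z _ => h.wt_nonneg z

lemma wt_ne_zero {a : E → ℤ → ℝ} {z : E → ℤ} : wt a z ≠ 0 ↔ ∀ e, a e (z e) ≠ 0 := by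
  simp [wt, Finset.prod_ne_zero_iff]

lemma Adm.mem_box {R : ℕ} {a : E → ℤ → ℝ} (h : Adm R a) {z : E → ℤ} (hz : wt a z ≠ 0) :
    z ∈ box E R := Crest.Agent.R309.mem_box.2 fun e => h.2 e _ (wt_ne_zero.1 hz e)

lemma Adm.wt_le_Zc {R : ℕ} {a : E → ℤ → ℝ} (h : Adm R a) (G : Gr V E) (z : E → ℤ) :
    wt a z ≤ Zc G R a (G.div z) := by
  by_cases hz : wt a z = 0
  · rw [hz]; exact h.Zc_nonneg G _
  · exact Finset.single_le_sum (f := wt a) (fun y _ => h.wt_nonneg y)
      (mem_cls.2 ⟨h.mem_box hz, rfl⟩)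

lemma wt_rfl' (a : E → ℤ → ℝ) (W z : E → ℤ) : wt (rfl' a W) z = wt a z * wt a (W - z) := by
  simp [wt, rfl', Finset.prod_mul_distrib]

lemma sym_rfl' (a : E → ℤ → ℝ) (W : E → ℤ) : Sym (rfl' a W) W := by
  intro e x; simp [rfl', mul_comm]

lemma Sym.wt_eq {a : E → ℤ → ℝ} {W : E → ℤ} (h : Sym a W) (z : E → ℤ) :
    wt a (W - z) = wt a z := by
  simp only [wt, Pi.sub_apply]
  exact Finset.prod_congr rfl fun e _ => (h e _).symm

lemma wt_cut (a : E → ℤ → ℝ) (P o : ℕ) (k z : E → ℤ) :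
    wt (cut a P o k) z = if win P o z = k then wt a z else 0 := by
  split_ifs with h
  · subst h; simp [wt, cut, win]
  · obtain ⟨e, he⟩ := Function.ne_iff.1 h
    exact Finset.prod_eq_zero (Finset.mem_univ e) (by simpa [cut, win] using fun h' => absurd h' he)

lemma Hyp.wt_pos_iff {G : Gr V E} {R : ℕ} {lo hi : E → ℤ} {a : E → ℤ → ℝ} {d : V → ℤ} {n : ℕ}
    (H : Hyp G R lo hi a d n) (z : E → ℤ) : 0 < wt a z ↔ InBox lo hi z := by
  constructor
  · intro h e
    exact (H.pos e _).1 (lt_of_le_of_ne (H.adm.nonneg e _) (wt_ne_zero.1 h.ne' e).symm)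
  · intro h
    exact Finset.prod_pos fun e _ => (H.pos e _).2 (h e)

lemma psi_nonneg (D : ℤ) : 0 ≤ psi D := by
  unfold psi
  rcases eq_or_ne D 0 with rfl | h
  · simp
  · have h1 : (1 : ℤ) ≤ D ^ 2 := by
      have := sq_pos_of_ne_zero h
      omega
    have h2 : (1 : ℝ) ≤ (D : ℝ) ^ 2 := by exact_mod_cast h1
    exact mul_nonneg (sq_nonneg _) (by linarith)

lemma psi_neg (D : ℤ) : psi (-D) = psi D := by simp [psi]

lemma psi_ge {D : ℤ} (h : 1 < |D|) : 3 / 4 * (D : ℝ) ^ 4 ≤ psi D ∧ 12 ≤ psi D := by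
  have h1 : (4 : ℤ) ≤ D ^ 2 := by rw [← sq_abs]; nlinarith
  have h2 : (4 : ℝ) ≤ (D : ℝ) ^ 2 := by exact_mod_cast h1
  unfold psi
  constructor <;> nlinarith

lemma psi_le {D : ℤ} {w : ℝ} (h : |(D : ℝ)| ≤ w) : psi D ≤ w ^ 4 := by
  have h1 : (D : ℝ) ^ 2 ≤ w ^ 2 := by
    rw [← sq_abs]; exact pow_le_pow_left₀ (abs_nonneg _) h 2
  unfold psi
  nlinarith [sq_nonneg (D : ℝ)]

end

end Crest.Agent.R309
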