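import Crest.Agent.Lib.PT.Mat
import Crest.Agent.Lib.PT.Exp
import Crest.Agent.R309.Defs
import Crest.Prelude.Def_FinProb

/-! Row 309: expectations over uniformly random bit strings of a given length. -/

set_option autoImplicit false

namespace Crest.Agent.R309

open Finset Crest.Agent.Lib.PT

/-- Expectation over a uniformly random bit string of length `r`. -/
noncomputable def Ex (r : ℕ) (F : List Bool → ℝ) : ℝ :=
  (∑ ω : Fin r → Bool, F (List.ofFn ω)) / 2 ^ r

open Classical in
/-- Probability over a uniformly random bit string of length `r`. -/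
noncomputable def Pr (r : ℕ) (P : List Bool → Prop) : ℝ := Ex r fun l => if P l then 1 else 0

/-- The Markov operator of a randomized step using `r` bits. -/
noncomputable def Kop {α : Type} (r : ℕ) (step : α → List Bool → α) (φ : α → ℝ) (x : α) : ℝ :=
  Ex r fun ω => φ (step x ω)

/-- All bit strings of length `n`. -/
def allBits : ℕ → List (List Bool)
  | 0 => [[]]
  | n + 1 => (allBits n).map (false :: ·) ++ (allBits n).map (true :: ·)

open Classical in
/-- indicator of a proposition -/
noncomputable def tapeInd (p : Prop) : ℝ := if p then 1 else 0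

lemma tape_Pr (r : ℕ) (P : List Bool → Prop) : Pr r P = Ex r fun l => tapeInd (P l) := rfl

lemma tapeInd_nonneg (p : Prop) : 0 ≤ tapeInd p := by
  unfold tapeInd
  split_ifs <;> norm_num

lemma tapeInd_le_one (p : Prop) : tapeInd p ≤ 1 := by
  unfold tapeInd
  split_ifs <;> norm_num

lemma tapeInd_mono {p q : Prop} (h : p → q) : tapeInd p ≤ tapeInd q := by
  by_cases hp : p
  · simp [tapeInd, hp, h hp]
  · simpa [tapeInd, hp] using tapeInd_nonneg q

lemma tapeInd_or_le (p q : Prop) : tapeInd (p ∨ q) ≤ tapeInd p + tapeInd q := by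
  by_cases hp : p <;> by_cases hq : q <;> simp [tapeInd, hp, hq]

lemma tape_sum_two_mul (N : ℕ) (F : ℕ → ℝ) :
    ∑ k ∈ range (2 * N), F k = ∑ k ∈ range N, (F (2 * k) + F (2 * k + 1)) := by
  induction N with
  | zero => simp
  | succ N ih =>
    rw [Nat.mul_succ, Finset.sum_range_succ, Finset.sum_range_succ, ih, Finset.sum_range_succ,
      add_assoc]

lemma tape_ofBits_mod (q : ℕ) (l : List Bool) : ofBits l % 2 ^ q = ofBits (l.take q) := by
  induction q generalizing l with
  | zero => simp [Nat.mod_one]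
  | succ q ih =>
    cases l with
    | nil => simp
    | cons b l =>
      rw [List.take_succ_cons, ofBits_cons, ofBits_cons, ← ih, Nat.bit_val, Nat.bit_val, pow_succ']
      have h1 := Nat.div_add_mod (ofBits l) (2 ^ q)
      have h2 := Nat.mod_lt (ofBits l) (Nat.two_pow_pos q)
      have h3 := Bool.toNat_le b
      have h4 : 2 * ofBits l + b.toNat =
          2 * 2 ^ q * (ofBits l / 2 ^ q) + (2 * (ofBits l % 2 ^ q) + b.toNat) := by
        rw [mul_assoc]; omega
      rw [h4, Nat.mul_add_mod, Nat.mod_eq_of_lt (by omega)]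

lemma tape_sum_map_sub {α : Type} (L : List α) (Y : α → ℝ) (c : ℝ) :
    (L.map fun u => Y u - c).sum = (L.map Y).sum - L.length * c := by
  induction L with
  | nil => simp
  | cons u L ih =>
    simp only [List.map_cons, List.sum_cons, ih, List.length_cons]
    push_cast
    ring

lemma Ex_zero (F : List Bool → ℝ) : Ex 0 F = F [] := by
  simp [Ex]

lemma Ex_succ (r : ℕ) (F : List Bool → ℝ) :
    Ex (r + 1) F = (Ex r (fun l => F (false :: l)) + Ex r (fun l => F (true :: l))) / 2 := by
  unfold Ex
  rw [← (Fin.consEquiv fun _ : Fin (r + 1) => Bool).sum_comp, Fintype.sum_prod_type,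
    Fintype.sum_bool]
  simp only [Fin.consEquiv_apply, List.ofFn_succ, Fin.cons_zero, Fin.cons_succ]
  rw [pow_succ]
  field_simp
  ring

lemma Ex_append (r s : ℕ) (F : List Bool → ℝ) :
    Ex (r + s) F = Ex r fun u => Ex s fun v => F (u ++ v) := by
  induction r generalizing F with
  | zero => simp [Ex_zero]
  | succ r ih =>
    rw [Nat.succ_add, Ex_succ, Ex_succ, ih, ih]
    rfl

lemma Ex_congr {r : ℕ} {F G : List Bool → ℝ} (h : ∀ l, l.length = r → F l = G l) :
    Ex r F = Ex r G := by
  unfold Ex
  rw [Finset.sum_congr rfl fun ω _ => h _ List.length_ofFn]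

lemma Ex_mono {r : ℕ} {F G : List Bool → ℝ} (h : ∀ l, l.length = r → F l ≤ G l) :
    Ex r F ≤ Ex r G := by
  unfold Ex
  exact div_le_div_of_nonneg_right (Finset.sum_le_sum fun ω _ => h _ List.length_ofFn)
    (by positivity)

lemma Ex_const (r : ℕ) (c : ℝ) : Ex r (fun _ => c) = c := by
  simp [Ex]

lemma Ex_add (r : ℕ) (F G : List Bool → ℝ) : Ex r (fun l => F l + G l) = Ex r F + Ex r G := by
  simp only [Ex, Finset.sum_add_distrib, add_div]

lemma Ex_sub (r : ℕ) (F G : List Bool → ℝ) : Ex r (fun l => F l - G l) = Ex r F - Ex r G := by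
  simp only [Ex, Finset.sum_sub_distrib, sub_div]

lemma Ex_mul_left (r : ℕ) (c : ℝ) (F : List Bool → ℝ) : Ex r (fun l => c * F l) = c * Ex r F := by
  simp only [Ex, ← Finset.mul_sum, mul_div_assoc]

lemma Ex_mul_right (r : ℕ) (c : ℝ) (F : List Bool → ℝ) : Ex r (fun l => F l * c) = Ex r F * c := by
  simp only [mul_comm _ c, Ex_mul_left]

lemma Ex_sum (r : ℕ) {ι : Type} (s : Finset ι) (F : ι → List Bool → ℝ) :
    Ex r (fun l => ∑ i ∈ s, F i l) = ∑ i ∈ s, Ex r (F i) := by
  simp only [Ex, ← Finset.sum_div]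
  rw [Finset.sum_comm]

lemma Ex_nonneg {r : ℕ} {F : List Bool → ℝ} (h : ∀ l, l.length = r → 0 ≤ F l) : 0 ≤ Ex r F := by
  simpa [Ex_const] using Ex_mono (F := fun _ => 0) h

lemma Ex_sq_le (r : ℕ) (F : List Bool → ℝ) : Ex r F ^ 2 ≤ Ex r fun l => F l ^ 2 := by
  induction r generalizing F with
  | zero => simp [Ex_zero]
  | succ r ih =>
    rw [Ex_succ, Ex_succ]
    have h1 := ih fun l => F (false :: l)
    have h2 := ih fun l => F (true :: l)
    nlinarith [sq_nonneg (Ex r (fun l => F (false :: l)) - Ex r (fun l => F (true :: l)))]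

lemma Ex_split (r s : ℕ) (F : List Bool → List Bool → ℝ) :
    Ex (r + s) (fun l => F (l.take r) (l.drop r)) = Ex r fun u => Ex s fun v => F u v := by
  rw [Ex_append]
  refine Ex_congr fun u hu => Ex_congr fun v _ => ?_
  rw [List.take_left' hu, List.drop_left' hu]

lemma Ex_take {r s : ℕ} (h : r ≤ s) (F : List Bool → ℝ) :
    Ex s (fun l => F (l.take r)) = Ex r F := by
  obtain ⟨k, rfl⟩ := Nat.exists_eq_add_of_le h
  rw [Ex_split r k fun u _ => F u]
  simp only [Ex_const]

lemma Ex_drop (r s : ℕ) (F : List Bool → ℝ) : Ex (r + s) (fun l => F (l.drop r)) = Ex s F := by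
  rw [Ex_split r s fun _ v => F v]
  exact Ex_const _ _

/-- A function of the first `r` bits has the same expectation on every longer tape. -/
lemma Ex_of_prefix {r s : ℕ} (h : r ≤ s) {F : List Bool → ℝ} (hF : ∀ l, F (l.take r) = F l) :
    Ex s F = Ex r F := by
  rw [← Ex_take h F]
  exact Ex_congr fun l _ => (hF l).symm

/-- Expectation of a function of a random variable with values in a finite set. -/
lemma Ex_comp {α : Type} (r : ℕ) (Ω : Finset α) (X : List Bool → α)
    (hX : ∀ l, l.length = r → X l ∈ Ω) (φ : α → ℝ) :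
    Ex r (fun l => φ (X l)) = ∑ x ∈ Ω, Pr r (fun l => X l = x) * φ x := by
  classical
  simp only [Pr, ← Ex_mul_right]
  rw [← Ex_sum]
  refine Ex_congr fun l hl => ?_
  simp [hX l hl]

lemma uniformProb_eq (r : ℕ) (P : List Bool → Prop) :
    Crest.FinProb.uniformProb {ω : Fin r → Bool | P (List.ofFn ω)} = Pr r P := by
  classical
  simp only [Crest.FinProb.uniformProb, Pr, Ex, Set.mem_ofPred_eq, Finset.sum_boole]
  simp

lemma Pr_nonneg (r : ℕ) (P : List Bool → Prop) : 0 ≤ Pr r P := by
  exact Ex_nonneg fun l _ => (tapeInd_nonneg _)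

lemma Pr_le_one (r : ℕ) (P : List Bool → Prop) : Pr r P ≤ 1 := by
  exact (Ex_mono fun l _ => tapeInd_le_one (P l)).trans (Ex_const r 1).le

lemma Pr_congr {r : ℕ} {P Q : List Bool → Prop} (h : ∀ l, l.length = r → (P l ↔ Q l)) :
    Pr r P = Pr r Q := by
  exact Ex_congr fun l hl => congrArg tapeInd (propext (h l hl))

lemma Pr_mono {r : ℕ} {P Q : List Bool → Prop} (h : ∀ l, l.length = r → P l → Q l) :
    Pr r P ≤ Pr r Q := by
  exact Ex_mono fun l hl => tapeInd_mono (h l hl)

lemma Pr_not (r : ℕ) (P : List Bool → Prop) : Pr r (fun l => ¬ P l) = 1 - Pr r P := by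
  rw [tape_Pr, tape_Pr, ← Ex_const r 1, ← Ex_sub]
  refine Ex_congr fun l _ => ?_
  by_cases h : P l <;> simp [tapeInd, h]

lemma Pr_true (r : ℕ) : Pr r (fun _ => True) = 1 := by
  simp [Pr, Ex_const]

lemma Pr_false (r : ℕ) : Pr r (fun _ => False) = 0 := by
  simp [Pr, Ex_const]

lemma Pr_or_le (r : ℕ) (P Q : List Bool → Prop) : Pr r (fun l => P l ∨ Q l) ≤ Pr r P + Pr r Q := by
  rw [tape_Pr, tape_Pr, tape_Pr, ← Ex_add]
  exact Ex_mono fun l _ => tapeInd_or_le _ _

lemma Pr_exists_le (r : ℕ) {ι : Type} (s : Finset ι) (P : ι → List Bool → Prop) :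
    Pr r (fun l => ∃ i ∈ s, P i l) ≤ ∑ i ∈ s, Pr r (P i) := by
  classical
  induction s using Finset.induction_on with
  | empty => simp [Pr_false]
  | insert i s hi ih =>
    rw [Finset.sum_insert hi]
    refine le_trans ?_ (add_le_add_right ih _)
    refine le_trans (Pr_mono fun l _ hl => ?_) (Pr_or_le r _ _)
    simpa using hl

lemma Pr_split (r s : ℕ) (P : List Bool → List Bool → Prop) :
    Pr (r + s) (fun l => P (l.take r) (l.drop r)) = Ex r fun u => Pr s fun v => P u v := by
  exact Ex_split r s fun u v => tapeInd (P u v)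

lemma Pr_take {r s : ℕ} (h : r ≤ s) (P : List Bool → Prop) :
    Pr s (fun l => P (l.take r)) = Pr r P := by
  exact Ex_take h fun l => tapeInd (P l)

lemma Pr_of_prefix {r s : ℕ} (h : r ≤ s) {P : List Bool → Prop} (hP : ∀ l, P (l.take r) ↔ P l) :
    Pr s P = Pr r P := by
  rw [← Pr_take h P]
  exact Pr_congr fun l _ => (hP l).symm

lemma ofBits_lt (l : List Bool) : ofBits l < 2 ^ l.length := by
  induction l with
  | nil => simp
  | cons b l ih =>
    rw [ofBits_cons, Nat.bit_val, List.length_cons, pow_succ]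
    have := Bool.toNat_le b
    omega

lemma Ex_ofBits (r : ℕ) (F : ℕ → ℝ) :
    Ex r (fun l => F (ofBits l)) = (∑ k ∈ range (2 ^ r), F k) / 2 ^ r := by
  induction r generalizing F with
  | zero => simp [Ex_zero]
  | succ r ih =>
    rw [Ex_succ]
    simp only [ofBits_cons, Nat.bit_val, Bool.toNat_false, Bool.toNat_true, add_zero]
    rw [ih fun k => F (2 * k), ih fun k => F (2 * k + 1), pow_succ' 2 r, tape_sum_two_mul,
      Finset.sum_add_distrib, pow_succ]
    field_simp

lemma Ex_ofBits_mod {q r : ℕ} (h : q ≤ r) (F : ℕ → ℝ) :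
    Ex r (fun l => F (ofBits l % 2 ^ q)) = (∑ k ∈ range (2 ^ q), F k) / 2 ^ q := by
  simp only [tape_ofBits_mod]
  rw [Ex_take h fun l => F (ofBits l), Ex_ofBits]

lemma Pr_ofBits_mod_le (r b k : ℕ) (hb : 0 < b) :
    Pr r (fun l => ofBits l % b = k) ≤ 1 / b + 1 / 2 ^ r := by
  rw [tape_Pr, Ex_ofBits r fun j => tapeInd (j % b = k)]
  have h1 : ((range (2 ^ r)).filter fun j => j % b = k).card ≤ (range (2 ^ r / b + 1)).card := by
    refine Finset.card_le_card_of_injOn (fun j => j / b) (fun j hj => ?_) fun i hi j hj hij => ?_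
    · simp only [coe_filter, mem_range, Set.mem_ofPred_eq, coe_range, Set.mem_Iio] at hj ⊢
      exact Nat.lt_succ_of_le (Nat.div_le_div_right hj.1.le)
    · simp only [coe_filter, mem_range, Set.mem_ofPred_eq] at hi hj hij
      rw [← Nat.div_add_mod i b, ← Nat.div_add_mod j b, hij, hi.2, hj.2]
  have h2 : ∑ j ∈ range (2 ^ r), tapeInd (j % b = k) =
      (((range (2 ^ r)).filter fun j => j % b = k).card : ℝ) := by
    rw [← Finset.sum_boole]
    exact Finset.sum_congr rfl fun j _ => by simp [tapeInd]
  rw [Finset.card_range] at h1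
  have h3 : (((range (2 ^ r)).filter fun j => j % b = k).card : ℝ) ≤ 2 ^ r / b + 1 := by
    have h4 : ((2 ^ r / b : ℕ) : ℝ) ≤ ((2 ^ r : ℕ) : ℝ) / b := Nat.cast_div_le
    have h5 : (((range (2 ^ r)).filter fun j => j % b = k).card : ℝ) ≤ ((2 ^ r / b + 1 : ℕ) : ℝ) :=
      Nat.cast_le.2 h1
    push_cast at h4 h5
    linarith
  rw [h2, div_le_iff₀ (by positivity)]
  refine h3.trans (le_of_eq ?_)
  field_simp

lemma Pr_allFalse {k r : ℕ} (h : k ≤ r) :
    Pr r (fun l => (l.take k).all (fun b => !b) = true) = 1 / 2 ^ k := by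
  rw [Pr_take h fun l => l.all (fun b => !b) = true]
  clear h
  induction k with
  | zero => simp [Pr, Ex_zero]
  | succ k ih =>
    rw [tape_Pr] at ih ⊢
    rw [Ex_succ]
    simp only [List.all_cons, Bool.not_false, Bool.true_and, Bool.not_true, Bool.false_and]
    rw [ih, pow_succ]
    simp [tapeInd, Ex_const]
    ring

lemma length_chunks {β : Type} (n m : ℕ) (l : List β) : (chunks n m l).length = n := by
  simp [chunks]

lemma chunks_take {β : Type} {n m k : ℕ} (h : n * m ≤ k) (l : List β) :
    chunks n m (l.take k) = chunks n m l := by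
  refine List.map_congr_left fun j hj => ?_
  have h1 : (j + 1) * m ≤ n * m := Nat.mul_le_mul_right m (List.mem_range.1 hj)
  rw [Nat.succ_mul] at h1
  rw [List.drop_take, List.take_take, Nat.min_eq_left (by omega)]

lemma chunks_succ {β : Type} (n m : ℕ) (l : List β) :
    chunks (n + 1) m l = l.take m :: chunks n m (l.drop m) := by
  simp only [chunks]
  rw [List.range_succ_eq_map, List.map_cons, List.map_map]
  congr 1
  · simp
  · refine List.map_congr_left fun j _ => ?_
    simp only [Function.comp, List.drop_drop, Nat.succ_mul]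
    rw [add_comm]

lemma chunks_succ' {β : Type} (n m : ℕ) (l : List β) :
    chunks (n + 1) m l = chunks n m l ++ [(l.drop (n * m)).take m] := by
  simp [chunks, List.range_succ]

lemma length_of_mem_chunks {β : Type} {n m : ℕ} {l : List β} (h : n * m ≤ l.length) {u : List β}
    (hu : u ∈ chunks n m l) : u.length = m := by
  obtain ⟨j, hj, rfl⟩ := List.mem_map.1 hu
  have h1 : (j + 1) * m ≤ n * m := Nat.mul_le_mul_right m (List.mem_range.1 hj)
  rw [Nat.succ_mul] at h1
  rw [List.length_take, List.length_drop]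
  omega

lemma Ex_chunks_succ (n m : ℕ) (F : List (List Bool) → ℝ) :
    Ex ((n + 1) * m) (fun l => F (chunks (n + 1) m l)) =
      Ex m fun u => Ex (n * m) fun v => F (u :: chunks n m v) := by
  simp only [chunks_succ]
  rw [Nat.succ_mul, add_comm]
  exact Ex_split m (n * m) fun u v => F (u :: chunks n m v)

lemma Ex_chunks_succ' (n m : ℕ) (F : List (List Bool) → ℝ) :
    Ex ((n + 1) * m) (fun l => F (chunks (n + 1) m l)) =
      Ex (n * m) fun u => Ex m fun v => F (chunks n m u ++ [v]) := by
  rw [← Ex_split (n * m) m fun u v => F (chunks n m u ++ [v]), Nat.succ_mul]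
  refine Ex_congr fun l hl => ?_
  rw [chunks_succ', chunks_take le_rfl, List.take_of_length_le (by rw [List.length_drop]; omega)]

lemma Kop_unit01 {α : Type} (r : ℕ) (step : α → List Bool → α) {φ : α → ℝ} (h : Unit01 φ) :
    Unit01 (Kop r step φ) := by
  intro x
  exact ⟨Ex_nonneg fun l _ => (h _).1, (Ex_mono fun l _ => (h _).2).trans (Ex_const r 1).le⟩

lemma Kop_iterate_unit01 {α : Type} (r : ℕ) (step : α → List Bool → α) {φ : α → ℝ} (h : Unit01 φ)
    (T : ℕ) : Unit01 ((Kop r step)^[T] φ) := by
  induction T with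
  | zero => exact h
  | succ T ih =>
    rw [Function.iterate_succ_apply']
    exact Kop_unit01 r step ih

lemma Ex_foldl {α : Type} (r T : ℕ) (step : α → List Bool → α) (φ : α → ℝ) (x : α) :
    Ex (T * r) (fun l => φ ((chunks T r l).foldl step x)) = (Kop r step)^[T] φ x := by
  induction T generalizing x with
  | zero => simp [Ex_zero, chunks]
  | succ T ih =>
    rw [Ex_chunks_succ T r fun L => φ (L.foldl step x), Function.iterate_succ_apply']
    simp only [List.foldl_cons, ih]
    rfl

/-- Independence of the chunks. -/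
lemma Ex_prod_chunks (n m : ℕ) (F : ℕ → List Bool → ℝ) :
    Ex (n * m) (fun l => ∏ i ∈ range n, F i ((chunks n m l).getD i [])) =
      ∏ i ∈ range n, Ex m (F i) := by
  induction n generalizing F with
  | zero => simp [Ex_zero]
  | succ n ih =>
    rw [Ex_chunks_succ n m fun L => ∏ i ∈ range (n + 1), F i (L.getD i [])]
    simp only [Finset.prod_range_succ', List.getD_cons_succ, List.getD_cons_zero, Ex_mul_right]
    simp only [ih fun i => F (i + 1), Ex_mul_left]

lemma tape_moments (n m : ℕ) {Z : List Bool → ℝ} (h0 : Ex m Z = 0) (h1 : ∀ l, Z l ^ 2 ≤ 1) :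
    Ex (n * m) (fun l => ((chunks n m l).map Z).sum) = 0 ∧
      Ex (n * m) (fun l => ((chunks n m l).map Z).sum ^ 2) ≤ n := by
  induction n with
  | zero => simp [chunks, Ex_zero]
  | succ n ih =>
    rw [Ex_chunks_succ n m fun L => (L.map Z).sum, Ex_chunks_succ n m fun L => (L.map Z).sum ^ 2]
    simp only [List.map_cons, List.sum_cons, add_sq, Ex_add, Ex_const, Ex_mul_left, ih.1, h0,
      mul_zero, add_zero, true_and]
    have h2 := (Ex_mono (r := m) fun l _ => h1 l).trans (Ex_const m 1).le
    push_cast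
    linarith [ih.2]

/-- Chebyshev's inequality for the empirical mean of independent copies. -/
lemma chebyshev (n m : ℕ) (hn : 0 < n) {Y : List Bool → ℝ} (hY : Unit01 Y) {t : ℝ} (ht : 0 < t) :
    Pr (n * m) (fun l => t ≤ |((chunks n m l).map Y).sum / n - Ex m Y|) ≤ 1 / (n * t ^ 2) := by
  have hμ : 0 ≤ Ex m Y ∧ Ex m Y ≤ 1 :=
    ⟨Ex_nonneg fun l _ => (hY l).1, (Ex_mono fun l _ => (hY l).2).trans (Ex_const m 1).le⟩
  have h0 : Ex m (fun l => Y l - Ex m Y) = 0 := by rw [Ex_sub, Ex_const, sub_self]
  have h1 : ∀ l, (Y l - Ex m Y) ^ 2 ≤ 1 := fun l => by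
    have := hY l
    nlinarith [hμ.1, hμ.2, this.1, this.2]
  have h2 := (tape_moments n m h0 h1).2
  have hn' : (0 : ℝ) < n := Nat.cast_pos.2 hn
  have h3 : Pr (n * m) (fun l => t ≤ |((chunks n m l).map Y).sum / n - Ex m Y|) ≤
      Ex (n * m) fun l => ((chunks n m l).map fun u => Y u - Ex m Y).sum ^ 2 * (1 / (n * t) ^ 2) := by
    refine Ex_mono fun l _ => ?_
    split_ifs with h
    · have e : ((chunks n m l).map fun u => Y u - Ex m Y).sum =
          n * (((chunks n m l).map Y).sum / n - Ex m Y) := by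
        rw [tape_sum_map_sub, length_chunks]
        field_simp
      rw [e, mul_one_div, le_div_iff₀ (by positivity), one_mul, mul_pow, mul_pow]
      refine mul_le_mul_of_nonneg_left ?_ (by positivity)
      rw [← sq_abs (_ - _)]
      exact pow_le_pow_left₀ ht.le h 2
    · positivity
  rw [Ex_mul_right] at h3
  refine h3.trans ((mul_le_mul_of_nonneg_right h2 (by positivity)).trans (le_of_eq ?_))
  field_simp

lemma Pr_exists_chunk (n m : ℕ) (P : List Bool → Prop) :
    Pr (n * m) (fun l => ∃ u ∈ chunks n m l, P u) ≤ n * Pr m P := by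
  induction n with
  | zero => simp [chunks, Pr_false]
  | succ n ih =>
    rw [tape_Pr, Ex_chunks_succ n m fun L => tapeInd (∃ u ∈ L, P u)]
    calc _ ≤ Ex m fun u => Ex (n * m) fun v =>
          tapeInd (P u) + tapeInd (∃ u ∈ chunks n m v, P u) := by
          refine Ex_mono fun u _ => Ex_mono fun v _ => ?_
          refine le_trans (tapeInd_mono fun h => ?_) (tapeInd_or_le _ _)
          simpa using h
      _ = Pr m P + Pr (n * m) (fun l => ∃ u ∈ chunks n m l, P u) := by
          simp only [Ex_add, Ex_const, tape_Pr]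
      _ ≤ _ := by push_cast; linarith

open Classical in
/-- `E 16 ^ #bad ≤ (1 + 15 / 16) ^ k ≤ 2 ^ k`, and `16 ^ #bad ≥ 4 ^ k` on the event. -/
lemma Pr_majority (k m : ℕ) (P : List Bool → Prop) (hP : Pr m P ≤ 1 / 16) :
    Pr (k * m) (fun l => k ≤ 2 * (chunks k m l).countP (fun u => decide (P u))) ≤ (1 / 2) ^ k := by
  have h1 : Ex m (fun u => (16 : ℝ) ^ (if P u then 1 else 0)) ≤ 2 := by
    have e : Ex m (fun u => (16 : ℝ) ^ (if P u then 1 else 0)) =
        Ex m fun u => 1 + 15 * tapeInd (P u) := Ex_congr fun u _ => by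
      by_cases h : P u <;> simp [tapeInd, h]
      norm_num
    rw [e, Ex_add, Ex_const, Ex_mul_left, ← tape_Pr]
    linarith
  have h2 : ∀ k : ℕ,
      Ex (k * m) (fun l => (16 : ℝ) ^ (chunks k m l).countP (fun u => decide (P u))) ≤ 2 ^ k := by
    intro k
    induction k with
    | zero => simp [chunks, Ex_zero]
    | succ k ih =>
      rw [Ex_chunks_succ k m fun L => (16 : ℝ) ^ L.countP (fun u => decide (P u))]
      simp only [List.countP_cons, pow_add, Ex_mul_right, Ex_mul_left, decide_eq_true_eq, pow_one]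
      exact mul_le_mul ih h1 (Ex_nonneg fun _ _ => by positivity) (by positivity)
  have h3 : Pr (k * m) (fun l => k ≤ 2 * (chunks k m l).countP (fun u => decide (P u))) ≤
      Ex (k * m) fun l => (16 : ℝ) ^ (chunks k m l).countP (fun u => decide (P u)) * (1 / 4) ^ k := by
    refine Ex_mono fun l _ => ?_
    split_ifs with h
    · rw [one_div, inv_pow, ← div_eq_mul_inv, le_div_iff₀ (by positivity), one_mul,
        show (16 : ℝ) = 4 ^ 2 by norm_num, ← pow_mul]
      exact pow_le_pow_right₀ (by norm_num) h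
    · positivity
  rw [Ex_mul_right] at h3
  refine h3.trans ((mul_le_mul_of_nonneg_right (h2 k) (by positivity)).trans (le_of_eq ?_))
  rw [← mul_pow]
  norm_num

lemma mem_allBits {n : ℕ} {l : List Bool} : l ∈ allBits n ↔ l.length = n := by
  induction n generalizing l with
  | zero => simp [allBits]
  | succ n ih =>
    cases l with
    | nil => simp [allBits]
    | cons b l => cases b <;> simp [allBits, ih]

lemma nodup_allBits (n : ℕ) : (allBits n).Nodup := by
  induction n with
  | zero => simp [allBits]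
  | succ n ih =>
    refine List.Nodup.append (ih.map fun _ _ h => (List.cons.inj h).2)
      (ih.map fun _ _ h => (List.cons.inj h).2) fun l h1 h2 => ?_
    obtain ⟨a, _, rfl⟩ := List.mem_map.1 h1
    obtain ⟨b, _, hb⟩ := List.mem_map.1 h2
    simp at hb

lemma length_allBits (n : ℕ) : (allBits n).length = 2 ^ n := by
  induction n with
  | zero => simp [allBits]
  | succ n ih => simp [allBits, ih, pow_succ, mul_two]

lemma Ex_eq_allBits (r : ℕ) (F : List Bool → ℝ) : Ex r F = ((allBits r).map F).sum / 2 ^ r := by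
  induction r generalizing F with
  | zero => simp [allBits, Ex_zero]
  | succ r ih =>
    rw [Ex_succ, ih, ih]
    simp only [allBits, List.map_append, List.map_map, List.sum_append, Function.comp_def, pow_succ]
    field_simp

lemma Pr_eq_countP (r : ℕ) (P : List Bool → Bool) :
    Pr r (fun l => P l = true) = ((allBits r).countP P : ℝ) / 2 ^ r := by
  rw [tape_Pr, Ex_eq_allBits]
  congr 1
  induction allBits r with
  | nil => simp
  | cons u L ih =>
    rw [List.map_cons, List.sum_cons, ih, List.countP_cons]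
    by_cases h : P u = true <;> simp [tapeInd, h, add_comm]

/-- Enumeration is polynomial in the number of strings (`PT.natRec`). -/
lemma pt_allBits {α : Type} [Enc α] {n : α → ℕ} (hn : PT n) (hb : PB fun a => 2 ^ n a) :
    PT fun a => allBits (n a) := by
  have key : ∀ k : ℕ, (Nat.rec [[]] (fun _ (x : List (List Bool)) =>
      x.map (false :: ·) ++ x.map (true :: ·)) k : List (List Bool)) = allBits k := by
    intro k
    induction k with
    | zero => rfl
    | succ k ih => rw [allBits, ← ih]
  have hb' : PB n := hb.of_le fun a => Nat.lt_two_pow_self.le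
  have := PT.natRec (f := fun (_ : α) (_ : ℕ) (x : List (List Bool)) =>
      x.map (false :: ·) ++ x.map (true :: ·)) (n := n) (ini := fun _ => [[]])
    (fun a => 2 ^ n a * (6 * n a + 1 + 1) + 1) (by fun_prop) hn hb' (by fun_prop)
    ((hb.mul (by fun_prop)).add (PB.const 1)) (fun a i hi => by
      rw [key]
      have h1 := sz_list_le (allBits i) (6 * n a + 1) fun l hl => by
        rw [sz_boolList, mem_allBits.1 hl]; omega
      rw [length_allBits] at h1
      have h2 : 2 ^ i ≤ 2 ^ n a := Nat.pow_le_pow_right (by norm_num) hi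
      nlinarith)
  exact this.congr fun a => (key _).symm

end Crest.Agent.R309
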