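import Crest.Agent.R309.Markov

/-!
Row 309: the annealing algorithm that estimates the number of integer flows with given demands and
capacities.  Everything is written on lists.  An instance has `p` vertices and `q` edges
`tl e → hd e` with capacities `b e` and demands `d v`.  The extended network has the extra vertex `p`
(the hub) and for every `v < p` the extra edge `q + v` from `v` to the hub.
-/

set_option autoImplicit false

namespace Crest.Agent.R309

open Finset Crest.Agent.Lib.PT

/-- tails, heads, capacities, demands -/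
abbrev Inst : Type := List ℕ × List ℕ × List ℕ × List ℤ

/-- Stage parameters: temperature / hub bound `M`, class exponents `u`, cycles `C`. -/
abbrev Th : Type := ℕ × List (List ℤ) × List (List ℤ)

/-! ### numerical parameters -/

/-- cooling rate -/
def pP (s : ℕ) : ℕ := 20 * s ^ 2
/-- energy scale -/
def pJ (s : ℕ) : ℕ := 40 * s ^ 4
/-- initial temperature -/
def pM0 (s : ℕ) : ℕ := pJ s * 2 ^ (3 * s)
/-- number of cooling steps -/
def pTa (s : ℕ) : ℕ := s ^ 8
/-- number of acceptance bits -/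
def pA (s : ℕ) : ℕ := 50 * s ^ 5
/-- size parameter of the weak Poincaré inequality -/
def pW (s : ℕ) : ℕ := s ^ 130
/-- number of samples per stage -/
def pN (s : ℕ) : ℕ := s ^ 40
/-- number of steps of the chain per stage -/
def pT (s : ℕ) : ℕ := pW s ^ 1310
/-- bits for the edge -/
def pa (s : ℕ) : ℕ := Nat.size s
/-- bits for the scale -/
def pb (s : ℕ) : ℕ := Nat.size (pW s)
/-- bits per step -/
def r1 (s : ℕ) : ℕ := 2 + pa s + pb s + pA s
/-- bits for the initial state -/
def rI (s : ℕ) : ℕ := s * (2 * s)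
/-- bits per sample -/
def rS (s : ℕ) : ℕ := rI s + (pTa s + 1) * (pT s * r1 s)
/-- bits for the whole algorithm -/
def rTot (s : ℕ) : ℕ := rI s + (pTa s + 1) * (pN s * rS s)
/-- one cooling step -/
def cool (s M : ℕ) : ℕ := M - M / pP s
/-- the temperature of stage `t` -/
def Mt (s t : ℕ) : ℕ := (cool s)^[t] (pM0 s)

namespace Inst

variable (I : Inst)

/-- number of original edges -/
def q : ℕ := I.2.2.1.length
/-- number of original vertices -/
def p : ℕ := I.2.2.2.length
/-- number of edges -/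
def ne : ℕ := I.q + I.p
/-- number of vertices -/
def nv : ℕ := I.p + 1
/-- capacity -/
def cap (e : ℕ) : ℕ := I.2.2.1.getD e 0
/-- tail -/
def TL (e : ℕ) : ℕ := if e < I.q then I.1.getD e 0 else e - I.q
/-- head -/
def HD (e : ℕ) : ℕ := if e < I.q then I.2.1.getD e 0 else I.p
/-- lower bound -/
def LO (M e : ℕ) : ℤ := if e < I.q then 0 else -(M : ℤ)
/-- upper bound -/
def HI (M e : ℕ) : ℤ := if e < I.q then (I.cap e : ℤ) else (M : ℤ)
/-- demand -/
def DD (v : ℕ) : ℤ := if v < I.p then I.2.2.2.getD v 0 else -I.2.2.2.sum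
/-- incidence number -/
def inc (v e : ℕ) : ℤ := (if I.TL e = v then 1 else 0) - (if I.HD e = v then 1 else 0)
/-- defect of a state at `v` -/
def dfc (S : List ℤ) (v : ℕ) : ℤ := ∑ e ∈ range I.ne, I.inc v e * S.getD e 0 - I.DD v
/-- the defect is `e_i - e_j` -/
def isCls (S : List ℤ) (i j : ℕ) : Bool :=
  decide (∀ v < I.nv, I.dfc S v = (if i = v then 1 else 0) - (if j = v then 1 else 0))
/-- membership in the state space with hub bound `M` -/
def valid (M : ℕ) (S : List ℤ) : Bool :=
  decide (S.length = I.ne) && decide (∀ e < I.ne, I.LO M e ≤ S.getD e 0 ∧ S.getD e 0 ≤ I.HI M e) &&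
    decide (∃ i < I.nv, ∃ j < I.nv, I.isCls S i j = true)
/-- total flow on the hub edges -/
def hub (S : List ℤ) : ℕ := ∑ v ∈ range I.p, (S.getD (I.q + v) 0).natAbs
/-- energy -/
def hh (s M : ℕ) (S : List ℤ) : ℕ := pJ s * I.hub S / M
/-- class exponent -/
def uu (u : List (List ℤ)) (S : List ℤ) : ℤ :=
  ∑ i ∈ range I.nv, ∑ j ∈ range I.nv,
    if i ≠ j ∧ I.isCls S i j = true then (u.getD i []).getD j 0 else 0
/-- binary logarithm of the stationary weight -/
def lw (s : ℕ) (θ : Th) (S : List ℤ) : ℤ := I.uu θ.2.1 S - (I.hh s θ.1 S : ℤ)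

/-- coordinate `t` of the move `(e, j)` -/
def mvL (s : ℕ) (C : List (List ℤ)) (e j t : ℕ) : ℤ :=
  if j = 0 then (if t = e then 1 else 0) else 2 ^ min (j - 1) (pW s) * (C.getD e []).getD t 0
/-- the proposal -/
def prop (s : ℕ) (C : List (List ℤ)) (S : List ℤ) (sg : Bool) (e j : ℕ) : List ℤ :=
  (List.range I.ne).map fun t => S.getD t 0 + (if sg then 1 else -1) * mvL s C e j t
/-- the proposal is allowed -/
def okMove (s : ℕ) (θ : Th) (S : List ℤ) (sg : Bool) (e j : ℕ) : Bool :=
  decide (e < I.ne) && decide (j ≤ pW s) && I.valid θ.1 S && I.valid θ.1 (I.prop s θ.2.2 S sg e j) &&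
    decide ((I.lw s θ S - I.lw s θ (I.prop s θ.2.2 S sg e j)).natAbs ≤ pA s)
/-- One Metropolis step: laziness bit, sign bit, `pa` bits for the edge, `pb` bits for the scale,
`pA` acceptance bits. -/
def step (s : ℕ) (θ : Th) (S : List ℤ) (ω : List Bool) : List ℤ :=
  if ω.getD 0 false &&
      I.okMove s θ S (ω.getD 1 false) (ofBits ((ω.drop 2).take (pa s)))
        (ofBits ((ω.drop (2 + pa s)).take (pb s))) &&
      ((ω.drop (2 + pa s + pb s)).take (I.lw s θ S - I.lw s θ (I.prop s θ.2.2 S (ω.getD 1 false)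
        (ofBits ((ω.drop 2).take (pa s))) (ofBits ((ω.drop (2 + pa s)).take (pb s))))).toNat).all
          (fun b => !b)
  then I.prop s θ.2.2 S (ω.getD 1 false) (ofBits ((ω.drop 2).take (pa s)))
    (ofBits ((ω.drop (2 + pa s)).take (pb s)))
  else S
/-- `pT` steps -/
def run (s : ℕ) (θ : Th) (S : List ℤ) (ω : List Bool) : List ℤ :=
  (chunks (pT s) (r1 s) ω).foldl (I.step s θ) S

/-- the random value on the original edge `e` -/
def x0 (s : ℕ) (ω : List Bool) (e : ℕ) : ℤ :=
  ((ofBits ((chunks I.q (2 * s) ω).getD e []) % (I.cap e + 1) : ℕ) : ℤ)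
/-- the initial state: random values on the original edges, the hub edges absorb the defect -/
def init (s : ℕ) (ω : List Bool) : List ℤ :=
  (List.range I.ne).map fun e => if e < I.q then I.x0 s ω e else
    I.DD (e - I.q) - ∑ e' ∈ range I.q, I.inc (e - I.q) e' * I.x0 s ω e'
/-- a sample: run the chains of all stages one after the other -/
def sample (s : ℕ) (θs : List Th) (ω : List Bool) : List ℤ :=
  (θs.zip (chunks θs.length (pT s * r1 s) (ω.drop (rI s)))).foldl
    (fun S x => I.run s x.1 S x.2) (I.init s ω)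
/-- independent samples -/
def samples (s : ℕ) (θs : List Th) (ω : List Bool) : List (List ℤ) :=
  (chunks (pN s) (rS s) ω).map (I.sample s θs)

/-! ### Kruskal's algorithm -/

/-- depth of the reference state on the edge `e` -/
def depL (M : ℕ) (Rf : List ℤ) (e : ℕ) : ℤ :=
  min (Rf.getD e 0 - I.LO M e) (I.HI M e - Rf.getD e 0)
/-- Process the edge `e`; the state holds a component label and a vector for every vertex. -/
def kstep (st : List ℕ × List (List ℤ)) (e : ℕ) : List ℕ × List (List ℤ) :=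
  if st.1.getD (I.TL e) 0 = st.1.getD (I.HD e) 0 then st else
    ((List.range I.nv).map fun x =>
        if st.1.getD x 0 = st.1.getD (I.TL e) 0 then st.1.getD (I.HD e) 0 else st.1.getD x 0,
      (List.range I.nv).map fun x => (List.range I.ne).map fun t =>
        (st.2.getD x []).getD t 0 + if st.1.getD x 0 = st.1.getD (I.TL e) 0 then
          (if t = e then 1 else 0) - (st.2.getD (I.TL e) []).getD t 0 +
            (st.2.getD (I.HD e) []).getD t 0 else 0)
/-- the edges by decreasing depth -/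
def korder (M : ℕ) (Rf : List ℤ) : List ℕ :=
  (List.range I.ne).insertionSort fun e f => I.depL M Rf f ≤ I.depL M Rf e
/-- final state of Kruskal's algorithm -/
def kfin (M : ℕ) (Rf : List ℤ) : List ℕ × List (List ℤ) :=
  (I.korder M Rf).foldl I.kstep (List.range I.nv, [])
/-- the fundamental cycles -/
def kruskal (M : ℕ) (Rf : List ℤ) : List (List ℤ) :=
  (List.range I.ne).map fun e => (List.range I.ne).map fun t =>
    (if t = e then 1 else 0) - ((I.kfin M Rf).2.getD (I.TL e) []).getD t 0 +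
      ((I.kfin M Rf).2.getD (I.HD e) []).getD t 0

/-! ### the stages -/

/-- `2 ^ pA` times the weight ratio of the next and the current stage -/
def yv (s M M' : ℕ) (S : List ℤ) : ℕ :=
  if I.valid M' S then 2 ^ (pA s - (I.hh s M' S - I.hh s M S)) else 0
/-- sum of `yv` over the samples of the class `(i, j)` -/
def acc (s M M' : ℕ) (Ss : List (List ℤ)) (i j : ℕ) : ℕ :=
  (Ss.map fun S => if I.isCls S i j then I.yv s M M' S else 0).sum
/-- number of samples without defect -/
def bc (M : ℕ) (Ss : List (List ℤ)) : ℕ := Ss.countP fun S => I.valid M S && I.isCls S 0 0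
/-- new class exponents -/
def nextU (s M M' : ℕ) (u : List (List ℤ)) (Ss : List (List ℤ)) : List (List ℤ) :=
  (List.range I.nv).map fun i => (List.range I.nv).map fun j =>
    (u.getD i []).getD j 0 + (Nat.log 2 (I.acc s M M' Ss 0 0) : ℤ) -
      (Nat.log 2 (I.acc s M M' Ss i j) : ℤ)
/-- new reference state -/
def nextR (M' : ℕ) (Ss : List (List ℤ)) : List ℤ :=
  (Ss.find? fun S => I.valid M' S && I.isCls S 0 0).getD []
/-- parameters of the next stage -/
def nextTh (s : ℕ) (θ : Th) (M' : ℕ) (Ss : List (List ℤ)) : Th :=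
  (M', I.nextU s θ.1 M' θ.2.1 Ss, I.kruskal M' (I.nextR M' Ss))
/-- estimate of the ratio of the defect-free weights -/
def ratio (s M M' : ℕ) (Ss : List (List ℤ)) : ℚ :=
  (I.acc s M M' Ss 0 0 : ℚ) / (2 ^ pA s * (I.bc M Ss : ℚ))
/-- the next temperature; the last one is `0` (no flow through the hub) -/
def nextM (s : ℕ) (θs : List Th) : ℕ :=
  if θs.length ≤ pTa s then cool s (θs.getLastD (0, [], [])).1 else 0
/-- one stage -/
def stage (s : ℕ) (st : List Th × ℚ) (ω : List Bool) : List Th × ℚ :=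
  (st.1 ++ [I.nextTh s (st.1.getLastD (0, [], [])) (nextM s st.1) (I.samples s st.1 ω)],
    st.2 * I.ratio s (st.1.getLastD (0, [], [])).1 (nextM s st.1) (I.samples s st.1 ω))
/-- number of assignments to the original edges -/
def tot : ℕ := ∏ e ∈ range I.q, (I.cap e + 1)
/-- parameters of stage `0` -/
def th0 (s : ℕ) (ω : List Bool) : Th := (pM0 s, [], I.kruskal (pM0 s) (I.init s ω))
/-- the estimate -/
def est (s : ℕ) (ω : List Bool) : ℚ :=
  ((chunks (pTa s + 1) (pN s * rS s) (ω.drop (rI s))).foldl (I.stage s)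
    ([I.th0 s ω], (I.tot : ℚ))).2

/-! ### the mathematical objects behind the lists -/

/-- The instance is well formed and of size at most `s`. -/
structure Sz (s : ℕ) : Prop where
  tl_lt : ∀ e < I.q, I.TL e < I.p
  hd_lt : ∀ e < I.q, I.HD e < I.p
  noloop : ∀ e < I.q, I.TL e ≠ I.HD e
  big : 100 ≤ s
  nv_le : I.nv ≤ s
  ne_le : I.ne ≤ s
  cap_lt : ∀ e < I.q, I.cap e < 2 ^ s
  dem_lt : ∀ v < I.p, |I.DD v| < 2 ^ s

/-- the extended network -/
def gr : Gr (Fin I.nv) (Fin I.ne) where
  tl e := ⟨min (I.TL e) I.p, Nat.lt_succ_of_le (min_le_right _ _)⟩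
  hd e := ⟨min (I.HD e) I.p, Nat.lt_succ_of_le (min_le_right _ _)⟩

instance : Nonempty (Fin I.nv) := ⟨⟨0, Nat.succ_pos _⟩⟩

/-- a list as a vector -/
def vec (S : List ℤ) : Fin I.ne → ℤ := fun e => S.getD e 0
/-- a list of lists as a matrix -/
def mat (C : List (List ℤ)) : Fin I.ne → Fin I.ne → ℤ := fun e t => (C.getD e []).getD t 0
/-- lower bounds -/
def lo (M : ℕ) : Fin I.ne → ℤ := fun e => I.LO M e
/-- upper bounds -/
def hi (M : ℕ) : Fin I.ne → ℤ := fun e => I.HI M e
/-- demands -/
def dd : Fin I.nv → ℤ := fun v => I.DD v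
/-- radius of the ambient box -/
def rad (s : ℕ) : ℕ := pM0 s + 2 ^ s
/-- `2 ^ (-J / M)` -/
noncomputable def lam (s M : ℕ) : ℝ := (2 : ℝ) ^ (-((pJ s : ℝ) / M))
/-- the log-concave edge weights of the stage with temperature `M` -/
noncomputable def aw (s M : ℕ) : Fin I.ne → ℤ → ℝ := fun e x =>
  if I.lo M e ≤ x ∧ x ≤ I.hi M e then (if (e : ℕ) < I.q then 1 else lam s M ^ x.natAbs) else 0
/-- the state space -/
noncomputable def OmL (s M : ℕ) : Finset (List ℤ) :=
  (Om I.gr (rad s) (I.lo M) (I.hi M) I.dd).image List.ofFn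
/-- the dyadic weight -/
noncomputable def atw (s M : ℕ) (S : List ℤ) : ℝ := 1 / 2 ^ I.hh s M S
/-- dyadic weight of a class -/
noncomputable def Zt (s M i j : ℕ) : ℝ :=
  ∑ S ∈ (I.OmL s M).filter (fun S => I.isCls S i j = true), I.atw s M S
/-- the stationary weight of a stage -/
noncomputable def pit (s : ℕ) (θ : Th) (S : List ℤ) : ℝ := (2 : ℝ) ^ I.lw s θ S
/-- The number to be estimated: flows that do not use the hub and have no defect. -/
noncomputable def cnt : ℕ :=
  ((Fintype.piFinset fun e : Fin I.q => Icc (0 : ℤ) (I.cap e)).filter fun x =>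
    ∀ v < I.p, ∑ e : Fin I.q, I.inc v e * x e = I.DD v).card
/-- typical states of a stage -/
def Typ (s M : ℕ) (S : List ℤ) : Prop := pP s * I.hub S ≤ M + 2 * pP s

/-- the class exponents are correct up to a factor four -/
def GoodU (s M : ℕ) (u : List (List ℤ)) : Prop :=
  ∀ i < I.nv, ∀ j < I.nv, i ≠ j →
    I.Zt s M 0 0 ≤ 4 * ((2 : ℝ) ^ (u.getD i []).getD j 0 * I.Zt s M i j) ∧
      (2 : ℝ) ^ (u.getD i []).getD j 0 * I.Zt s M i j ≤ 4 * I.Zt s M 0 0
/-- the reference state is deep and has no defect -/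
def GoodR (s M : ℕ) (Rf : List ℤ) : Prop :=
  I.vec Rf ∈ cls I.gr (rad s) I.dd ∧ Deep I.gr (rad s) (I.lo M) (I.hi M) I.dd (pW s) (I.vec Rf)
/-- good parameters for stage `t` -/
def GoodTh (s t : ℕ) (θ : Th) : Prop :=
  θ.1 = Mt s t ∧ I.GoodU s θ.1 θ.2.1 ∧ ∃ Rf, I.GoodR s θ.1 Rf ∧ θ.2.2 = I.kruskal θ.1 Rf
/-- good parameters for the stages so far -/
def GoodThs (s : ℕ) (θs : List Th) : Prop :=
  ∀ t (h : t < θs.length), I.GoodTh s t θs[t]

end Inst

end Crest.Agent.R309
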