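import Crest.Agent.R309.Kruskal

/-! Row 309: polynomial time of the building blocks of the annealing algorithm. -/

set_option autoImplicit false

namespace Crest.Agent.R309

open Finset Crest.Agent.Lib.PT

section Params
variable {α : Type} [Enc α] {s : α → ℕ}

@[fun_prop] theorem algpt_pt_pP (hs : PT s) : PT fun a => pP (s a) := by unfold pP; fun_prop
@[fun_prop] theorem algpt_pt_pJ (hs : PT s) : PT fun a => pJ (s a) := by unfold pJ; fun_prop
@[fun_prop] theorem algpt_pt_pM0 (hs : PT s) (hb : PB s) : PT fun a => pM0 (s a) := by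
  unfold pM0; fun_prop
@[fun_prop] theorem algpt_pt_pTa (hs : PT s) : PT fun a => pTa (s a) := by unfold pTa; fun_prop
@[fun_prop] theorem algpt_pb_pTa (hb : PB s) : PB fun a => pTa (s a) := by unfold pTa; fun_prop
@[fun_prop] theorem algpt_pt_pA (hs : PT s) : PT fun a => pA (s a) := by unfold pA; fun_prop
@[fun_prop] theorem algpt_pb_pA (hb : PB s) : PB fun a => pA (s a) := by unfold pA; fun_prop
@[fun_prop] theorem algpt_pt_pW (hs : PT s) : PT fun a => pW (s a) := by unfold pW; fun_prop
@[fun_prop] theorem algpt_pb_pW (hb : PB s) : PB fun a => pW (s a) := by unfold pW; fun_prop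
@[fun_prop] theorem algpt_pt_pN (hs : PT s) : PT fun a => pN (s a) := by unfold pN; fun_prop
@[fun_prop] theorem algpt_pb_pN (hb : PB s) : PB fun a => pN (s a) := by unfold pN; fun_prop
@[fun_prop] theorem algpt_pt_pT (hs : PT s) : PT fun a => pT (s a) := by unfold pT; fun_prop
@[fun_prop] theorem algpt_pb_pT (hb : PB s) : PB fun a => pT (s a) := by unfold pT; fun_prop
@[fun_prop] theorem algpt_pt_pa (hs : PT s) : PT fun a => pa (s a) := by unfold pa; fun_prop
@[fun_prop] theorem algpt_pb_pa (hs : PT s) : PB fun a => pa (s a) := by unfold pa; fun_prop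
@[fun_prop] theorem algpt_pt_pb (hs : PT s) : PT fun a => pb (s a) := by unfold pb; fun_prop
@[fun_prop] theorem algpt_pb_pb (hs : PT s) : PB fun a => pb (s a) := by unfold pb; fun_prop
@[fun_prop] theorem algpt_pt_r1 (hs : PT s) : PT fun a => r1 (s a) := by unfold r1; fun_prop
@[fun_prop] theorem algpt_pb_r1 (hs : PT s) (hb : PB s) : PB fun a => r1 (s a) := by
  unfold r1; fun_prop
@[fun_prop] theorem algpt_pt_rI (hs : PT s) : PT fun a => rI (s a) := by unfold rI; fun_prop
@[fun_prop] theorem algpt_pb_rI (hb : PB s) : PB fun a => rI (s a) := by unfold rI; fun_prop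
@[fun_prop] theorem algpt_pt_rS (hs : PT s) : PT fun a => rS (s a) := by unfold rS; fun_prop
@[fun_prop] theorem algpt_pb_rS (hs : PT s) (hb : PB s) : PB fun a => rS (s a) := by
  unfold rS; fun_prop
@[fun_prop] theorem algpt_pt_cool {M : α → ℕ} (hs : PT s) (hM : PT M) :
    PT fun a => cool (s a) (M a) := by unfold cool; fun_prop

end Params

namespace Inst

variable {α : Type} [Enc α] {I : α → Inst} {s e j t v i M M' : α → ℕ} {S : α → List ℤ}
  {ω : α → List Bool} {θ : α → Th} {C u Ss : α → List (List ℤ)} {θs : α → List Th}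

@[fun_prop] theorem algpt_pt_q (hI : PT I) : PT fun a => (I a).q := by unfold q; fun_prop
@[fun_prop] theorem algpt_pb_q (hI : PT I) : PB fun a => (I a).q := by unfold q; fun_prop
@[fun_prop] theorem algpt_pt_p (hI : PT I) : PT fun a => (I a).p := by unfold p; fun_prop
@[fun_prop] theorem algpt_pb_p (hI : PT I) : PB fun a => (I a).p := by unfold p; fun_prop
@[fun_prop] theorem algpt_pt_ne (hI : PT I) : PT fun a => (I a).ne := by unfold ne; fun_prop
@[fun_prop] theorem algpt_pb_ne (hI : PT I) : PB fun a => (I a).ne := by unfold ne; fun_prop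
@[fun_prop] theorem algpt_pt_nv (hI : PT I) : PT fun a => (I a).nv := by unfold nv; fun_prop
@[fun_prop] theorem algpt_pb_nv (hI : PT I) : PB fun a => (I a).nv := by unfold nv; fun_prop
@[fun_prop] theorem algpt_pt_cap (hI : PT I) (he : PT e) : PT fun a => (I a).cap (e a) := by
  unfold cap; fun_prop
@[fun_prop] theorem algpt_pt_TL (hI : PT I) (he : PT e) : PT fun a => (I a).TL (e a) := by
  unfold TL; fun_prop
@[fun_prop] theorem algpt_pt_HD (hI : PT I) (he : PT e) : PT fun a => (I a).HD (e a) := by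
  unfold HD; fun_prop
@[fun_prop] theorem algpt_pt_LO (hI : PT I) (hM : PT M) (he : PT e) :
    PT fun a => (I a).LO (M a) (e a) := by unfold LO; fun_prop
@[fun_prop] theorem algpt_pt_HI (hI : PT I) (hM : PT M) (he : PT e) :
    PT fun a => (I a).HI (M a) (e a) := by unfold HI; fun_prop
@[fun_prop] theorem algpt_pt_DD (hI : PT I) (hv : PT v) : PT fun a => (I a).DD (v a) := by
  unfold DD; fun_prop
@[fun_prop] theorem algpt_pt_inc (hI : PT I) (hv : PT v) (he : PT e) :
    PT fun a => (I a).inc (v a) (e a) := by unfold inc; fun_prop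
@[fun_prop] theorem algpt_pt_dfc (hI : PT I) (hS : PT S) (hv : PT v) :
    PT fun a => (I a).dfc (S a) (v a) := by unfold dfc; fun_prop
@[fun_prop] theorem algpt_pt_isCls (hI : PT I) (hS : PT S) (hi : PT i) (hj : PT j) :
    PT fun a => (I a).isCls (S a) (i a) (j a) := by unfold isCls; fun_prop
@[fun_prop] theorem algpt_pt_valid (hI : PT I) (hM : PT M) (hS : PT S) :
    PT fun a => (I a).valid (M a) (S a) := by unfold valid; fun_prop
@[fun_prop] theorem algpt_pt_hub (hI : PT I) (hS : PT S) : PT fun a => (I a).hub (S a) := by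
  unfold hub; fun_prop
@[fun_prop] theorem algpt_pt_hh (hI : PT I) (hs : PT s) (hM : PT M) (hS : PT S) :
    PT fun a => (I a).hh (s a) (M a) (S a) := by unfold hh; fun_prop
@[fun_prop] theorem algpt_pt_uu (hI : PT I) (hu : PT u) (hS : PT S) :
    PT fun a => (I a).uu (u a) (S a) := by unfold uu; fun_prop
@[fun_prop] theorem algpt_pt_lw (hI : PT I) (hs : PT s) (hθ : PT θ) (hS : PT S) :
    PT fun a => (I a).lw (s a) (θ a) (S a) := by unfold lw; fun_prop
@[fun_prop] theorem algpt_pt_mvL (hs : PT s) (hb : PB s) (hC : PT C) (he : PT e) (hj : PT j)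
    (ht : PT t) : PT fun a => mvL (s a) (C a) (e a) (j a) (t a) := by
  have h1 : PB fun a => min (j a - 1) (pW (s a)) := PB.min_right _ (by fun_prop)
  unfold mvL; fun_prop
@[fun_prop] theorem algpt_pt_prop {sg : α → Bool} (hI : PT I) (hs : PT s) (hb : PB s) (hC : PT C)
    (hS : PT S) (hsg : PT sg) (he : PT e) (hj : PT j) :
    PT fun a => (I a).prop (s a) (C a) (S a) (sg a) (e a) (j a) := by unfold prop; fun_prop
@[fun_prop] theorem algpt_pt_okMove {sg : α → Bool} (hI : PT I) (hs : PT s) (hb : PB s) (hθ : PT θ)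
    (hS : PT S) (hsg : PT sg) (he : PT e) (hj : PT j) :
    PT fun a => (I a).okMove (s a) (θ a) (S a) (sg a) (e a) (j a) := by unfold okMove; fun_prop
@[fun_prop] theorem algpt_pt_step (hI : PT I) (hs : PT s) (hb : PB s) (hθ : PT θ)
    (hS : PT S) (hω : PT ω) : PT fun a => (I a).step (s a) (θ a) (S a) (ω a) := by
  unfold step; fun_prop

theorem algpt_sz_valid {I : Inst} {M : ℕ} {S : List ℤ} (h : I.valid M S = true) :
    sz S ≤ (sz I + sz M + 7) * I.ne + 1 := by
  simp only [valid, Bool.and_eq_true, decide_eq_true_eq] at h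
  obtain ⟨⟨h1, h2⟩, -⟩ := h
  rw [← h1]
  refine sz_list_le S (sz I + sz M + 6) fun x hx => ?_
  obtain ⟨e, he, rfl⟩ := List.getElem_of_mem hx
  have h3 := h2 e (h1 ▸ he)
  rw [List.getD_eq_getElem _ _ he] at h3
  unfold LO HI at h3
  split_ifs at h3 with h4
  · have h5 := sz_int_le_of_abs_le (x := S[e]) (n := I.cap e) (abs_le.2 ⟨by omega, h3.2⟩)
    have h6 : sz (I.cap e) ≤ sz I := by
      unfold cap
      rw [List.getD_eq_getElem _ _ h4]
      exact (sz_le_of_mem (List.getElem_mem _)).trans
        ((sz_fst_le _).trans ((sz_snd_le _).trans (sz_snd_le _)))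
    omega
  · have h5 := sz_int_le_of_abs_le (x := S[e]) (n := M) (abs_le.2 h3)
    omega

theorem algpt_step_cases (I : Inst) (s : ℕ) (θ : Th) (S : List ℤ) (ω : List Bool) :
    I.step s θ S ω = S ∨ I.valid θ.1 (I.step s θ S ω) = true := by
  unfold step
  split_ifs with h
  · right
    simp only [okMove, Bool.and_eq_true] at h
    exact h.1.2.1.2
  · exact Or.inl rfl

theorem algpt_foldl_cases (I : Inst) (s : ℕ) (θ : Th) (l : List (List Bool)) (S : List ℤ) :
    l.foldl (I.step s θ) S = S ∨ I.valid θ.1 (l.foldl (I.step s θ) S) = true := by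
  induction l generalizing S with
  | nil => exact Or.inl rfl
  | cons x l ih =>
    rw [List.foldl_cons]
    rcases ih (I.step s θ S x) with h | h
    · rw [h]; exact I.algpt_step_cases s θ S x
    · exact Or.inr h

@[fun_prop] theorem algpt_pt_run (hI : PT I) (hs : PT s) (hb : PB s) (hθ : PT θ)
    (hS : PT S) (hω : PT ω) : PT fun a => (I a).run (s a) (θ a) (S a) (ω a) := by
  unfold run
  refine PT.foldl (f := fun a => (I a).step (s a) (θ a))
    (fun a => sz (S a) + ((sz (I a) + sz (θ a).1 + 7) * (I a).ne + 1)) (by fun_prop) (by fun_prop) hS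
    (by fun_prop) fun a i => ?_
  rcases (I a).algpt_foldl_cases (s a) (θ a) ((chunks (pT (s a)) (r1 (s a)) (ω a)).take i) (S a)
    with h | h
  · rw [h]; omega
  · exact (algpt_sz_valid h).trans (Nat.le_add_left _ _)

@[fun_prop] theorem algpt_pt_x0 (hI : PT I) (hs : PT s) (hω : PT ω) (he : PT e) :
    PT fun a => (I a).x0 (s a) (ω a) (e a) := by unfold x0; fun_prop
@[fun_prop] theorem algpt_pt_init (hI : PT I) (hs : PT s) (hω : PT ω) :
    PT fun a => (I a).init (s a) (ω a) := by unfold init; fun_prop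

@[fun_prop] theorem algpt_pt_sample (hI : PT I) (hs : PT s) (hb : PB s) (hθ : PT θs) (hω : PT ω) :
    PT fun a => (I a).sample (s a) (θs a) (ω a) := by
  unfold sample
  refine PT.foldl_inv (f := fun a S (x : Th × List Bool) => (I a).run (s a) x.1 S x.2)
    (fun a S => sz S ≤ sz ((I a).init (s a) (ω a)) + ((sz (I a) + sz (θs a) + 7) * (I a).ne + 1))
    (fun a => sz ((I a).init (s a) (ω a)) + ((sz (I a) + sz (θs a) + 7) * (I a).ne + 1))
    (by fun_prop) (by fun_prop) (by fun_prop) (by fun_prop) (fun a => Nat.le_add_right _ _)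
    (fun a S x hx h => ?_) fun a S h => h
  unfold run
  rcases (I a).algpt_foldl_cases (s a) x.1 (chunks (pT (s a)) (r1 (s a)) x.2) S with h' | h'
  · rw [h']; exact h
  · refine (algpt_sz_valid h').trans ((Nat.add_le_add_right (Nat.mul_le_mul_right _ ?_) 1).trans
      (Nat.le_add_left _ _))
    have h1 : sz x.1 ≤ sz (θs a) := sz_le_of_mem (List.of_mem_zip (a := x.1) (b := x.2) hx).1
    have h2 := sz_fst_le x.1
    omega

@[fun_prop] theorem algpt_pt_samples (hI : PT I) (hs : PT s) (hb : PB s) (hθ : PT θs) (hω : PT ω) :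
    PT fun a => (I a).samples (s a) (θs a) (ω a) := by
  unfold samples
  exact PT.map (g := fun a w => (I a).sample (s a) (θs a) w) (by fun_prop) (by fun_prop)

attribute [fun_prop] pt_kruskal

@[fun_prop] theorem algpt_pt_yv (hI : PT I) (hs : PT s) (hb : PB s) (hM : PT M) (hM' : PT M')
    (hS : PT S) : PT fun a => (I a).yv (s a) (M a) (M' a) (S a) := by unfold yv; fun_prop
@[fun_prop] theorem algpt_pt_acc (hI : PT I) (hs : PT s) (hb : PB s) (hM : PT M) (hM' : PT M')
    (hS : PT Ss) (hi : PT i) (hj : PT j) :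
    PT fun a => (I a).acc (s a) (M a) (M' a) (Ss a) (i a) (j a) := by unfold acc; fun_prop
@[fun_prop] theorem algpt_pt_bc (hI : PT I) (hM : PT M) (hS : PT Ss) :
    PT fun a => (I a).bc (M a) (Ss a) := by unfold bc; fun_prop
@[fun_prop] theorem algpt_pt_nextU (hI : PT I) (hs : PT s) (hb : PB s) (hM : PT M) (hM' : PT M')
    (hu : PT u) (hS : PT Ss) : PT fun a => (I a).nextU (s a) (M a) (M' a) (u a) (Ss a) := by
  unfold nextU; fun_prop
@[fun_prop] theorem algpt_pt_nextR (hI : PT I) (hM : PT M) (hS : PT Ss) :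
    PT fun a => (I a).nextR (M a) (Ss a) := by unfold nextR; fun_prop
@[fun_prop] theorem algpt_pt_nextTh (hI : PT I) (hs : PT s) (hb : PB s) (hθ : PT θ) (hM : PT M)
    (hS : PT Ss) : PT fun a => (I a).nextTh (s a) (θ a) (M a) (Ss a) := by unfold nextTh; fun_prop
@[fun_prop] theorem algpt_pt_ratio (hI : PT I) (hs : PT s) (hb : PB s) (hM : PT M) (hM' : PT M')
    (hS : PT Ss) : PT fun a => (I a).ratio (s a) (M a) (M' a) (Ss a) := by unfold ratio; fun_prop
@[fun_prop] theorem algpt_pt_nextM (hs : PT s) (hθ : PT θs) :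
    PT fun a => nextM (s a) (θs a) := by unfold nextM; fun_prop
@[fun_prop] theorem algpt_pt_stage {st : α → List Th × ℚ} (hI : PT I) (hs : PT s) (hb : PB s)
    (hst : PT st) (hω : PT ω) : PT fun a => (I a).stage (s a) (st a) (ω a) := by
  unfold stage; fun_prop
@[fun_prop] theorem algpt_pt_tot (hI : PT I) : PT fun a => (I a).tot := by unfold tot; fun_prop
@[fun_prop] theorem algpt_pt_th0 (hI : PT I) (hs : PT s) (hb : PB s) (hω : PT ω) :
    PT fun a => (I a).th0 (s a) (ω a) := by unfold th0; fun_prop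

end Inst

end Crest.Agent.R309
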