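import Crest.Agent.R309.Window

/-! Row 309: reduction of the class `d` to windows by long cycle moves. -/

set_option autoImplicit false

namespace Crest.Agent.R309

open Finset

variable {V E : Type} [Fintype V] [DecidableEq V] [Fintype E] [DecidableEq E]
variable {G : Gr V E} {R : ℕ} {lo hi : E → ℤ} {a : E → ℤ → ℝ} {d : V → ℤ} {n : ℕ}

lemma abs_sub_le_rng {x y : E → ℤ} (hx : x ∈ cls G R d) (hx' : InBox lo hi x) (hy : y ∈ cls G R d)
    (hy' : InBox lo hi y) (e : E) : |x e - y e| ≤ rng G R lo hi d e := by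
  have hxS : x ∈ (cls G R d).filter (InBox lo hi) := mem_filter.2 ⟨hx, hx'⟩
  have hyS : y ∈ (cls G R d).filter (InBox lo hi) := mem_filter.2 ⟨hy, hy'⟩
  have h1 : (x e - y e).toNat ≤ rng G R lo hi d e :=
    le_sup (f := fun p : (E → ℤ) × (E → ℤ) => (p.1 e - p.2 e).toNat) (b := (x, y))
      (mem_product.2 ⟨hxS, hyS⟩)
  have h2 : (y e - x e).toNat ≤ rng G R lo hi d e :=
    le_sup (f := fun p : (E → ℤ) × (E → ℤ) => (p.1 e - p.2 e).toNat) (b := (y, x))
      (mem_product.2 ⟨hyS, hxS⟩)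
  rw [abs_le]
  omega

lemma noise_coord_le (H : Hyp G R lo hi a d n) (e : E) (k : ℤ) :
    (∑ z ∈ (cls G R d).filter (fun z => z e = k), wt a z) * rng G R lo hi d e ≤
      4 * (n + 1) * Zc G R a d := by
  have hp := lc_coord G H.adm d e (H.noloop e)
  have hZ := H.zpos
  have hex : ∀ x, ∑ z ∈ (cls G R d).filter (fun z => z e = x), wt a z ≠ 0 →
      ∃ z ∈ (cls G R d).filter (InBox lo hi), z e = x := by
    intro x hx
    obtain ⟨z, hz, hw⟩ := exists_ne_zero_of_sum_ne_zero hx
    rw [mem_filter] at hz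
    exact ⟨z, mem_filter.2 ⟨hz.1, (H.wt_pos_iff z).1
      (lt_of_le_of_ne (H.adm.wt_nonneg z) (Ne.symm hw))⟩, hz.2⟩
  have hle : ∀ z ∈ (cls G R d).filter (InBox lo hi),
      wt a z ≤ ∑ y ∈ (cls G R d).filter (fun y => y e = z e), wt a y := fun z hz =>
    single_le_sum (f := wt a) (fun y _ => H.adm.wt_nonneg y)
      (mem_filter.2 ⟨(mem_filter.1 hz).1, rfl⟩)
  have hne : ∀ z ∈ (cls G R d).filter (InBox lo hi),
      ∑ y ∈ (cls G R d).filter (fun y => y e = z e), wt a y ≠ 0 := fun z hz =>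
    (((H.wt_pos_iff z).2 (mem_filter.1 hz).2).trans_le (hle z hz)).ne'
  by_cases hk : ∑ z ∈ (cls G R d).filter (fun z => z e = k), wt a z = 0
  · rw [hk, zero_mul]; positivity
  obtain ⟨z0, hz0, rfl⟩ := hex k hk
  obtain ⟨x, hx, hx'⟩ := exists_min_image _ (fun z : E → ℤ => z e) ⟨z0, hz0⟩
  obtain ⟨y, hy, hy'⟩ := exists_max_image _ (fun z : E → ℤ => z e) ⟨z0, hz0⟩
  have h1 := LC.max_le hp (α := x e) (ω := y e) (Z := Zc G R a d) (n := n)
    (sum_fiberwise_le_sum_of_sum_fiber_nonneg fun _ _ => sum_nonneg fun z _ => H.adm.wt_nonneg z)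
    (fun u hu hu' => by
      obtain ⟨z, hz, rfl⟩ := hex u (hp.ne_zero_between (hne x hx) (hne y hy) hu hu')
      exact (H.ratio z (mem_filter.1 hz).2).trans
        (mul_le_mul_of_nonneg_left (hle z hz) (by positivity)))
    (hx' z0 hz0) (hy' z0 hz0)
  refine le_trans (mul_le_mul_of_nonneg_left ?_ (hp.1 _)) h1
  have h2 : rng G R lo hi d e ≤ (y e - x e).toNat := by
    refine Finset.sup_le fun p hp => ?_
    rw [mem_product] at hp
    have := hx' _ hp.2
    have := hy' _ hp.1
    exact Int.toNat_le_toNat (by linarith)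
  have h3 : x e ≤ y e := hx' y hy
  have h4 : (rng G R lo hi d e : ℤ) ≤ y e - x e := by omega
  exact_mod_cast h4

/-- Most of the class `d` is deep.  For each `e` let `p k` be the weight of `{z e = k}` (log-concave
by `lc_coord`), `α ≤ ω` the extreme values of `z e` on the class (`ω - α = rng e`).  For
`α ≤ k ≤ ω`, `p k > 0` (`LC.ne_zero_between`), so `Z ≤ 2 ^ n p k` (`Hyp.ratio`), and `LC.max_le` gives
`p k * rng e ≤ 4 (n + 1) Z`.  At most `2 mrg e ≤ 2 rng e / n ^ 6` values `k ∈ [lo e, hi e]` are not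
deep. -/
theorem deep_mass (H : Hyp G R lo hi a d n) :
    ∑ z ∈ cls G R d, wt a z * (if Deep G R lo hi d n z then 0 else 1) ≤ 16 / n ^ 4 * Zc G R a d := by
  have hn : (1000 : ℝ) ≤ n := by exact_mod_cast H.big
  have hZ := H.zpos
  let Bad : E → Finset ℤ := fun e =>
    Ico (lo e) (lo e + mrg G R lo hi d n e) ∪ Ioc (hi e - mrg G R lo hi d n e) (hi e)
  have h1 : ∀ z ∈ cls G R d, wt a z * (if Deep G R lo hi d n z then 0 else 1) ≤
      ∑ e, if z e ∈ Bad e then wt a z else 0 := by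
    intro z _
    have h0 : ∀ e ∈ (univ : Finset E), 0 ≤ if z e ∈ Bad e then wt a z else 0 := fun e _ => by
      split_ifs
      exacts [H.adm.wt_nonneg z, le_rfl]
    by_cases hw : wt a z = 0
    · rw [hw]; simp
    have hb := (H.wt_pos_iff z).1 (lt_of_le_of_ne (H.adm.wt_nonneg z) (Ne.symm hw))
    split_ifs with hd
    · rw [mul_zero]; exact sum_nonneg h0
    · obtain ⟨e, he⟩ := not_forall.1 hd
      have hb' := hb e
      simp only at he
      have : z e ∈ Bad e := by
        simp only [Bad, mem_union, mem_Ico, mem_Ioc]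
        omega
      refine le_trans ?_ (single_le_sum h0 (mem_univ e))
      rw [if_pos this, mul_one]
  have h2 : ∀ e, ∑ z ∈ cls G R d, (if z e ∈ Bad e then wt a z else 0) ≤
      2 * (4 * (n + 1) * Zc G R a d / n ^ 6) := by
    intro e
    rw [← sum_filter, ← sum_fiberwise_eq_sum_filter]
    have hc : ((Bad e).card : ℝ) ≤ 2 * (rng G R lo hi d e / n ^ 6) := by
      have a1 : (Bad e).card ≤ 2 * mrg G R lo hi d n e := by
        refine (card_union_le _ _).trans ?_
        rw [Int.card_Ico, Int.card_Ioc]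
        omega
      have a2 : (mrg G R lo hi d n e : ℝ) ≤ rng G R lo hi d e / n ^ 6 := by
        have := @Nat.cast_div_le ℝ _ _ _ (rng G R lo hi d e) (n ^ 6)
        rwa [Nat.cast_pow] at this
      have a3 : ((Bad e).card : ℝ) ≤ 2 * mrg G R lo hi d n e := by exact_mod_cast a1
      linarith
    rcases Nat.eq_zero_or_pos (rng G R lo hi d e) with h0 | h0
    · have : Bad e = ∅ := by
        rw [← card_eq_zero]
        rw [h0] at hc
        simp only [Nat.cast_zero, zero_div, mul_zero] at hc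
        exact_mod_cast le_antisymm hc (Nat.cast_nonneg _)
      rw [this, sum_empty]
      positivity
    · have h0' : (0 : ℝ) < rng G R lo hi d e := by exact_mod_cast h0
      refine (sum_le_card_nsmul _ _ (4 * (n + 1) * Zc G R a d / rng G R lo hi d e)
        fun k _ => (le_div_iff₀ h0').2 (noise_coord_le H e k)).trans ?_
      rw [nsmul_eq_mul]
      refine (mul_le_mul_of_nonneg_right hc (by positivity)).trans (le_of_eq ?_)
      field_simp
  refine (sum_le_sum h1).trans ?_
  rw [sum_comm]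
  refine (sum_le_card_nsmul _ _ _ fun e _ => h2 e).trans ?_
  rw [nsmul_eq_mul, card_univ]
  have hE : (Fintype.card E : ℝ) ≤ n := by exact_mod_cast H.cardE
  refine (mul_le_mul_of_nonneg_right hE (by positivity)).trans ?_
  rw [show (n : ℝ) * (2 * (4 * (n + 1) * Zc G R a d / n ^ 6)) =
    (8 * (n + 1) / n) / n ^ 4 * Zc G R a d by field_simp; ring]
  gcongr
  rw [div_le_iff₀ (by linarith)]
  linarith

/-- `y f = mrg f / (2 n ^ 6)`: the depth available along the cycle of `f`. -/
noncomputable def avail (G : Gr V E) (R : ℕ) (lo hi : E → ℤ) (d : V → ℤ) (n : ℕ) (f : E) : ℕ :=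
  mrg G R lo hi d n f / (2 * n ^ 6)

lemma noise_deep_inBox {z : E → ℤ} (h : Deep G R lo hi d n z) : InBox lo hi z := by
  intro e
  have := h e
  simp only at this
  omega

/-- If `C f t ≠ 0` then `D := dep Rf t ≥ dep Rf f ≥ mrg f`.  If `2 rng t ≤ D` then
`dep N t ≥ D - rng t ≥ D / 2`; otherwise `dep N t ≥ mrg t = rng t / n ^ 6 ≥ D / (2 n ^ 6)`. -/
lemma avail_le_dep (H : Hyp G R lo hi a d n) {Rf : E → ℤ} (hR : Rf ∈ cls G R d)
    (hR' : Deep G R lo hi d n Rf) {T : Finset E} {C : E → E → ℤ} (hC : Cyc G (dep lo hi Rf) T C n)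
    {N : E → ℤ} (hN : N ∈ cls G R d) (hN' : Deep G R lo hi d n N) {f t : E} (h : C f t ≠ 0) :
    (avail G R lo hi d n f : ℤ) ≤ dep lo hi N t := by
  have h1 := hC.deep f t h
  have h2 := hR' f
  have h3 := hN' t
  have h4 := abs_le.1 (abs_sub_le_rng hN (noise_deep_inBox hN') hR (noise_deep_inBox hR') t)
  have hn : 0 < n ^ 6 := pow_pos (lt_of_lt_of_le (by norm_num) H.big) _
  simp only [dep] at h1 h2 h3 ⊢
  by_cases hc : 2 * rng G R lo hi d t ≤ mrg G R lo hi d n f
  · have h5 : avail G R lo hi d n f ≤ mrg G R lo hi d n f / 2 :=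
      Nat.div_le_div_left (by omega) (by norm_num)
    omega
  · have h5 : avail G R lo hi d n f ≤ mrg G R lo hi d n t := by
      refine (Nat.div_le_div_right (not_le.1 hc).le).trans (le_of_eq ?_)
      exact Nat.mul_div_mul_left _ _ (by norm_num)
    omega

/-- The exponent of the noise range on `f` (range `[0, 2 ^ nex f)`); zero for tree edges and for
small edges. -/
noncomputable def nex (G : Gr V E) (R : ℕ) (lo hi : E → ℤ) (d : V → ℤ) (n : ℕ) (T : Finset E)
    (f : E) : ℕ :=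
  if f ∉ T ∧ 16 * n ^ 4 ≤ avail G R lo hi d n f then Nat.log 2 (avail G R lo hi d n f / n ^ 3) else 0

/-- A noise vector. -/
def IsNoise (G : Gr V E) (R : ℕ) (lo hi : E → ℤ) (d : V → ℤ) (n : ℕ) (T : Finset E)
    (B : E → ℤ) : Prop := ∀ f, 0 ≤ B f ∧ B f < 2 ^ nex G R lo hi d n T f

lemma noise_le (H : Hyp G R lo hi a d n) {T : Finset E} {B : E → ℤ}
    (hB : IsNoise G R lo hi d n T B) (f : E) : (n : ℤ) ^ 3 * B f ≤ avail G R lo hi d n f := by
  have h := hB f
  have hn : 0 < n := lt_of_lt_of_le (by norm_num) H.big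
  unfold nex at h
  split_ifs at h with hc
  · have h1 : avail G R lo hi d n f / n ^ 3 ≠ 0 := by
      refine (Nat.div_pos ?_ (by positivity)).ne'
      calc n ^ 3 ≤ n ^ 4 := Nat.pow_le_pow_right hn (by norm_num)
        _ ≤ _ := by omega
    have h2 := Nat.pow_log_le_self 2 h1
    have h3 := Nat.mul_div_le (avail G R lo hi d n f) (n ^ 3)
    have h4 : n ^ 3 * 2 ^ Nat.log 2 (avail G R lo hi d n f / n ^ 3) ≤ avail G R lo hi d n f :=
      (Nat.mul_le_mul_left _ h2).trans h3
    have h5 : (n : ℤ) ^ 3 * 2 ^ Nat.log 2 (avail G R lo hi d n f / n ^ 3) ≤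
        avail G R lo hi d n f := by exact_mod_cast h4
    exact (mul_le_mul_of_nonneg_left h.2.le (by positivity)).trans h5
  · have : B f = 0 := by omega
    rw [this, mul_zero]
    positivity

/-- Noise keeps a deep flow in the box and loses at most a factor two in weight:
`B f ≤ avail f / n ^ 3` for all `f`, so `|∑ f, B f * C f t| ≤ n * n * dep N t / n ^ 3`
(`avail_le_dep`, `Cyc.bdd`), and `dep N t ≤ hi t - lo t`; then `Hyp.flat`. -/
lemma noise_valid (H : Hyp G R lo hi a d n) {Rf : E → ℤ} (hR : Rf ∈ cls G R d)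
    (hR' : Deep G R lo hi d n Rf) {T : Finset E} {C : E → E → ℤ} (hC : Cyc G (dep lo hi Rf) T C n)
    {N : E → ℤ} (hN : N ∈ cls G R d) (hN' : Deep G R lo hi d n N) {B : E → ℤ}
    (hB : IsNoise G R lo hi d n T B) :
    N + ∑ f, B f • C f ∈ cls G R d ∧ InBox lo hi (N + ∑ f, B f • C f) ∧
      wt a N ≤ 2 * wt a (N + ∑ f, B f • C f) := by
  have hn : (1000 : ℤ) ≤ n := by exact_mod_cast H.big
  have hNb := noise_deep_inBox hN'
  have key : ∀ t, (n : ℤ) * |(∑ f, B f • C f) t| ≤ dep lo hi N t := by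
    intro t
    have hd : 0 ≤ dep lo hi N t := by
      have := hNb t
      simp only [dep]
      omega
    have h1 : ∀ f ∈ (univ : Finset E), (n : ℤ) ^ 3 * |B f * C f t| ≤ dep lo hi N t * n := by
      intro f _
      by_cases h : C f t = 0
      · rw [h, mul_zero, abs_zero, mul_zero]; positivity
      · rw [abs_mul, abs_of_nonneg (hB f).1, ← mul_assoc]
        exact mul_le_mul ((noise_le H hB f).trans (avail_le_dep H hR hR' hC hN hN' h))
          (hC.bdd f t) (abs_nonneg _) hd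
    have h2 := sum_le_card_nsmul _ _ _ h1
    rw [← mul_sum, nsmul_eq_mul, card_univ] at h2
    have h3 : |(∑ f, B f • C f) t| ≤ ∑ f, |B f * C f t| := by
      rw [Finset.sum_apply]
      exact abs_sum_le_sum_abs _ _
    have hE : (Fintype.card E : ℤ) ≤ n := by exact_mod_cast H.cardE
    have h4 : (n : ℤ) ^ 2 * (n * |(∑ f, B f • C f) t|) ≤ (n : ℤ) ^ 2 * dep lo hi N t :=
      calc _ = (n : ℤ) ^ 3 * |(∑ f, B f • C f) t| := by ring
        _ ≤ (n : ℤ) ^ 3 * ∑ f, |B f * C f t| := by gcongr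
        _ ≤ _ := h2
        _ ≤ n * (dep lo hi N t * n) := by gcongr
        _ = _ := by ring
    exact le_of_mul_le_mul_left h4 (by positivity)
  have hb : InBox lo hi (N + ∑ f, B f • C f) := by
    intro t
    have h1 := key t
    have h2 : |(∑ f, B f • C f) t| ≤ dep lo hi N t := by
      nlinarith [abs_nonneg ((∑ f, B f • C f) t)]
    rw [abs_le] at h2
    simp only [dep] at h2
    rw [Pi.add_apply]
    omega
  refine ⟨mem_cls.2 ⟨H.adm.mem_box ((H.wt_pos_iff _).2 hb).ne', ?_⟩, hb,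
    H.flat _ _ hNb hb fun t => ?_⟩
  · rw [G.div_add, G.div_sum, (mem_cls.1 hN).2]
    simp only [G.div_smul, hC.circ, smul_zero, sum_const_zero, add_zero]
  · have h1 := key t
    have h2 := hNb t
    rw [Pi.add_apply, sub_add_cancel_left, abs_neg]
    simp only [dep] at h1
    omega

lemma noise_rng_lt (H : Hyp G R lo hi a d n) (e : E) : rng G R lo hi d e < 2 ^ n := by
  refine (Finset.sup_lt_iff (by positivity)).2 fun p hp => ?_
  rw [mem_product, mem_filter, mem_filter] at hp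
  have h1 := hp.1.2 e
  have h2 := hp.2.2 e
  have h3 := H.width e
  have h4 : ((2 ^ n : ℕ) : ℤ) = 2 ^ n := by push_cast; rfl
  have h5 : 0 < 2 ^ n := by positivity
  omega

/-- The vector with binary digits `P`. -/
def noise_bits (P : Finset (E × ℕ)) (g : E) : ℤ := ∑ p ∈ P, if p.1 = g then 2 ^ p.2 else 0

lemma noise_bits_sum (C : E → E → ℤ) (P : Finset (E × ℕ)) :
    ∑ g, noise_bits P g • C g = ∑ p ∈ P, (2 : ℤ) ^ p.2 • C p.1 := by
  simp only [noise_bits, sum_smul]
  rw [sum_comm]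
  refine sum_congr rfl fun p _ => ?_
  simp [ite_smul]

/-- One term of `CDir`. -/
noncomputable def noise_c (G : Gr V E) (R : ℕ) (d : V → ℤ) (a : E → ℤ → ℝ) (C : E → E → ℤ)
    (f : (E → ℤ) → ℝ) (p : E × ℕ) : ℝ :=
  ∑ y ∈ cls G R d, if y + (2 : ℤ) ^ p.2 • C p.1 ∈ box E R then
    min (wt a y) (wt a (y + (2 : ℤ) ^ p.2 • C p.1)) * (f y - f (y + (2 : ℤ) ^ p.2 • C p.1)) ^ 2
    else 0

lemma noise_c_term_nonneg (H : Hyp G R lo hi a d n) (u : E → ℤ) (f : (E → ℤ) → ℝ) (y : E → ℤ) :
    0 ≤ if y + u ∈ box E R then min (wt a y) (wt a (y + u)) * (f y - f (y + u)) ^ 2 else 0 := by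
  split_ifs
  · exact mul_nonneg (le_min (H.adm.wt_nonneg _) (H.adm.wt_nonneg _)) (sq_nonneg _)
  · exact le_rfl

lemma noise_c_nonneg (H : Hyp G R lo hi a d n) (C : E → E → ℤ) (f : (E → ℤ) → ℝ) (p : E × ℕ) :
    0 ≤ noise_c G R d a C f p := sum_nonneg fun y _ => noise_c_term_nonneg H _ f y

omit [DecidableEq E] in
lemma noise_sum_shift {A A' : Finset (E → ℤ)} {φ ψ : (E → ℤ) → ℝ} (s : E → ℤ)
    (h1 : ∀ N ∈ A, N + s ∈ A') (h2 : ∀ N ∈ A, φ N ≤ ψ (N + s)) (h3 : ∀ y ∈ A', 0 ≤ ψ y) :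
    ∑ N ∈ A, φ N ≤ ∑ y ∈ A', ψ y := by
  refine (sum_le_sum h2).trans ?_
  rw [← sum_image (s := A) (g := fun N => N + s) (f := ψ) fun x _ y _ h => add_right_cancel h]
  refine sum_le_sum_of_subset_of_nonneg (fun y hy => ?_) fun y hy _ => h3 y hy
  obtain ⟨N, hN, rfl⟩ := mem_image.1 hy
  exact h1 N hN

lemma noise_energy_aux (H : Hyp G R lo hi a d n) {Rf : E → ℤ} (hR : Rf ∈ cls G R d)
    (hR' : Deep G R lo hi d n Rf) {T : Finset E} {C : E → E → ℤ} (hC : Cyc G (dep lo hi Rf) T C n)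
    (f : (E → ℤ) → ℝ) (P : Finset (E × ℕ)) (hP : IsNoise G R lo hi d n T (noise_bits P)) :
    ∑ N ∈ (cls G R d).filter (Deep G R lo hi d n),
      wt a N * (f N - f (N + ∑ g, noise_bits P g • C g)) ^ 2 ≤
      2 * P.card * ∑ p ∈ P, noise_c G R d a C f p := by
  induction P using Finset.induction_on with
  | empty => simp [noise_bits]
  | insert p P hp ih =>
    have hP' : IsNoise G R lo hi d n T (noise_bits P) := by
      intro g
      have h1 := (hP g).2
      simp only [noise_bits] at h1 ⊢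
      rw [sum_insert hp] at h1
      have h2 : (0 : ℤ) ≤ if p.1 = g then 2 ^ p.2 else 0 := by positivity
      exact ⟨sum_nonneg fun q _ => by positivity, by linarith⟩
    replace ih := ih hP'
    have hs : ∀ N : E → ℤ, N + ∑ g, noise_bits (insert p P) g • C g =
        N + ∑ g, noise_bits P g • C g + (2 : ℤ) ^ p.2 • C p.1 := by
      intro N
      rw [noise_bits_sum, noise_bits_sum, sum_insert hp]
      abel
    set s := ∑ g, noise_bits P g • C g with hs'
    have step : ∑ N ∈ (cls G R d).filter (Deep G R lo hi d n),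
        wt a N * (f (N + s) - f (N + s + (2 : ℤ) ^ p.2 • C p.1)) ^ 2 ≤
        2 * noise_c G R d a C f p := by
      unfold noise_c
      rw [mul_sum]
      refine noise_sum_shift s (fun N hN => ?_) (fun N hN => ?_) fun y _ => ?_
      · rw [mem_filter] at hN
        exact (noise_valid H hR hR' hC hN.1 hN.2 hP').1
      · rw [mem_filter] at hN
        have h1 := noise_valid H hR hR' hC hN.1 hN.2 hP'
        have h2 := noise_valid H hR hR' hC hN.1 hN.2 hP
        rw [hs] at h2
        rw [if_pos (mem_cls.1 h2.1).1, ← mul_assoc]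
        refine mul_le_mul_of_nonneg_right ?_ (sq_nonneg _)
        rw [mul_min_of_nonneg _ _ zero_le_two]
        exact le_min h1.2.2 h2.2.2
      · exact mul_nonneg zero_le_two (noise_c_term_nonneg H _ f y)
    simp only [hs]
    rw [card_insert_of_notMem hp, sum_insert hp]
    rcases P.eq_empty_or_nonempty with rfl | hne
    · have : s = 0 := by simp [hs', noise_bits]
      simpa [this] using step
    · have hk : (0 : ℝ) < P.card := by exact_mod_cast hne.card_pos
      have h1 : ∀ N ∈ (cls G R d).filter (Deep G R lo hi d n),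
          wt a N * (f N - f (N + s + (2 : ℤ) ^ p.2 • C p.1)) ^ 2 ≤
          (P.card + 1) / P.card * (wt a N * (f N - f (N + s)) ^ 2) +
          (P.card + 1) * (wt a N * (f (N + s) - f (N + s + (2 : ℤ) ^ p.2 • C p.1)) ^ 2) := by
        intro N _
        have h0 := H.adm.wt_nonneg N
        generalize f (N + s + (2 : ℤ) ^ p.2 • C p.1) = z
        generalize f (N + s) = y
        generalize f N = x
        have h2 : (x - z) ^ 2 ≤ (P.card + 1) / P.card * (x - y) ^ 2 + (P.card + 1) * (y - z) ^ 2 := by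
          rw [← sub_nonneg, show (P.card + 1) / P.card * (x - y) ^ 2 + (P.card + 1) * (y - z) ^ 2 -
            (x - z) ^ 2 = ((x - y) - P.card * (y - z)) ^ 2 / P.card by field_simp; ring]
          positivity
        nlinarith [mul_le_mul_of_nonneg_left h2 h0]
      refine (sum_le_sum h1).trans ?_
      rw [sum_add_distrib, ← mul_sum, ← mul_sum]
      refine (add_le_add (mul_le_mul_of_nonneg_left ih (by positivity))
        (mul_le_mul_of_nonneg_left step (by positivity))).trans (le_of_eq ?_)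
      push_cast
      field_simp
      ring

/-- Energy of one noise vector.  `nex f ≤ n` (`avail f ≤ rng f ≤ hi f - lo f < 2 ^ n`).  Write
`B f = ∑ j < n, [testBit (B f) j] 2 ^ j`, enumerate the pairs `(f, j) ∈ univ ×ˢ range n` (at most `n²`)
and telescope with Cauchy–Schwarz; every partial sum is `∑ f, B' f • C f` for a noise vector
`0 ≤ B' ≤ B` not depending on `N`, `N ↦ N + ∑ B' f • C f` is injective, and `noise_valid` bounds
`wt N` by twice the `min` of the weights of both ends of the step. -/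
theorem noise_energy (H : Hyp G R lo hi a d n) {Rf : E → ℤ} (hR : Rf ∈ cls G R d)
    (hR' : Deep G R lo hi d n Rf) {T : Finset E} {C : E → E → ℤ} (hC : Cyc G (dep lo hi Rf) T C n)
    {B : E → ℤ} (hB : IsNoise G R lo hi d n T B) (f : (E → ℤ) → ℝ) :
    ∑ N ∈ (cls G R d).filter (Deep G R lo hi d n), wt a N * (f N - f (N + ∑ g, B g • C g)) ^ 2 ≤
      2 * n ^ 2 * CDir G R d a C n f := by
  have hn : 0 < n := lt_of_lt_of_le (by norm_num) H.big
  let P : Finset (E × ℕ) :=
    (univ ×ˢ range n).filter fun p => p.2 ∈ (B p.1).toNat.bitIndices.toFinset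
  have hP : noise_bits P = B := by
    funext g
    have h1 : (B g).toNat < 2 ^ n := by
      have a1 := noise_le H hB g
      have a2 : avail G R lo hi d n g ≤ rng G R lo hi d g :=
        (Nat.div_le_self _ _).trans (Nat.div_le_self _ _)
      have a3 := noise_rng_lt H g
      have a4 : (1 : ℤ) ≤ (n : ℤ) ^ 3 := one_le_pow₀ (by exact_mod_cast hn)
      have a5 : B g ≤ (n : ℤ) ^ 3 * B g := le_mul_of_one_le_left (hB g).1 a4
      omega
    have h2 : (range n).filter (fun j => j ∈ (B g).toNat.bitIndices.toFinset) =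
        (B g).toNat.bitIndices.toFinset := by
      ext j
      rw [mem_filter, mem_range, and_iff_right_iff_imp, List.mem_toFinset]
      intro hj
      exact (Nat.pow_lt_pow_iff_right (by norm_num)).1
        ((Nat.two_pow_le_of_mem_bitIndices hj).trans_lt h1)
    have h3 : ((∑ j ∈ (B g).toNat.bitIndices.toFinset, 2 ^ j : ℕ) : ℤ) = B g := by
      rw [Finset.twoPowSum_toFinset_bitIndices, Int.toNat_of_nonneg (hB g).1]
    rw [← h3, ← h2]
    simp only [noise_bits, P]
    rw [sum_filter, sum_product, sum_eq_single g, sum_filter]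
    · push_cast
      simp
    · intro b _ hb
      simp [hb]
    · simp
  have h := noise_energy_aux H hR hR' hC f P (hP ▸ hB)
  rw [hP] at h
  refine h.trans ?_
  have h1 : (P.card : ℝ) ≤ n ^ 2 := by
    have : P.card ≤ n ^ 2 := by
      refine (card_filter_le _ _).trans ?_
      rw [card_product, card_univ, card_range, sq]
      exact Nat.mul_le_mul_right _ H.cardE
    exact_mod_cast this
  have h2 : ∑ p ∈ P, noise_c G R d a C f p ≤ CDir G R d a C n f := by
    refine (sum_le_sum_of_subset_of_nonneg (filter_subset _ _)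
      fun p _ _ => noise_c_nonneg H C f p).trans (le_of_eq ?_)
    rw [sum_product]
    rfl
  have h3 : 0 ≤ ∑ p ∈ P, noise_c G R d a C f p := sum_nonneg fun p _ => noise_c_nonneg H C f p
  gcongr

/-- The difference of a pair is small compared with the noise range on every large edge. -/
def Close (G : Gr V E) (R : ℕ) (lo hi : E → ℤ) (d : V → ℤ) (n : ℕ) (T : Finset E) (D : E → ℤ) :
    Prop :=
  ∀ f, nex G R lo hi d n T f ≠ 0 → |D f| ≤ 2 ^ nex G R lo hi d n T f / (4 * n)

lemma noise_far (H : Hyp G R lo hi a d n) {T : Finset E} {f : E} {x : ℤ}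
    (h1 : nex G R lo hi d n T f ≠ 0) (h2 : 2 ^ nex G R lo hi d n T f / (4 * (n : ℤ)) < |x|) :
    1 < |x| ∧ 0 < rng G R lo hi d f ∧ (rng G R lo hi d f : ℤ) ≤ 32 * n ^ 16 * |x| := by
  have hn : 0 < n := lt_of_lt_of_le (by norm_num) H.big
  have hc : f ∉ T ∧ 16 * n ^ 4 ≤ avail G R lo hi d n f := by
    by_contra hc
    exact h1 (if_neg hc)
  rw [nex, if_pos hc] at h2
  obtain ⟨u, hu⟩ := Int.eq_ofNat_of_zero_le (abs_nonneg x)
  rw [hu] at h2 ⊢
  set y := avail G R lo hi d n f with hy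
  set η := 2 ^ Nat.log 2 (y / n ^ 3) with hη
  have a1 : η / (4 * n) < u := by exact_mod_cast h2
  have a2 : η < u * (4 * n) := (Nat.div_lt_iff_lt_mul (by positivity)).1 a1
  have a3 : y / n ^ 3 < η * 2 := Nat.lt_pow_succ_log_self (b := 2) (by norm_num) _
  have a4 : y < η * 2 * n ^ 3 := (Nat.div_lt_iff_lt_mul (by positivity)).1 a3
  have a5 : y < 8 * n ^ 4 * u := by
    calc y < η * 2 * n ^ 3 := a4
      _ ≤ u * (4 * n) * 2 * n ^ 3 := by gcongr
      _ = _ := by ring
  have a6 : 1 < u := by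
    have : 8 * n ^ 4 * 1 < 8 * n ^ 4 * u := by omega
    exact lt_of_mul_lt_mul_left this (Nat.zero_le _)
  have a7 : mrg G R lo hi d n f < (y + 1) * (2 * n ^ 6) :=
    (Nat.div_lt_iff_lt_mul (by positivity)).1 (Nat.lt_succ_self _)
  have a8 : rng G R lo hi d f < (mrg G R lo hi d n f + 1) * n ^ 6 :=
    (Nat.div_lt_iff_lt_mul (by positivity)).1 (Nat.lt_succ_self _)
  have a9 : y ≤ rng G R lo hi d f := (Nat.div_le_self _ _).trans (Nat.div_le_self _ _)
  have a10 : 0 < n ^ 4 := by positivity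
  refine ⟨by exact_mod_cast a6, by omega, ?_⟩
  have : rng G R lo hi d f ≤ 32 * n ^ 16 * u :=
    calc _ ≤ (mrg G R lo hi d n f + 1) * n ^ 6 := a8.le
      _ ≤ (y + 1) * (2 * n ^ 6) * n ^ 6 := by gcongr; exact a7
      _ ≤ (8 * n ^ 4 * u) * (2 * n ^ 6) * n ^ 6 := by gcongr; exact a5
      _ = 16 * n ^ 16 * u := by ring
      _ ≤ _ := by gcongr; norm_num
  exact_mod_cast this

open Classical in
/-- With `y = avail f ≥ 16 n⁴`, `η = 2 ^ nex f > y / (4 n³)`: if `|D f| > η / (4 n)` (integer quotient)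
then `|D f| > y / (16 n⁴) ≥ 1` (real quotient), so `ψ (D f) ≥ 3/4 (y / (16 n⁴))⁴`, while at level zero
`|D f| ≤ rng f < 4 n¹² y`.  `GS_psi` with `v = tl f`, `A = {f}` (`Gr.gf_single_tl`) and Markov. -/
theorem notClose_mass (H : Hyp G R lo hi a d n) (T : Finset E) {lo' hi' : E → ℤ} (l : ℕ) :
    GS G R d 0 l (fun e x => if lo' e ≤ x ∧ x ≤ hi' e then a e x else 0)
        (fun N X => if Close G R lo hi d n T (N - X) then 0 else 1) ≤
      (1 / 3 : ℝ) ^ l * n ^ 68 *
        Zc G R (fun e x => if lo' e ≤ x ∧ x ≤ hi' e then a e x else 0) d ^ 2 := by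
  have hn : (1000 : ℝ) ≤ n := by exact_mod_cast H.big
  set a' : E → ℤ → ℝ := fun e x => if lo' e ≤ x ∧ x ≤ hi' e then a e x else 0 with ha'
  have hA : Adm R a' := H.adm.restrict lo' hi'
  have hin : ∀ z, G.div z = d → wt a' z ≠ 0 → z ∈ cls G R d ∧ InBox lo hi z := by
    intro z hz hw
    refine ⟨mem_cls.2 ⟨hA.mem_box hw, hz⟩, (H.wt_pos_iff z).1 ?_⟩
    rw [ha', wt_restrict] at hw
    split_ifs at hw
    · exact lt_of_le_of_ne (H.adm.wt_nonneg z) (Ne.symm hw)
    · exact absurd rfl hw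
  let K : ℝ := 4 / 3 * (32 * n ^ 16) ^ 4
  have hK : 0 ≤ K := by positivity
  have h1 : GS G R d 0 l a' (fun N X => if Close G R lo hi d n T (N - X) then 0 else 1) ≤
      GS G R d 0 l a' (fun N X => ∑ f, K / (rng G R lo hi d f : ℝ) ^ 4 *
        psi (G.gf (G.tl f) {f} (N - X))) := by
    refine GS_mono G d 0 l hA fun N X hN hX hwN hwX => ?_
    have h0 : ∀ f ∈ (univ : Finset E), 0 ≤ K / (rng G R lo hi d f : ℝ) ^ 4 *
        psi (G.gf (G.tl f) {f} (N - X)) := fun f _ => mul_nonneg (by positivity) (psi_nonneg _)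
    split_ifs with hc
    · exact sum_nonneg h0
    · obtain ⟨f, hf⟩ := not_forall.1 hc
      obtain ⟨hf1, hf2⟩ := Classical.not_imp.1 hf
      refine le_trans ?_ (single_le_sum h0 (mem_univ f))
      rw [G.gf_single_tl f (H.noloop f)]
      obtain ⟨b1, b2, b3⟩ := noise_far H hf1 (not_le.1 hf2)
      have b4 := (psi_ge b1).1
      have b2' : (0 : ℝ) < rng G R lo hi d f := by exact_mod_cast b2
      have b3' : (rng G R lo hi d f : ℝ) ≤ 32 * n ^ 16 * |(((N - X) f : ℤ) : ℝ)| := by
        exact_mod_cast b3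
      have b5 := pow_le_pow_left₀ b2'.le b3' 4
      rw [mul_pow, show |(((N - X) f : ℤ) : ℝ)| ^ 4 = (((N - X) f : ℤ) : ℝ) ^ 4 from
        Even.pow_abs (by decide) _] at b5
      rw [div_mul_eq_mul_div, le_div_iff₀ (by positivity), one_mul]
      refine b5.trans ?_
      have b6 : (0 : ℝ) ≤ (32 * n ^ 16) ^ 4 := by positivity
      have := mul_le_mul_of_nonneg_left b4 b6
      simp only [K]
      linarith
  refine h1.trans ?_
  rw [GS_sum]
  have h2 : ∀ f ∈ (univ : Finset E), GS G R d 0 l a' (fun N X => K / (rng G R lo hi d f : ℝ) ^ 4 *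
      psi (G.gf (G.tl f) {f} (N - X))) ≤ K * ((1 / 3 : ℝ) ^ l * Zc G R a' d ^ 2) := by
    intro f _
    rw [GS_smul]
    have c1 := GS_psi G d 0 l hA ⟨G.tl f, G.tl f, (rt_self _).symm⟩ (G.tl f) {f}
    rw [if_pos rfl] at c1
    have c2 : GS G R d 0 0 a' (fun N X => psi (G.gf (G.tl f) {f} (N - X))) ≤
        GS G R d 0 0 a' (fun _ _ => (rng G R lo hi d f : ℝ) ^ 4) := by
      refine GS_mono G d 0 0 hA fun N X hN hX hwN hwX => psi_le ?_
      rw [G.gf_single_tl f (H.noloop f)]
      have x1 := hin N (by rw [hN, add_zero]) hwN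
      have x2 := hin X hX hwX
      exact_mod_cast abs_sub_le_rng x1.1 x1.2 x2.1 x2.2 f
    rw [GS_left G d 0 0 hA fun _ => (rng G R lo hi d f : ℝ) ^ 4, add_zero, ← sum_mul] at c2
    have c3 : K / (rng G R lo hi d f : ℝ) ^ 4 * (rng G R lo hi d f : ℝ) ^ 4 ≤ K := by
      rcases eq_or_ne ((rng G R lo hi d f : ℝ) ^ 4) 0 with h | h
      · rw [h, mul_zero]; exact hK
      · rw [div_mul_cancel₀ _ h]
    refine (mul_le_mul_of_nonneg_left (c1.trans (mul_le_mul_of_nonneg_left c2 (by positivity)))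
      (by positivity)).trans ?_
    calc _ = K / (rng G R lo hi d f : ℝ) ^ 4 * (rng G R lo hi d f : ℝ) ^ 4 *
          ((1 / 3 : ℝ) ^ l * Zc G R a' d ^ 2) := by rw [Zc]; ring
      _ ≤ _ := by gcongr
  refine (sum_le_card_nsmul _ _ _ h2).trans ?_
  rw [nsmul_eq_mul, card_univ]
  have hE : (Fintype.card E : ℝ) ≤ n := by exact_mod_cast H.cardE
  have h3 : (n : ℝ) * K ≤ n ^ 68 := by
    have : (1000 : ℝ) ^ 3 ≤ n ^ 3 := by gcongr
    calc (n : ℝ) * K = (4 / 3 * 32 ^ 4) * n ^ 65 := by simp only [K]; ring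
      _ ≤ n ^ 3 * n ^ 65 := by gcongr; linarith
      _ = _ := by ring
  calc _ ≤ n * (K * ((1 / 3 : ℝ) ^ l * Zc G R a' d ^ 2)) := by gcongr
    _ = (1 / 3 : ℝ) ^ l * (n * K) * Zc G R a' d ^ 2 := by ring
    _ ≤ _ := by gcongr

end Crest.Agent.R309
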