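import Crest.Agent.R309.Alg
import Crest.Agent.R309.Noise

/-! Row 309: dictionary between the list level and the flow theory. -/

set_option autoImplicit false

namespace Crest.Agent.R309

open Finset Crest.Agent.Lib.PT

namespace Inst

variable {I : Inst} {s : ℕ}

lemma vec_ofFn (z : Fin I.ne → ℤ) : I.vec (List.ofFn z) = z := by
  funext e
  simp [vec, List.getD_eq_getElem?_getD]

lemma ofFn_vec {S : List ℤ} (h : S.length = I.ne) : List.ofFn (I.vec S) = S := by
  apply List.ext_getElem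
  · simp [h]
  · intro i h1 h2
    simp [vec, List.getD_eq_getElem?_getD, h2]

lemma Sz.TL_lt (H : I.Sz s) {e : ℕ} (he : e < I.ne) : I.TL e < I.p := by
  by_cases h : e < I.q
  · exact H.tl_lt e h
  · unfold TL
    rw [if_neg h]
    unfold ne at he
    omega

lemma Sz.HD_lt (H : I.Sz s) {e : ℕ} (he : e < I.ne) : I.HD e < I.nv := by
  by_cases h : e < I.q
  · have := H.hd_lt e h
    unfold nv
    omega
  · unfold HD nv
    rw [if_neg h]
    omega

lemma Sz.gr_tl (H : I.Sz s) (e : Fin I.ne) : (I.gr.tl e : ℕ) = I.TL e := by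
  have := H.TL_lt e.2
  simp only [gr]
  omega

lemma Sz.gr_hd (H : I.Sz s) (e : Fin I.ne) : (I.gr.hd e : ℕ) = I.HD e := by
  have := H.HD_lt e.2
  unfold nv at this
  simp only [gr]
  omega

lemma Sz.gr_noloop (H : I.Sz s) (e : Fin I.ne) : I.gr.tl e ≠ I.gr.hd e := by
  intro h
  have h1 : I.TL e = I.HD e := by rw [← H.gr_tl, ← H.gr_hd, h]
  by_cases he : (e : ℕ) < I.q
  · exact H.noloop e he h1
  · have h2 := H.TL_lt e.2
    have h3 : I.HD e = I.p := by unfold HD; rw [if_neg he]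
    omega

lemma Sz.gr_inc (H : I.Sz s) (v : Fin I.nv) (e : Fin I.ne) : I.gr.inc v e = I.inc v e := by
  simp only [Gr.inc, rt, inc, Fin.ext_iff, H.gr_tl, H.gr_hd]

lemma Sz.dfc_eq (H : I.Sz s) (S : List ℤ) (v : Fin I.nv) :
    I.dfc S v = I.gr.div (I.vec S) v - I.dd v := by
  unfold dfc Gr.div dd
  rw [← Fin.sum_univ_eq_sum_range (fun e => I.inc v e * S.getD e 0)]
  simp only [H.gr_inc, vec]

lemma Sz.isCls_iff (H : I.Sz s) (S : List ℤ) (i j : Fin I.nv) :
    I.isCls S i j = true ↔ I.gr.div (I.vec S) = I.dd + rt i j := by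
  unfold isCls
  rw [decide_eq_true_iff]
  constructor
  · intro h
    funext v
    have h1 := h v v.2
    rw [H.dfc_eq] at h1
    simp only [Pi.add_apply, rt, Fin.ext_iff]
    linarith
  · intro h v hv
    have h1 := congrFun h ⟨v, hv⟩
    have h2 := H.dfc_eq S ⟨v, hv⟩
    simp only [Pi.add_apply, rt, Fin.ext_iff] at h1 h2
    rw [h2]
    linarith

lemma Sz.isCls_zero_iff (H : I.Sz s) (S : List ℤ) :
    I.isCls S 0 0 = true ↔ I.gr.div (I.vec S) = I.dd := by
  have h := H.isCls_iff S ⟨0, Nat.succ_pos _⟩ ⟨0, Nat.succ_pos _⟩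
  rw [rt_self, add_zero] at h
  exact h

lemma isCls_self (S : List ℤ) (i : ℕ) : I.isCls S i i = I.isCls S 0 0 := by
  simp [isCls]

/-- The class of a state is unique. -/
lemma isCls_unique {S : List ℤ} {i j i' j' : ℕ} (hi : i < I.nv) (hj : j < I.nv) (hij : i ≠ j)
    (h : I.isCls S i j = true) (h' : I.isCls S i' j' = true) : i' = i ∧ j' = j := by
  unfold isCls at h h'
  rw [decide_eq_true_iff] at h h'
  have a1 := h i hi
  have a2 := h j hj
  have a3 := h' i hi
  have a4 := h' j hj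
  rw [a1] at a3
  rw [a2] at a4
  rw [if_pos rfl, if_neg hij.symm] at a3
  rw [if_pos rfl, if_neg hij] at a4
  constructor
  · by_contra hne
    rw [if_neg hne] at a3
    split_ifs at a3 <;> omega
  · by_contra hne
    rw [if_neg hne] at a4
    split_ifs at a4 <;> omega

lemma uu_of_isCls {S : List ℤ} {i j : ℕ} (hi : i < I.nv) (hj : j < I.nv) (hij : i ≠ j)
    (h : I.isCls S i j = true) (u : List (List ℤ)) : I.uu u S = (u.getD i []).getD j 0 := by
  unfold uu
  rw [sum_eq_single i, sum_eq_single j, if_pos ⟨hij, h⟩]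
  · intro b _ hb
    rw [if_neg]
    exact fun h' => hb (isCls_unique hi hj hij h h'.2).2
  · intro h'
    exact absurd (mem_range.2 hj) h'
  · intro b _ hb
    refine sum_eq_zero fun c _ => ?_
    rw [if_neg]
    exact fun h' => hb (isCls_unique hi hj hij h h'.2).1
  · intro h'
    exact absurd (mem_range.2 hi) h'

lemma uu_of_isCls_zero {S : List ℤ} (h : I.isCls S 0 0 = true) (u : List (List ℤ)) :
    I.uu u S = 0 := by
  unfold uu
  refine sum_eq_zero fun i hi => sum_eq_zero fun j hj => ?_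
  rw [if_neg]
  intro h'
  have := isCls_unique (mem_range.1 hi) (mem_range.1 hj) h'.1 h'.2 h
  exact h'.1 (this.1.symm.trans this.2)

lemma pit_eq (θ : Th) (S : List ℤ) :
    I.pit s θ S = (2 : ℝ) ^ I.uu θ.2.1 S * I.atw s θ.1 S := by
  unfold pit lw atw
  rw [zpow_sub₀ (by norm_num), zpow_natCast, mul_one_div]

lemma pit_pos (θ : Th) (S : List ℤ) : 0 < I.pit s θ S := by
  unfold pit
  positivity

lemma atw_pos (M : ℕ) (S : List ℤ) : 0 < I.atw s M S := by
  unfold atw
  positivity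

lemma bridge_valid_iff (M : ℕ) (S : List ℤ) : I.valid M S = true ↔ S.length = I.ne ∧
    (∀ e < I.ne, I.LO M e ≤ S.getD e 0 ∧ S.getD e 0 ≤ I.HI M e) ∧
      ∃ i < I.nv, ∃ j < I.nv, I.isCls S i j = true := by
  simp only [valid, Bool.and_eq_true, decide_eq_true_iff, and_assoc]

lemma bridge_abs_le (H : I.Sz s) {M : ℕ} (hM : M ≤ pM0 s) {e : ℕ} {x : ℤ}
    (h1 : I.LO M e ≤ x) (h2 : x ≤ I.HI M e) : |x| ≤ (rad s : ℤ) := by
  unfold LO at h1
  unfold HI at h2
  unfold rad
  rw [abs_le]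
  by_cases he : e < I.q
  · rw [if_pos he] at h1 h2
    have := H.cap_lt e he
    generalize 2 ^ s = N at *
    omega
  · rw [if_neg he] at h1 h2
    generalize 2 ^ s = N at *
    omega

lemma bridge_vec_mem_Om (H : I.Sz s) {M : ℕ} (hM : M ≤ pM0 s) {S : List ℤ}
    (h : S.length = I.ne) :
    I.vec S ∈ Om I.gr (rad s) (I.lo M) (I.hi M) I.dd ↔ I.valid M S = true := by
  rw [bridge_valid_iff, Om, mem_filter, mem_box]
  constructor
  · rintro ⟨-, h1, i, j, h2⟩
    refine ⟨h, fun e he => h1 ⟨e, he⟩, i, i.2, j, j.2, (H.isCls_iff S i j).2 ?_⟩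
    rw [← h2, add_sub_cancel]
  · rintro ⟨-, h1, i, hi, j, hj, h2⟩
    refine ⟨fun e => bridge_abs_le H hM (h1 e e.2).1 (h1 e e.2).2, fun e => h1 e e.2,
      ⟨i, hi⟩, ⟨j, hj⟩, ?_⟩
    rw [(H.isCls_iff S ⟨i, hi⟩ ⟨j, hj⟩).1 h2, add_sub_cancel_left]

lemma Sz.mem_OmL (H : I.Sz s) {M : ℕ} (hM : M ≤ pM0 s) (S : List ℤ) :
    S ∈ I.OmL s M ↔ I.valid M S = true := by
  unfold OmL
  rw [mem_image]
  constructor
  · rintro ⟨z, hz, rfl⟩
    rw [← bridge_vec_mem_Om H hM (by simp), vec_ofFn]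
    exact hz
  · intro h
    have h1 := ((bridge_valid_iff M S).1 h).1
    exact ⟨I.vec S, (bridge_vec_mem_Om H hM h1).2 h, ofFn_vec h1⟩

lemma Sz.vec_mem_Om (H : I.Sz s) {M : ℕ} (hM : M ≤ pM0 s) {S : List ℤ} (h : S.length = I.ne) :
    I.vec S ∈ Om I.gr (rad s) (I.lo M) (I.hi M) I.dd ↔ I.valid M S = true := by
  exact bridge_vec_mem_Om H hM h

lemma sum_OmL (M : ℕ) (F : List ℤ → ℝ) :
    ∑ S ∈ I.OmL s M, F S = ∑ z ∈ Om I.gr (rad s) (I.lo M) (I.hi M) I.dd, F (List.ofFn z) := by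
  unfold OmL
  rw [sum_image fun x _ y _ h => List.ofFn_injective h]

/-- A sum of a nonnegative function over the state space is bounded class by class. -/
lemma Sz.sum_OmL_le (H : I.Sz s) {M : ℕ} (hM : M ≤ pM0 s) {F : List ℤ → ℝ} (hF : ∀ S, 0 ≤ F S) :
    ∑ S ∈ I.OmL s M, F S ≤ ∑ S ∈ (I.OmL s M).filter (fun S => I.isCls S 0 0 = true), F S +
      ∑ i ∈ range I.nv, ∑ j ∈ range I.nv, if i ≠ j then
        ∑ S ∈ (I.OmL s M).filter (fun S => I.isCls S i j = true), F S else 0 := by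
  have h1 : ∑ i ∈ range I.nv, ∑ j ∈ range I.nv, (if i ≠ j then
      ∑ S ∈ (I.OmL s M).filter (fun S => I.isCls S i j = true), F S else 0) =
      ∑ S ∈ I.OmL s M, ∑ i ∈ range I.nv, ∑ j ∈ range I.nv,
        if i ≠ j ∧ I.isCls S i j = true then F S else 0 := by
    rw [sum_comm (s := I.OmL s M)]
    refine sum_congr rfl fun i _ => ?_
    rw [sum_comm (s := I.OmL s M)]
    refine sum_congr rfl fun j _ => ?_
    by_cases hij : i ≠ j
    · rw [if_pos hij, sum_filter]
      simp only [hij, ne_eq, not_false_eq_true, true_and]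
    · rw [if_neg hij]
      simp only [hij, false_and, if_false, sum_const_zero]
  rw [h1, sum_filter, ← sum_add_distrib]
  refine sum_le_sum fun S hS => ?_
  obtain ⟨-, -, i, hi, j, hj, h⟩ := (bridge_valid_iff M S).1 ((H.mem_OmL hM S).1 hS)
  have h0 : ∀ i j : ℕ, 0 ≤ if i ≠ j ∧ I.isCls S i j = true then F S else 0 := fun i j => by
    split_ifs
    exacts [hF S, le_rfl]
  by_cases hij : i = j
  · subst hij
    rw [isCls_self] at h
    rw [if_pos h]
    exact le_add_of_nonneg_right (sum_nonneg fun i _ => sum_nonneg fun j _ => h0 i j)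
  · have h2 : 0 ≤ if I.isCls S 0 0 = true then F S else 0 := by
      split_ifs
      exacts [hF S, le_rfl]
    refine le_add_of_nonneg_of_le h2 ?_
    refine le_trans ?_ (single_le_sum (fun i _ => sum_nonneg fun j _ => h0 i j) (mem_range.2 hi))
    refine le_trans ?_ (single_le_sum (fun j _ => h0 i j) (mem_range.2 hj))
    rw [if_pos ⟨hij, h⟩]

lemma bridge_lam_pos (s M : ℕ) : 0 < lam s M := by
  unfold lam
  positivity

lemma bridge_lam_le_one (s M : ℕ) : lam s M ≤ 1 := by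
  unfold lam
  exact Real.rpow_le_one_of_one_le_of_nonpos (by norm_num) (neg_nonpos.2 (by positivity))

lemma adm_aw (hs : I.Sz s) {M : ℕ} (hM : M ≤ pM0 s) : Adm (rad s) (I.aw s M) := by
  have h0 : ∀ e x, 0 ≤ I.aw s M e x := fun e x => by
    unfold aw
    have := bridge_lam_pos s M
    split_ifs <;> positivity
  refine ⟨fun e => ⟨h0 e, fun x u v y h1 h2 h3 => ?_⟩, fun e x hx => ?_⟩
  · by_cases hx : I.lo M e ≤ x ∧ x ≤ I.hi M e
    · by_cases hy : I.lo M e ≤ y ∧ y ≤ I.hi M e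
      · have hu : I.lo M e ≤ u ∧ u ≤ I.hi M e := by omega
        have hv : I.lo M e ≤ v ∧ v ≤ I.hi M e := by omega
        unfold aw
        rw [if_pos hx, if_pos hy, if_pos hu, if_pos hv]
        split_ifs
        · exact le_rfl
        · rw [← pow_add, ← pow_add]
          exact pow_le_pow_of_le_one (bridge_lam_pos s M).le (bridge_lam_le_one s M) (by omega)
      · have : I.aw s M e y = 0 := by unfold aw; rw [if_neg hy]
        rw [this, mul_zero]
        exact mul_nonneg (h0 _ _) (h0 _ _)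
    · have : I.aw s M e x = 0 := by unfold aw; rw [if_neg hx]
      rw [this, zero_mul]
      exact mul_nonneg (h0 _ _) (h0 _ _)
  · by_cases h : I.lo M e ≤ x ∧ x ≤ I.hi M e
    · exact bridge_abs_le hs hM h.1 h.2
    · exact absurd (by unfold aw; rw [if_neg h]) hx

/-- On valid states the product weight is `lam ^ hub = 2 ^ (-J hub / M)`. -/
lemma wt_aw {M : ℕ} {S : List ℤ} (h : I.valid M S = true) :
    wt (I.aw s M) (I.vec S) = lam s M ^ I.hub S := by
  obtain ⟨-, h1, -⟩ := (bridge_valid_iff M S).1 h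
  have h2 : wt (I.aw s M) (I.vec S) =
      ∏ e ∈ range I.ne, if e < I.q then 1 else lam s M ^ (S.getD e 0).natAbs := by
    rw [← Fin.prod_univ_eq_prod_range
      (fun e => if e < I.q then (1 : ℝ) else lam s M ^ (S.getD e 0).natAbs)]
    refine prod_congr rfl fun e _ => ?_
    exact if_pos (h1 e e.2)
  rw [h2, ne, prod_range_add, prod_eq_one fun e he => if_pos (mem_range.1 he), one_mul, hub,
    ← prod_pow_eq_pow_sum]
  exact prod_congr rfl fun v _ => if_neg (by omega)

lemma wt_le_atw {M : ℕ} (hM : 0 < M) {S : List ℤ} (h : I.valid M S = true) :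
    wt (I.aw s M) (I.vec S) ≤ I.atw s M S ∧ I.atw s M S ≤ 2 * wt (I.aw s M) (I.vec S) := by
  rw [wt_aw h]
  have hM' : (0 : ℝ) < M := by exact_mod_cast hM
  have e1 : lam s M ^ I.hub S = (2 : ℝ) ^ (-(((pJ s * I.hub S : ℕ) : ℝ) / M)) := by
    unfold lam
    rw [← Real.rpow_natCast, ← Real.rpow_mul (by norm_num)]
    congr 1
    push_cast
    ring
  have e2 : I.atw s M S = (2 : ℝ) ^ (-(I.hh s M S : ℝ)) := by
    unfold atw
    rw [Real.rpow_neg (by norm_num), Real.rpow_natCast, one_div]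
  have e3 : (I.hh s M S : ℝ) ≤ ((pJ s * I.hub S : ℕ) : ℝ) / M := Nat.cast_div_le
  have e4 : ((pJ s * I.hub S : ℕ) : ℝ) / M ≤ I.hh s M S + 1 := by
    rw [div_le_iff₀ hM']
    have : pJ s * I.hub S ≤ (I.hh s M S + 1) * M := by
      unfold hh
      exact (Nat.lt_mul_of_div_lt (Nat.lt_succ_self _) hM).le
    exact_mod_cast this
  rw [e1, e2]
  constructor
  · exact Real.rpow_le_rpow_of_exponent_le (by norm_num) (by linarith)
  · calc (2 : ℝ) ^ (-(I.hh s M S : ℝ)) ≤ 2 ^ (1 + -(((pJ s * I.hub S : ℕ) : ℝ) / M)) :=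
          Real.rpow_le_rpow_of_exponent_le (by norm_num) (by linarith)
      _ = _ := by rw [Real.rpow_add (by norm_num), Real.rpow_one]

lemma Sz.Zc_le_Zt (H : I.Sz s) {M : ℕ} (hM0 : 0 < M) (hM : M ≤ pM0 s) (i j : Fin I.nv) :
    Zc I.gr (rad s) (I.aw s M) (I.dd + rt i j) ≤ I.Zt s M i j ∧
      I.Zt s M i j ≤ 2 * Zc I.gr (rad s) (I.aw s M) (I.dd + rt i j) := by
  have hadm := adm_aw H hM
  have e1 : I.Zt s M i j = ∑ z ∈ (Om I.gr (rad s) (I.lo M) (I.hi M) I.dd).filter
      (fun z => I.gr.div z = I.dd + rt i j), I.atw s M (List.ofFn z) := by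
    unfold Zt
    rw [sum_filter, sum_OmL, sum_filter]
    refine sum_congr rfl fun z _ => ?_
    simp only [H.isCls_iff, vec_ofFn]
  have e2 : Zc I.gr (rad s) (I.aw s M) (I.dd + rt i j) =
      ∑ z ∈ (Om I.gr (rad s) (I.lo M) (I.hi M) I.dd).filter
        (fun z => I.gr.div z = I.dd + rt i j), wt (I.aw s M) z := by
    unfold Zc
    symm
    refine sum_subset (fun z hz => ?_) fun z hz hz' => ?_
    · rw [mem_filter, Om, mem_filter] at hz
      exact mem_cls.2 ⟨hz.1.1, hz.2⟩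
    · rw [mem_cls] at hz
      by_contra hw
      apply hz'
      rw [mem_filter, Om, mem_filter]
      refine ⟨⟨hz.1, fun e => ?_, i, j, by rw [hz.2, add_sub_cancel_left]⟩, hz.2⟩
      by_contra he
      exact wt_ne_zero.1 hw e (by unfold aw; rw [if_neg he])
  have e3 : ∀ z ∈ (Om I.gr (rad s) (I.lo M) (I.hi M) I.dd).filter
      (fun z => I.gr.div z = I.dd + rt i j), wt (I.aw s M) z ≤ I.atw s M (List.ofFn z) ∧
        I.atw s M (List.ofFn z) ≤ 2 * wt (I.aw s M) z := fun z hz => by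
    have h1 : I.valid M (List.ofFn z) = true := by
      rw [← H.vec_mem_Om hM (by simp), vec_ofFn]
      exact (mem_filter.1 hz).1
    have := wt_le_atw (s := s) hM0 h1
    rwa [vec_ofFn] at this
  rw [e1, e2, mul_sum]
  exact ⟨sum_le_sum fun z hz => (e3 z hz).1, sum_le_sum fun z hz => (e3 z hz).2⟩

lemma hub_le {M : ℕ} {S : List ℤ} (h : I.valid M S = true) : I.hub S ≤ I.p * M := by
  obtain ⟨-, h1, -⟩ := (bridge_valid_iff M S).1 h
  unfold hub
  refine (sum_le_card_nsmul _ _ M fun v hv => ?_).trans (by simp)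
  have h2 := h1 (I.q + v) (by unfold ne; have := mem_range.1 hv; omega)
  unfold LO HI at h2
  rw [if_neg (by omega), if_neg (by omega)] at h2
  omega

lemma hh_le {M : ℕ} {S : List ℤ} (h : I.valid M S = true) : I.hh s M S ≤ pJ s * I.p := by
  unfold hh
  refine Nat.div_le_of_le_mul ?_
  calc pJ s * I.hub S ≤ pJ s * (I.p * M) := Nat.mul_le_mul_left _ (hub_le h)
    _ = M * (pJ s * I.p) := by ring

/-- The proposal in terms of vectors. -/
lemma prop_ofFn (C : List (List ℤ)) (z : Fin I.ne → ℤ) (sg : Bool) (e : Fin I.ne) {j : ℕ}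
    (hj : j ≤ pW s) :
    I.prop s C (List.ofFn z) sg e j =
      List.ofFn (z + (if sg then (1 : ℤ) else -1) • mv (I.mat C) e j) := by
  unfold prop
  apply List.ext_getElem
  · simp
  · intro t h1 h2
    have ht : t < I.ne := by simpa using h1
    rw [List.getElem_map, List.getElem_range, List.getElem_ofFn]
    have h3 : (List.ofFn z).getD t 0 = z ⟨t, ht⟩ := congrFun (vec_ofFn z) ⟨t, ht⟩
    rw [h3, Pi.add_apply, Pi.smul_apply, smul_eq_mul]
    congr 2
    show mvL s C e j t = mv (I.mat C) e j ⟨t, ht⟩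
    clear h1 h2
    unfold mvL mv
    by_cases h0 : j = 0
    · rw [if_pos h0, if_pos h0, Pi.single_apply]
      simp only [Fin.ext_iff]
    · rw [if_neg h0, if_neg h0, min_eq_left (by omega), Pi.smul_apply, smul_eq_mul]
      rfl

end Inst

end Crest.Agent.R309
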