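import Crest.Agent.R309.Defs

/-! Row 309: Kruskal's algorithm on an abstract graph. -/

set_option autoImplicit false

namespace Crest.Agent.R309

open Finset

variable {V E : Type} [Fintype V] [DecidableEq V] [Fintype E] [DecidableEq E]

/-- one step of Kruskal's algorithm -/
def kruskalStep (G : Gr V E) (s : (V → V) × (V → E → ℤ)) (e : E) : (V → V) × (V → E → ℤ) :=
  if s.1 (G.tl e) = s.1 (G.hd e) then s else
    (fun x => if s.1 x = s.1 (G.tl e) then s.1 (G.hd e) else s.1 x,
      fun x => s.2 x + if s.1 x = s.1 (G.tl e) then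
        Pi.single e 1 - s.2 (G.tl e) + s.2 (G.hd e) else 0)

/-- the invariant after processing the edges of `L` -/
structure KruskalInv (G : Gr V E) (pr : E → ℤ) (L : Set E) (s : (V → V) × (V → E → ℤ)) : Prop where
  div : ∀ x, G.div (s.2 x) = rt x (s.1 x)
  supp : ∀ x t, s.2 x t ≠ 0 → t ∈ L
  same : ∀ f ∈ L, s.1 (G.tl f) = s.1 (G.hd f)
  deep : ∀ f ∈ L, ∀ t, (Pi.single f 1 - s.2 (G.tl f) + s.2 (G.hd f) : E → ℤ) t ≠ 0 → pr f ≤ pr t
  bdd : ∀ x y t, s.1 x = s.1 y → |s.2 x t - s.2 y t| + 1 ≤ #{z | s.1 z = s.1 x}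

theorem kruskalInv_init (G : Gr V E) (pr : E → ℤ) : KruskalInv G pr ∅ (id, 0) where
  div x := by simp [G.div_zero, rt_self]
  supp x t h := by simp at h
  same f hf := hf.elim
  deep f hf := hf.elim
  bdd x y t _ := by
    have : 0 < #{z : V | z = x} := card_pos.2 ⟨x, by simp⟩
    simp only [Pi.zero_apply, sub_zero, abs_zero, zero_add, id]
    exact_mod_cast this

omit [Fintype V] [DecidableEq V] [Fintype E] in
theorem kruskal_deep_new {G : Gr V E} {pr : E → ℤ} {L : Set E} {P : V → E → ℤ} {e : E}
    (he : ∀ t ∈ L, pr e ≤ pr t) (hs : ∀ x t, P x t ≠ 0 → t ∈ insert e L) (t : E)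
    (ht : (Pi.single e 1 - P (G.tl e) + P (G.hd e) : E → ℤ) t ≠ 0) : pr e ≤ pr t := by
  have : t ∈ insert e L := by
    by_contra h
    have h1 : P (G.tl e) t = 0 := by_contra fun h' => h (hs _ _ h')
    have h2 : P (G.hd e) t = 0 := by_contra fun h' => h (hs _ _ h')
    have h3 : t ≠ e := fun h' => h (Or.inl h')
    simp [h1, h2, h3] at ht
  rcases this with rfl | h
  · exact le_rfl
  · exact he t h

theorem KruskalInv.step {G : Gr V E} {pr : E → ℤ} {L : Set E} {s : (V → V) × (V → E → ℤ)}
    (h : KruskalInv G pr L s) {e : E} (he : ∀ t ∈ L, pr e ≤ pr t) :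
    KruskalInv G pr (insert e L) (kruskalStep G s e) := by
  obtain ⟨c, P⟩ := s
  obtain ⟨h1, h2, h3, h4, h5⟩ := h
  dsimp only at h1 h2 h3 h4 h5
  unfold kruskalStep
  dsimp only
  split_ifs with hc
  · have hs : ∀ x t, P x t ≠ 0 → t ∈ insert e L := fun x t ht => Or.inr (h2 x t ht)
    refine ⟨h1, hs, ?_, ?_, h5⟩
    · rintro f (rfl | hf)
      · exact hc
      · exact h3 f hf
    · rintro f (rfl | hf)
      · exact kruskal_deep_new he hs
      · exact h4 f hf
  · have hs : ∀ x t, (P x + if c x = c (G.tl e) then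
        Pi.single e 1 - P (G.tl e) + P (G.hd e) else 0 : E → ℤ) t ≠ 0 → t ∈ insert e L := by
      intro x t ht
      by_contra h
      have h0 : ∀ y, P y t = 0 := fun y => by_contra fun h' => h (Or.inr (h2 _ _ h'))
      have h3 : t ≠ e := fun h' => h (Or.inl h')
      apply ht
      split_ifs <;> simp [h0, h3]
    refine ⟨fun x => ?_, hs, ?_, ?_, ?_⟩
    · dsimp only
      split_ifs with hx
      · rw [G.div_add, G.div_add, G.div_sub, G.div_single, h1, h1, h1, hx]
        funext v
        simp only [rt, Pi.add_apply, Pi.sub_apply, one_smul]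
        ring
      · rw [add_zero, h1]
    · rintro f (rfl | hf)
      · simp [Ne.symm hc]
      · simp only [h3 f hf]
    · rintro f (rfl | hf)
      · exact kruskal_deep_new (P := fun x => P x + if c x = c (G.tl f) then
          Pi.single f 1 - P (G.tl f) + P (G.hd f) else 0) he hs
      · intro t ht
        refine h4 f hf t ?_
        simp only [h3 f hf] at ht
        have e1 : ∀ a b c d : E → ℤ, a - (b + d) + (c + d) = a - b + c := fun a b c d => by abel
        rwa [e1] at ht
    · intro x y t hxy
      dsimp only at hxy ⊢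
      have mono : ∀ x, #{z | c z = c x} ≤ #{z | (if c z = c (G.tl e) then c (G.hd e) else c z) =
          if c x = c (G.tl e) then c (G.hd e) else c x} := fun x =>
        card_le_card fun z hz => by
          simp only [mem_filter, mem_univ, true_and] at hz ⊢
          rw [hz]
      have merge : #{z | c z = c (G.tl e)} + #{z | c z = c (G.hd e)} ≤
          #{z | (if c z = c (G.tl e) then c (G.hd e) else c z) = c (G.hd e)} := by
        rw [← card_union_of_disjoint]
        · refine card_le_card fun z hz => ?_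
          simp only [mem_union, mem_filter, mem_univ, true_and] at hz ⊢
          split_ifs with h
          · rfl
          · exact hz.resolve_left h
        · rw [disjoint_filter]
          intro z _ hz hz'
          exact hc (hz.symm.trans hz')
      have one : |(Pi.single e 1 : E → ℤ) t| ≤ 1 := by
        rw [Pi.single_apply]; split_ifs <;> simp
      have cross : ∀ x y, c x = c (G.tl e) → c y = c (G.hd e) →
          |P x t + ((Pi.single e 1 : E → ℤ) t - P (G.tl e) t + P (G.hd e) t) - P y t| + 1 ≤
            #{z | (if c z = c (G.tl e) then c (G.hd e) else c z) = c (G.hd e)} := by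
        intro x y hx hy
        have a1 := h5 (G.tl e) x t hx.symm
        have a2 := h5 (G.hd e) y t hy.symm
        have a3 : ((#{z | c z = c (G.tl e)} : ℕ) : ℤ) + (#{z | c z = c (G.hd e)} : ℕ) ≤
            (#{z | (if c z = c (G.tl e) then c (G.hd e) else c z) = c (G.hd e)} : ℕ) := by
          exact_mod_cast merge
        have b1 := abs_le.1 (le_refl |P (G.tl e) t - P x t|)
        have b2 := abs_le.1 (le_refl |P (G.hd e) t - P y t|)
        have b3 := abs_le.1 one
        have : |P x t + ((Pi.single e 1 : E → ℤ) t - P (G.tl e) t + P (G.hd e) t) - P y t| ≤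
            |P (G.tl e) t - P x t| + |P (G.hd e) t - P y t| + 1 := by
          rw [abs_le]; constructor <;> linarith [b1.1, b1.2, b2.1, b2.2, b3.1, b3.2]
        linarith
      by_cases hx : c x = c (G.tl e) <;> by_cases hy : c y = c (G.tl e)
      · have a := h5 x y t (hx.trans hy.symm)
        have b : ((#{z | c z = c x} : ℕ) : ℤ) ≤ _ := Int.ofNat_le.2 (mono x)
        refine le_trans (le_of_eq ?_) (a.trans b)
        simp only [if_pos hx, if_pos hy, Pi.add_apply]
        congr 2
        ring
      · rw [if_pos hx, if_neg hy] at hxy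
        have := cross x y hx hxy.symm
        simpa only [if_pos hx, if_neg hy, Pi.add_apply, Pi.sub_apply, Pi.zero_apply, add_zero]
          using this
      · rw [if_neg hx, if_pos hy] at hxy
        have := cross y x hy hxy
        rw [abs_sub_comm] at this
        simpa only [if_neg hx, if_pos hy, Pi.add_apply, Pi.sub_apply, Pi.zero_apply, add_zero, hxy,
          if_neg (Ne.symm hc)] using this
      · rw [if_neg hx, if_neg hy] at hxy
        have a := h5 x y t hxy
        have b : ((#{z | c z = c x} : ℕ) : ℤ) ≤ _ := Int.ofNat_le.2 (mono x)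
        refine le_trans (le_of_eq ?_) (a.trans b)
        simp only [if_neg hx, if_neg hy, add_zero]

theorem KruskalInv.cyc {G : Gr V E} {pr : E → ℤ} {L : Set E} {s : (V → V) × (V → E → ℤ)}
    (h : KruskalInv G pr L s) (hL : ∀ e, e ∈ L) :
    Cyc G pr ∅ (fun f => Pi.single f 1 - s.2 (G.tl f) + s.2 (G.hd f)) (Fintype.card V) where
  circ f := by
    rw [G.div_add, G.div_sub, G.div_single, h.div, h.div, h.same f (hL f)]
    funext v
    simp only [rt, Pi.add_apply, Pi.sub_apply, one_smul, Pi.zero_apply]
    ring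
  bdd f t := by
    have a := h.bdd (G.tl f) (G.hd f) t (h.same f (hL f))
    have b : ((#{z | s.1 z = s.1 (G.tl f)} : ℕ) : ℤ) ≤ Fintype.card V :=
      Int.ofNat_le.2 (card_le_univ _)
    have one : |(Pi.single f 1 : E → ℤ) t| ≤ 1 := by
      rw [Pi.single_apply]; split_ifs <;> simp
    have b1 := abs_le.1 (le_refl |s.2 (G.tl f) t - s.2 (G.hd f) t|)
    have b3 := abs_le.1 one
    simp only [Pi.add_apply, Pi.sub_apply]
    rw [abs_le]
    constructor <;> linarith [b1.1, b1.2, b3.1, b3.2]
  tree t ht := absurd ht (notMem_empty t)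
  span z hz := by
    funext t
    have h1 : ∑ v, G.div z v * s.2 v t = 0 := by simp [hz]
    have h2 : ∑ v, G.div z v * s.2 v t = ∑ f, z f * (s.2 (G.tl f) t - s.2 (G.hd f) t) := by
      simp only [Gr.div, sum_mul]
      rw [sum_comm]
      refine sum_congr rfl fun f _ => ?_
      simp only [Gr.inc, rt, sub_mul, ite_mul, one_mul, zero_mul, sum_sub_distrib, sum_ite_eq,
        mem_univ, if_true]
      ring
    have h3 : ∑ f, z f * (Pi.single f 1 : E → ℤ) t = z t := by
      simp [Pi.single_apply]
    simp only [Finset.sum_apply, Pi.smul_apply, Pi.add_apply, Pi.sub_apply, smul_eq_mul]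
    rw [← h3, ← sub_zero (∑ f, z f * (Pi.single f 1 : E → ℤ) t), ← h1, h2, ← sum_sub_distrib]
    exact sum_congr rfl fun f _ => by ring
  deep f t ht := h.deep f (hL f) t ht

end Crest.Agent.R309
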