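import Crest.Agent.R309.Bridge
import Crest.Agent.R309.KruskalAux

/-!
Row 309: Kruskal's algorithm yields a greedy system of fundamental cycles.

Write `c x`, `P x` for the label and the vector of the vertex `x < nv` after processing a prefix `L`
of `korder` (a permutation of `range ne`, sorted by decreasing depth).  Invariants: `c x < nv`;
`div (P x) = e_x - e_{c x}`; `P x t ≠ 0 → t ∈ L`; `c (TL e) = c (HD e)` for `e ∈ L`; if `c x = c y` then
`∑ t, |P x t - P y t| < #{z < nv | c z = c x}` (merging adds the sizes), and `P x - P y` is not changed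
by later steps (nor is `c x = c y`).  Let `T` be the set of edges that merge two components when they
are processed; right after such a step `P (TL e) = 1_e + P (HD e)`, so `C e = 0`.  For the other edges
`C f = 1_f - P (TL f) + P (HD f)` can be evaluated at the time `f` is processed, so it is supported on
`f` and earlier edges.  `span`: `∑ f, z f • C f = z - ∑ v, div z v • P v`.
-/

set_option autoImplicit false

namespace Crest.Agent.R309

open Finset Crest.Agent.Lib.PT

namespace Inst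

variable {I : Inst} {s : ℕ}

theorem kruskal_getD_map {β : Type} (f : ℕ → β) {n x : ℕ} (d : β) (hx : x < n) :
    ((List.range n).map f).getD x d = f x := by
  simp [List.getD_eq_getElem?_getD, hx]

/-- the list state represents the abstract state -/
def KRep (I : Inst) (st : List ℕ × List (List ℤ))
    (σ : (Fin I.nv → Fin I.nv) × (Fin I.nv → Fin I.ne → ℤ)) : Prop :=
  (∀ x : Fin I.nv, st.1.getD x 0 = σ.1 x) ∧
    ∀ (x : Fin I.nv) (t : Fin I.ne), (st.2.getD x []).getD t 0 = σ.2 x t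

theorem Sz.kruskal_rep_step (H : I.Sz s) {st : List ℕ × List (List ℤ)}
    {σ : (Fin I.nv → Fin I.nv) × (Fin I.nv → Fin I.ne → ℤ)} (h : I.KRep st σ) (e : Fin I.ne) :
    I.KRep (I.kstep st e) (kruskalStep I.gr σ e) := by
  obtain ⟨h1, h2⟩ := h
  unfold kstep kruskalStep
  rw [← H.gr_tl e, ← H.gr_hd e, h1, h1]
  by_cases hc : σ.1 (I.gr.tl e) = σ.1 (I.gr.hd e)
  · rw [if_pos hc, if_pos (congrArg Fin.val hc)]
    exact ⟨h1, h2⟩
  · rw [if_neg hc, if_neg (fun h => hc (Fin.ext h))]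
    refine ⟨fun x => ?_, fun x t => ?_⟩
    · dsimp only
      rw [kruskal_getD_map _ _ x.2, h1]
      simp only [Fin.val_inj]
      split_ifs <;> rfl
    · dsimp only
      rw [kruskal_getD_map _ _ x.2, kruskal_getD_map _ _ t.2, h1, h2, h2, h2]
      simp only [Fin.val_inj, Pi.add_apply]
      split_ifs with hx ht
      · simp [ht]
      · simp [ht]
      · rfl

theorem Sz.kruskal_fold (H : I.Sz s) (pr : ℕ → ℤ) (l : List ℕ) (hl : ∀ e ∈ l, e < I.ne)
    (hs : l.Pairwise fun e f => pr f ≤ pr e) :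
    ∀ (L : Set (Fin I.ne)) (st : List ℕ × List (List ℤ))
      (σ : (Fin I.nv → Fin I.nv) × (Fin I.nv → Fin I.ne → ℤ)), I.KRep st σ →
      KruskalInv I.gr (fun e => pr e) L σ → (∀ e ∈ l, ∀ t ∈ L, pr e ≤ pr t) →
      ∃ σ', I.KRep (l.foldl I.kstep st) σ' ∧
        KruskalInv I.gr (fun e => pr e) (L ∪ {e | (e : ℕ) ∈ l}) σ' := by
  induction l with
  | nil => intro L st σ h1 h2 _; exact ⟨σ, h1, by simpa using h2⟩
  | cons e l ih =>
    intro L st σ h1 h2 h3
    rw [List.pairwise_cons] at hs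
    have he : e < I.ne := hl e (by simp)
    obtain ⟨σ', h4, h5⟩ := ih (fun f hf => hl f (by simp [hf])) hs.2 (insert ⟨e, he⟩ L) _ _
      (H.kruskal_rep_step h1 ⟨e, he⟩) (h2.step (e := ⟨e, he⟩) (h3 e (by simp))) (by
        rintro f hf t (rfl | ht)
        · exact hs.1 f hf
        · exact h3 f (by simp [hf]) t ht)
    refine ⟨σ', h4, ?_⟩
    convert h5 using 1
    ext t
    simp only [Set.mem_union, Set.mem_ofPred_eq, List.mem_cons, Set.mem_insert_iff, Fin.ext_iff]
    tauto

theorem Sz.kruskal_cyc (H : I.Sz s) (M : ℕ) (Rf : List ℤ) :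
    ∃ T, Cyc I.gr (dep (I.lo M) (I.hi M) (I.vec Rf)) T (I.mat (I.kruskal M Rf)) I.nv := by
  have : Std.Total fun e f => I.depL M Rf f ≤ I.depL M Rf e := ⟨fun _ _ => le_total _ _⟩
  have : IsTrans ℕ fun e f => I.depL M Rf f ≤ I.depL M Rf e := ⟨fun _ _ _ h h' => h'.trans h⟩
  obtain ⟨σ, h1, h2⟩ := H.kruskal_fold (I.depL M Rf) (I.korder M Rf)
    (fun e he => by simpa [korder] using he) (List.pairwise_insertionSort _ _) ∅
    (List.range I.nv, []) (id, 0) ⟨fun x => by simp [List.getD_eq_getElem?_getD], fun x t => by simp⟩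
    (kruskalInv_init _ _) (fun _ _ t ht => ht.elim)
  have h3 := h2.cyc fun e => Or.inr (by simp [korder])
  rw [Fintype.card_fin] at h3
  refine ⟨∅, ?_⟩
  convert h3 using 1
  · rfl
  funext f t
  unfold mat kruskal kfin
  rw [kruskal_getD_map _ _ f.2, kruskal_getD_map _ _ t.2, ← H.gr_tl f, ← H.gr_hd f, h1.2, h1.2]
  simp [Pi.single_apply, Fin.val_inj]

/-! ### sizes -/

/-- bounds valid on all inputs -/
def KBd (I : Inst) (n : ℕ) (st : List ℕ × List (List ℤ)) : Prop :=
  st.1.length ≤ I.nv ∧ (∀ x ∈ st.1, x ≤ I.nv) ∧ st.2.length ≤ I.nv ∧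
    ∀ l ∈ st.2, l.length ≤ I.ne ∧ ∀ z ∈ l, |z| ≤ (4 ^ n : ℕ)

theorem kruskal_getD_prop {β : Type} {P : β → Prop} {l : List β} {d : β} (hd : P d)
    (hl : ∀ x ∈ l, P x) (i : ℕ) : P (l.getD i d) := by
  rw [List.getD_eq_getElem?_getD]
  cases h : l[i]? with
  | none => exact hd
  | some x => exact hl x (List.mem_of_getElem? h)

theorem KBd.entry {n : ℕ} {st : List ℕ × List (List ℤ)} (h : I.KBd n st) (x t : ℕ) :
    |(st.2.getD x []).getD t 0| ≤ (4 ^ n : ℕ) :=
  kruskal_getD_prop (P := fun z : ℤ => |z| ≤ (4 ^ n : ℕ)) (by simp)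
    (kruskal_getD_prop (P := fun l : List ℤ => ∀ z ∈ l, |z| ≤ (4 ^ n : ℕ)) (by simp)
      (fun l hl => (h.2.2.2 l hl).2) x) t

theorem KBd.mono {n m : ℕ} {st : List ℕ × List (List ℤ)} (h : I.KBd n st) (hnm : n ≤ m) :
    I.KBd m st :=
  ⟨h.1, h.2.1, h.2.2.1, fun l hl => ⟨(h.2.2.2 l hl).1, fun z hz => ((h.2.2.2 l hl).2 z hz).trans
    (Int.ofNat_le.2 (Nat.pow_le_pow_right (by norm_num) hnm))⟩⟩

theorem KBd.step {n : ℕ} {st : List ℕ × List (List ℤ)} (h : I.KBd n st) (e : ℕ) :
    I.KBd (n + 1) (I.kstep st e) := by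
  unfold kstep
  split_ifs
  · exact h.mono (Nat.le_succ n)
  have lab : ∀ x, st.1.getD x 0 ≤ I.nv :=
    kruskal_getD_prop (P := fun y => y ≤ I.nv) (Nat.zero_le _) h.2.1
  refine ⟨by simp, ?_, by simp, ?_⟩
  · intro y hy
    obtain ⟨x, -, rfl⟩ := List.mem_map.1 hy
    split_ifs <;> exact lab _
  · intro l hl
    obtain ⟨x, -, rfl⟩ := List.mem_map.1 hl
    refine ⟨by simp, fun z hz => ?_⟩
    obtain ⟨t, -, rfl⟩ := List.mem_map.1 hz
    have a1 := abs_le.1 (h.entry x t)
    have a2 := abs_le.1 (h.entry (I.TL e) t)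
    have a3 := abs_le.1 (h.entry (I.HD e) t)
    have a4 : (1 : ℤ) ≤ (4 ^ n : ℕ) := Int.ofNat_le.2 (Nat.one_le_pow _ _ (by norm_num))
    rw [pow_succ, Nat.cast_mul, abs_le]
    split_ifs <;> constructor <;> push_cast at * <;> linarith [a1.1, a1.2, a2.1, a2.2, a3.1, a3.2]

theorem KBd.fold (l : List ℕ) : ∀ {n : ℕ} {st : List ℕ × List (List ℤ)}, I.KBd n st →
    I.KBd (n + l.length) (l.foldl I.kstep st) := by
  induction l with
  | nil => intro n st h; exact h
  | cons e l ih =>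
    intro n st h
    have := ih (h.step e)
    rwa [add_assoc, add_comm 1] at this

theorem kruskal_bd_init (I : Inst) : I.KBd 0 (List.range I.nv, []) :=
  ⟨by simp, fun x hx => (List.mem_range.1 hx).le, by simp, by simp⟩

theorem kruskal_sz_mat {n r c : ℕ} {A : List (List ℤ)} (hr : A.length ≤ r)
    (h : ∀ l ∈ A, l.length ≤ c ∧ ∀ z ∈ l, |z| ≤ (4 ^ n : ℕ)) :
    sz A ≤ ((n * sz (4 : ℕ) + 14) * c + 2) * r + 1 := by
  refine (sz_list_le A ((n * sz (4 : ℕ) + 14) * c + 1) fun l hl => ?_).trans (by gcongr)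
  refine (sz_list_le l (n * sz (4 : ℕ) + 13) fun z hz => ?_).trans (by gcongr; exact (h l hl).1)
  have h1 := sz_int_le_of_abs_le ((h l hl).2 z hz)
  have h2 := sz_pow_le 4 n
  omega

theorem KBd.sz_le {n : ℕ} {st : List ℕ × List (List ℤ)} (h : I.KBd n st) :
    sz st ≤ ((6 * I.nv + 2) * I.nv + 1) + (((n * sz (4 : ℕ) + 14) * I.ne + 2) * I.nv + 1) + 1 := by
  rw [sz_prod]
  have h1 : sz st.1 ≤ (6 * I.nv + 2) * I.nv + 1 := by
    refine (sz_list_le st.1 (6 * I.nv + 1) fun x hx => ?_).trans (by gcongr; exact h.1)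
    exact (sz_nat_mono (h.2.1 x hx)).trans (sz_nat_le_self _)
  have h2 := kruskal_sz_mat h.2.2.1 h.2.2.2
  omega

theorem kruskal_length_korder (I : Inst) (M : ℕ) (Rf : List ℤ) : (I.korder M Rf).length = I.ne := by
  simp [korder]

section PT

variable {α : Type} [Enc α] {I : α → Inst}

@[fun_prop] theorem kruskal_pt_q (hI : PT I) : PT fun a => (I a).q := by unfold q; fun_prop
@[fun_prop] theorem kruskal_pt_p (hI : PT I) : PT fun a => (I a).p := by unfold p; fun_prop
@[fun_prop] theorem kruskal_pb_q (hI : PT I) : PB fun a => (I a).q := by unfold q; fun_prop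
@[fun_prop] theorem kruskal_pb_p (hI : PT I) : PB fun a => (I a).p := by unfold p; fun_prop
@[fun_prop] theorem kruskal_pt_ne (hI : PT I) : PT fun a => (I a).ne := by unfold ne; fun_prop
@[fun_prop] theorem kruskal_pt_nv (hI : PT I) : PT fun a => (I a).nv := by unfold nv; fun_prop
@[fun_prop] theorem kruskal_pb_ne (hI : PT I) : PB fun a => (I a).ne := by unfold ne; fun_prop
@[fun_prop] theorem kruskal_pb_nv (hI : PT I) : PB fun a => (I a).nv := by unfold nv; fun_prop
@[fun_prop] theorem kruskal_pt_cap {e : α → ℕ} (hI : PT I) (he : PT e) :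
    PT fun a => (I a).cap (e a) := by unfold cap; fun_prop
@[fun_prop] theorem kruskal_pt_TL {e : α → ℕ} (hI : PT I) (he : PT e) :
    PT fun a => (I a).TL (e a) := by unfold TL; fun_prop
@[fun_prop] theorem kruskal_pt_HD {e : α → ℕ} (hI : PT I) (he : PT e) :
    PT fun a => (I a).HD (e a) := by unfold HD; fun_prop
@[fun_prop] theorem kruskal_pt_LO {M e : α → ℕ} (hI : PT I) (hM : PT M) (he : PT e) :
    PT fun a => (I a).LO (M a) (e a) := by unfold LO; fun_prop
@[fun_prop] theorem kruskal_pt_HI {M e : α → ℕ} (hI : PT I) (hM : PT M) (he : PT e) :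
    PT fun a => (I a).HI (M a) (e a) := by unfold HI; fun_prop
@[fun_prop] theorem kruskal_pt_depL {M e : α → ℕ} {Rf : α → List ℤ} (hI : PT I) (hM : PT M)
    (hR : PT Rf) (he : PT e) : PT fun a => (I a).depL (M a) (Rf a) (e a) := by
  unfold depL; fun_prop
@[fun_prop] theorem kruskal_pt_kstep {st : α → List ℕ × List (List ℤ)} {e : α → ℕ} (hI : PT I)
    (hst : PT st) (he : PT e) : PT fun a => (I a).kstep (st a) (e a) := by
  unfold kstep; fun_prop
@[fun_prop] theorem kruskal_pt_korder {M : α → ℕ} {Rf : α → List ℤ} (hI : PT I) (hM : PT M)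
    (hR : PT Rf) : PT fun a => (I a).korder (M a) (Rf a) := by
  unfold korder
  exact PT.insertionSort (r := fun a e f => (I a).depL (M a) (Rf a) f ≤ (I a).depL (M a) (Rf a) e)
    (by fun_prop) (by fun_prop)
@[fun_prop] theorem kruskal_pt_kfin {M : α → ℕ} {Rf : α → List ℤ} (hI : PT I) (hM : PT M)
    (hR : PT Rf) : PT fun a => (I a).kfin (M a) (Rf a) := by
  unfold kfin
  refine PT.foldl (f := fun a => (I a).kstep)
    (fun a => ((6 * (I a).nv + 2) * (I a).nv + 1) +
      ((((I a).ne * sz (4 : ℕ) + 14) * (I a).ne + 2) * (I a).nv + 1) + 1)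
    (by fun_prop) (by fun_prop) (by fun_prop) (by fun_prop) fun a i => ?_
  refine ((KBd.fold _ (kruskal_bd_init (I a))).mono ?_).sz_le
  rw [zero_add, List.length_take, kruskal_length_korder]
  exact min_le_right _ _

end PT

/-- Polynomial time on all inputs: every step at most triples the largest entry (plus one). -/
theorem pt_kruskal {α : Type} [Enc α] {I : α → Inst} {M : α → ℕ} {Rf : α → List ℤ} (hI : PT I)
    (hM : PT M) (hR : PT Rf) : PT fun a => (I a).kruskal (M a) (Rf a) := by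
  unfold kruskal
  fun_prop

/-- The size of the output does not depend on the reference state. -/
theorem sz_kruskal : ∃ B : Inst → ℕ, PB B ∧ ∀ (I : Inst) M Rf, sz (I.kruskal M Rf) ≤ B I := by
  refine ⟨fun I => (((I.ne + 1) * sz (4 : ℕ) + 14) * I.ne + 2) * I.ne + 1, by fun_prop,
    fun I M Rf => kruskal_sz_mat (by simp [kruskal]) fun l hl => ?_⟩
  obtain ⟨e, -, rfl⟩ := List.mem_map.1 hl
  refine ⟨by simp, fun z hz => ?_⟩
  obtain ⟨t, -, rfl⟩ := List.mem_map.1 hz
  have h : I.KBd I.ne (I.kfin M Rf) := by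
    have := KBd.fold (I.korder M Rf) (kruskal_bd_init I)
    rwa [zero_add, kruskal_length_korder] at this
  have a2 := abs_le.1 (h.entry (I.TL e) t)
  have a3 := abs_le.1 (h.entry (I.HD e) t)
  have a4 : (1 : ℤ) ≤ (4 ^ I.ne : ℕ) := Int.ofNat_le.2 (Nat.one_le_pow _ _ (by norm_num))
  rw [pow_succ, Nat.cast_mul, abs_le]
  split_ifs <;> constructor <;> push_cast at * <;> linarith [a2.1, a2.2, a3.1, a3.2]

end Inst

end Crest.Agent.R309
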