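import Crest.Agent.R309.Noise

/-! Row 309: the noise lemma. -/

set_option autoImplicit false

namespace Crest.Agent.R309

open Finset

variable {V E : Type} [Fintype V] [DecidableEq V] [Fintype E] [DecidableEq E]
variable {G : Gr V E} {R : ℕ} {lo hi : E → ℤ} {a : E → ℤ → ℝ} {d : V → ℤ} {n : ℕ}

/-- All noise vectors. -/
noncomputable def noises (G : Gr V E) (R : ℕ) (lo hi : E → ℤ) (d : V → ℤ) (n : ℕ) (T : Finset E) :
    Finset (E → ℤ) := Fintype.piFinset fun f => Ico (0 : ℤ) (2 ^ nex G R lo hi d n T f)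

/-- The cost attached to one end point of a close pair. -/
noncomputable def ncost (G : Gr V E) (R : ℕ) (lo hi : E → ℤ) (a : E → ℤ → ℝ) (d : V → ℤ) (n : ℕ)
    (T : Finset E) (C : E → E → ℤ) (f : (E → ℤ) → ℝ) (N : E → ℤ) : ℝ :=
  (∑ B ∈ noises G R lo hi d n T,
    (8 * (f N - f (N + ∑ g, B g • C g)) ^ 2 +
      16 * (∑ o ∈ range (n ^ 20), (f (N + ∑ g, B g • C g) -
        wmean G R d a f (n ^ 20) o (win (n ^ 20) o (N + ∑ g, B g • C g))) ^ 2) / n ^ 20)) /
    (noises G R lo hi d n T).card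

/-- The cost of one noise vector. -/
noncomputable def noise2_c (G : Gr V E) (R : ℕ) (a : E → ℤ → ℝ) (d : V → ℤ) (n : ℕ)
    (C : E → E → ℤ) (f : (E → ℤ) → ℝ) (N B : E → ℤ) : ℝ :=
  8 * (f N - f (N + ∑ g, B g • C g)) ^ 2 +
    16 * (∑ o ∈ range (n ^ 20), (f (N + ∑ g, B g • C g) -
      wmean G R d a f (n ^ 20) o (win (n ^ 20) o (N + ∑ g, B g • C g))) ^ 2) / n ^ 20

lemma noise2_c_nonneg (C : E → E → ℤ) (f : (E → ℤ) → ℝ) (N B : E → ℤ) :
    0 ≤ noise2_c G R a d n C f N B := by
  unfold noise2_c; positivity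

lemma noise2_ncost (T : Finset E) (C : E → E → ℤ) (f : (E → ℤ) → ℝ) (N : E → ℤ) :
    ncost G R lo hi a d n T C f N =
      (∑ B ∈ noises G R lo hi d n T, noise2_c G R a d n C f N B) /
        (noises G R lo hi d n T).card := rfl

lemma noise2_ncost_nonneg (T : Finset E) (C : E → E → ℤ) (f : (E → ℤ) → ℝ) (N : E → ℤ) :
    0 ≤ ncost G R lo hi a d n T C f N := by
  rw [noise2_ncost]
  exact div_nonneg (sum_nonneg fun B _ => noise2_c_nonneg C f N B) (Nat.cast_nonneg _)

lemma noise2_mem {T : Finset E} {B : E → ℤ} :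
    B ∈ noises G R lo hi d n T ↔ IsNoise G R lo hi d n T B := by
  simp [noises, IsNoise]

lemma noise2_card_pos (T : Finset E) : (0 : ℝ) < (noises G R lo hi d n T).card := by
  have : (noises G R lo hi d n T).Nonempty :=
    ⟨0, noise2_mem.2 fun f => ⟨le_rfl, by simp⟩⟩
  exact_mod_cast this.card_pos

lemma noise2_avg {P : ℕ} (hP : 0 < P) {good : Finset ℕ} (hg : good ⊆ range P)
    (hc : P ≤ 2 * good.card) {δ A : ℝ} {u : ℕ → ℝ} (hu : ∀ o, 0 ≤ u o)
    (h : ∀ o ∈ good, δ ≤ A + u o) : δ ≤ A + 2 * (∑ o ∈ range P, u o) / P := by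
  have hP' : (0 : ℝ) < P := by exact_mod_cast hP
  have hS : 0 ≤ ∑ o ∈ range P, u o := sum_nonneg fun o _ => hu o
  rcases le_total δ A with h1 | h1
  · have : 0 ≤ 2 * (∑ o ∈ range P, u o) / P := by positivity
    linarith
  · have h2 : (good.card : ℝ) * (δ - A) ≤ ∑ o ∈ range P, u o := by
      calc (good.card : ℝ) * (δ - A) = ∑ _o ∈ good, (δ - A) := by rw [sum_const, nsmul_eq_mul]
        _ ≤ ∑ o ∈ good, u o := sum_le_sum fun o ho => by linarith [h o ho]
        _ ≤ _ := sum_le_sum_of_subset_of_nonneg hg fun o _ _ => hu o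
    have h3 : (P : ℝ) ≤ 2 * good.card := by exact_mod_cast hc
    rw [← sub_le_iff_le_add', le_div_iff₀ hP']
    nlinarith

lemma noise2_small (hn : 1000 ≤ n) {T : Finset E} {g : E} (hg : nex G R lo hi d n T g = 0)
    (hT : g ∉ T) : rng G R lo hi d g ≤ 32 * n ^ 16 := by
  have hn0 : 0 < n := by omega
  have h1 : avail G R lo hi d n g < 16 * n ^ 4 := by
    by_contra h
    have h' := not_lt.1 h
    unfold nex at hg
    rw [if_pos ⟨hT, h'⟩] at hg
    have h2 : 2 ≤ avail G R lo hi d n g / n ^ 3 := by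
      rw [Nat.le_div_iff_mul_le (by positivity)]
      calc 2 * n ^ 3 ≤ (16 * n) * n ^ 3 := Nat.mul_le_mul_right _ (by omega)
        _ = 16 * n ^ 4 := by ring
        _ ≤ _ := h'
    have := Nat.log_pos (b := 2) (by norm_num) h2
    omega
  unfold avail mrg at h1
  rw [Nat.div_lt_iff_lt_mul (by positivity), Nat.div_lt_iff_lt_mul (by positivity)] at h1
  calc rng G R lo hi d g ≤ 16 * n ^ 4 * (2 * n ^ 6) * n ^ 6 := h1.le
    _ = 32 * n ^ 16 := by ring

lemma noise2_inner (hn : 1000 ≤ n) (hE : Fintype.card E ≤ n) (η : E → ℤ) (hη : ∀ f, 0 < η f) :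
    ((Fintype.piFinset fun f => Ico (0 : ℤ) (η f)).card : ℝ) ≤
      2 * (Fintype.piFinset fun f => Ico (η f / (4 * n)) (η f - η f / (4 * n))).card := by
  have hn' : (1000 : ℝ) ≤ n := by exact_mod_cast hn
  have hE' : (Fintype.card E : ℝ) ≤ n := by exact_mod_cast hE
  have hq : (0 : ℝ) ≤ 1 - 1 / (2 * n) := by
    rw [sub_nonneg, div_le_one (by linarith)]; linarith
  have key : ∀ f, (1 - 1 / (2 * (n : ℝ))) * ((Ico (0 : ℤ) (η f)).card : ℝ) ≤
      ((Ico (η f / (4 * n)) (η f - η f / (4 * n))).card : ℝ) := by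
    intro f
    have h4 : (0 : ℤ) < 4 * n := by omega
    have h1 : η f / (4 * n) * (4 * n) ≤ η f := Int.ediv_mul_le _ h4.ne'
    have h0 := hη f
    have e1 : (((Ico (0 : ℤ) (η f)).card : ℤ) : ℝ) = η f := by
      rw [Int.card_Ico_of_le _ _ h0.le, sub_zero]
    have e2 : η f - η f / (4 * n) - η f / (4 * n) ≤
        ((Ico (η f / (4 * n)) (η f - η f / (4 * n))).card : ℤ) := by
      rw [Int.card_Ico]; exact Int.self_le_toNat _
    have e3 : ((η f : ℝ) - (η f / (4 * n) : ℤ) - (η f / (4 * n) : ℤ)) ≤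
        ((Ico (η f / (4 * n)) (η f - η f / (4 * n))).card : ℝ) := by exact_mod_cast e2
    have e4 : ((η f / (4 * n) : ℤ) : ℝ) * (4 * n) ≤ η f := by exact_mod_cast h1
    rw [Int.cast_natCast] at e1
    rw [e1]
    refine le_trans ?_ e3
    have e5 : ((η f / (4 * n) : ℤ) : ℝ) ≤ η f / (4 * n) := by
      rw [le_div_iff₀ (by linarith)]; exact e4
    have e6 : (1 - 1 / (2 * (n : ℝ))) * η f = η f - η f / (4 * n) - η f / (4 * n) := by
      field_simp; ring
    linarith
  have hb : 1 / 2 ≤ (1 - 1 / (2 * (n : ℝ))) ^ Fintype.card E := by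
    have h1 := one_add_mul_le_pow (a := -(1 / (2 * (n : ℝ)))) (by linarith) (Fintype.card E)
    have h2 : (Fintype.card E : ℝ) * (1 / (2 * n)) ≤ 1 / 2 := by
      rw [mul_one_div, div_le_div_iff₀ (by linarith) (by norm_num)]; linarith
    rw [← sub_eq_add_neg] at h1
    linarith
  rw [Fintype.card_piFinset, Fintype.card_piFinset]
  push_cast
  have h3 : ∏ f, (1 - 1 / (2 * (n : ℝ))) * ((Ico (0 : ℤ) (η f)).card : ℝ) ≤
      ∏ f, ((Ico (η f / (4 * n)) (η f - η f / (4 * n))).card : ℝ) :=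
    prod_le_prod (fun f _ => mul_nonneg hq (Nat.cast_nonneg _)) fun f _ => key f
  rw [prod_mul_distrib, prod_const, card_univ] at h3
  have h4 : (0 : ℝ) ≤ ∏ f, ((Ico (0 : ℤ) (η f)).card : ℝ) :=
    prod_nonneg fun f _ => Nat.cast_nonneg _
  nlinarith

lemma noise2_pair (hn : 1000 ≤ n) (hE : Fintype.card E ≤ n) (C : E → E → ℤ) (f : (E → ℤ) → ℝ)
    (N X B B' : E → ℤ)
    (h : ∀ e, |(N + ∑ g, B g • C g) e - (X + ∑ g, B' g • C g) e| ≤ (32 * n ^ 18 : ℕ)) :
    2 * (f N - f X) ^ 2 ≤ noise2_c G R a d n C f N B + noise2_c G R a d n C f X B' := by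
  unfold noise2_c
  generalize N + ∑ g, B g • C g = N' at h ⊢
  generalize X + ∑ g, B' g • C g = X' at h ⊢
  have hP : 0 < n ^ 20 := by positivity
  have h1 := card_win_ne_le (n ^ 20) N' X' _ h
  have h2 := card_filter_add_card_filter_not (s := range (n ^ 20))
    (fun o => win (n ^ 20) o N' ≠ win (n ^ 20) o X')
  rw [card_range] at h2
  have h3 : 2 * (Fintype.card E * (32 * n ^ 18)) ≤ n ^ 20 := by
    calc 2 * (Fintype.card E * (32 * n ^ 18)) ≤ 2 * (n * (32 * n ^ 18)) := by gcongr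
      _ = 64 * n ^ 19 := by ring
      _ ≤ n * n ^ 19 := Nat.mul_le_mul_right _ (by omega)
      _ = n ^ 20 := by ring
  have key := noise2_avg hP
    (filter_subset (fun o => ¬ win (n ^ 20) o N' ≠ win (n ^ 20) o X') (range (n ^ 20))) (by omega)
    (δ := (f N - f X) ^ 2) (A := 4 * (f N - f N') ^ 2 + 4 * (f X - f X') ^ 2)
    (u := fun o => 4 * (f N' - wmean G R d a f (n ^ 20) o (win (n ^ 20) o N')) ^ 2 +
      4 * (f X' - wmean G R d a f (n ^ 20) o (win (n ^ 20) o X')) ^ 2)
    (fun o => by positivity) (by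
      intro o ho
      rw [not_not.1 (mem_filter.1 ho).2]
      generalize wmean G R d a f (n ^ 20) o (win (n ^ 20) o X') = m
      nlinarith [sq_nonneg ((f N - f N') - (f N' - m)), sq_nonneg ((f N - f N') + (f X - f X')),
        sq_nonneg ((f N - f N') + (f X' - m)), sq_nonneg ((f N' - m) + (f X - f X')),
        sq_nonneg ((f N' - m) + (f X' - m)), sq_nonneg ((f X - f X') - (f X' - m))])
  rw [sum_add_distrib, ← mul_sum, ← mul_sum] at key
  push_cast at key
  refine le_trans (mul_le_mul_of_nonneg_left key (by norm_num)) (le_of_eq ?_)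
  ring

/-- Let `D = N - X` (a circulation), `m f = 2 ^ nex f / (4 n)` on large edges (`nex f ≠ 0`), `0`
elsewhere, `I = ∏ [m f, 2 ^ nex f - m f)` the inner noises; `2 |I| ≥ |noises|` since
`(1 - 1 / (2 n)) ^ n ≥ 1 / 2`.  For `B ∈ I` put `B' f = B f + D f` on large edges (`0` elsewhere); it
is a noise and `B ↦ B'` is injective.  `N' = N + ∑ B C`, `X' = X + ∑ B' C` satisfy
`N' - X' = ∑ g not large, D g • C g` (`Cyc.span`), where tree edges contribute `0` and small edges
have `|D g| ≤ rng g ≤ 32 n¹⁶`; so `|N' - X'| ≤ 32 n¹⁸` and at least half of the offsets `o < n²⁰` put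
`N'`, `X'` into the same window (`card_win_ne_le`).  For those,
`(f N - f X)² ≤ 4 [(f N - f N')² + (f N' - m_o)² + (m_o - f X')² + (f X' - f X)²]`;
average over `B ∈ I` and these offsets.  (Note `16 n⁴ ≤ avail f` forces `nex f ≠ 0` off the tree.) -/
theorem close_pair (H : Hyp G R lo hi a d n) {pr : E → ℤ} {T : Finset E} {C : E → E → ℤ}
    (hC : Cyc G pr T C n) {N X : E → ℤ} (hN : N ∈ cls G R d) (hN' : InBox lo hi N)
    (hX : X ∈ cls G R d) (hX' : InBox lo hi X) (hc : Close G R lo hi d n T (N - X))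
    (f : (E → ℤ) → ℝ) :
    (f N - f X) ^ 2 ≤ ncost G R lo hi a d n T C f N + ncost G R lo hi a d n T C f X := by
  have hn := H.big
  set D' : E → ℤ := fun g => if nex G R lo hi d n T g = 0 then 0 else (N - X) g with hD'
  have hD'le : ∀ g, |D' g| ≤ 2 ^ nex G R lo hi d n T g / (4 * n) := by
    intro g
    simp only [hD']
    split_ifs with h
    · rw [abs_zero]; positivity
    · exact hc g h
  have hdiv : G.div (N - X) = 0 := by
    rw [G.div_sub, (mem_cls.1 hN).2, (mem_cls.1 hX).2, sub_self]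
  have hdiff : ∀ (B : E → ℤ) e,
      |(N + ∑ g, B g • C g) e - (X + ∑ g, (B + D') g • C g) e| ≤ (32 * n ^ 18 : ℕ) := by
    intro B e
    have e1 : (N + ∑ g, B g • C g) e - (X + ∑ g, (B + D') g • C g) e =
        ∑ g, ((N - X) g - D' g) * C g e := by
      have := congrFun (hC.span _ hdiv) e
      simp only [Pi.add_apply, Finset.sum_apply, Pi.smul_apply, smul_eq_mul, add_mul, sub_mul,
        sum_add_distrib, sum_sub_distrib] at this ⊢
      rw [← this, Pi.sub_apply]
      ring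
    have e2 : ∀ g, |((N - X) g - D' g) * C g e| ≤ 32 * (n : ℤ) ^ 16 * n := by
      intro g
      simp only [hD']
      split_ifs with h
      · by_cases hT : g ∈ T
        · rw [hC.tree g hT, Pi.zero_apply, mul_zero, abs_zero]; positivity
        · rw [sub_zero, abs_mul]
          have h1 := abs_sub_le_rng hN hN' hX hX' g
          have h2 : (rng G R lo hi d g : ℤ) ≤ 32 * (n : ℤ) ^ 16 := by
            exact_mod_cast noise2_small hn h hT
          exact mul_le_mul (h1.trans h2) (hC.bdd g e) (abs_nonneg _) (by positivity)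
      · rw [sub_self, zero_mul, abs_zero]; positivity
    rw [e1]
    have hE : (Fintype.card E : ℤ) ≤ n := by exact_mod_cast H.cardE
    calc |∑ g, ((N - X) g - D' g) * C g e| ≤ ∑ g, |((N - X) g - D' g) * C g e| :=
          abs_sum_le_sum_abs _ _
      _ ≤ ∑ _g : E, 32 * (n : ℤ) ^ 16 * n := sum_le_sum fun g _ => e2 g
      _ = (Fintype.card E : ℤ) * (32 * (n : ℤ) ^ 16 * n) := by
          rw [sum_const, card_univ, nsmul_eq_mul]
      _ ≤ n * (32 * (n : ℤ) ^ 16 * n) := by gcongr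
      _ = (32 * n ^ 18 : ℕ) := by push_cast; ring
  set I := Fintype.piFinset fun g => Ico ((2 : ℤ) ^ nex G R lo hi d n T g / (4 * n))
    (2 ^ nex G R lo hi d n T g - 2 ^ nex G R lo hi d n T g / (4 * n)) with hI
  have hcard : ((noises G R lo hi d n T).card : ℝ) ≤ 2 * I.card :=
    noise2_inner hn H.cardE (fun g => 2 ^ nex G R lo hi d n T g) fun g => by positivity
  have hI1 : I ⊆ noises G R lo hi d n T := by
    intro B hB
    refine noise2_mem.2 fun g => ?_
    have h1 := mem_Ico.1 (Fintype.mem_piFinset.1 hB g)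
    have h2 := (abs_nonneg _).trans (hD'le g)
    constructor <;> linarith [h1.1, h1.2]
  have hI2 : I.image (· + D') ⊆ noises G R lo hi d n T := by
    intro B' hB'
    obtain ⟨B, hB, rfl⟩ := mem_image.1 hB'
    refine noise2_mem.2 fun g => ?_
    have h1 := mem_Ico.1 (Fintype.mem_piFinset.1 hB g)
    have h2 := abs_le.1 (hD'le g)
    simp only [Pi.add_apply]
    constructor <;> linarith [h1.1, h1.2, h2.1, h2.2]
  have h1 : (I.card : ℝ) * (2 * (f N - f X) ^ 2) ≤
      ∑ B ∈ noises G R lo hi d n T, noise2_c G R a d n C f N B +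
        ∑ B ∈ noises G R lo hi d n T, noise2_c G R a d n C f X B := by
    calc (I.card : ℝ) * (2 * (f N - f X) ^ 2) = ∑ _B ∈ I, 2 * (f N - f X) ^ 2 := by
          rw [sum_const, nsmul_eq_mul]
      _ ≤ ∑ B ∈ I, (noise2_c G R a d n C f N B + noise2_c G R a d n C f X (B + D')) :=
          sum_le_sum fun B _ => noise2_pair hn H.cardE C f N X B (B + D') (hdiff B)
      _ = ∑ B ∈ I, noise2_c G R a d n C f N B +
            ∑ B ∈ I.image (· + D'), noise2_c G R a d n C f X B := by
          rw [sum_add_distrib, sum_image fun x _ y _ h => add_right_cancel h]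
      _ ≤ _ := add_le_add
          (sum_le_sum_of_subset_of_nonneg hI1 fun B _ _ => noise2_c_nonneg C f N B)
          (sum_le_sum_of_subset_of_nonneg hI2 fun B _ _ => noise2_c_nonneg C f X B)
  rw [noise2_ncost, noise2_ncost, ← add_div, le_div_iff₀ (noise2_card_pos T)]
  nlinarith [sq_nonneg (f N - f X)]

lemma noise2_cost_sum (H : Hyp G R lo hi a d n) {Rf : E → ℤ} (hR : Rf ∈ cls G R d)
    (hR' : Deep G R lo hi d n Rf) {T : Finset E} {C : E → E → ℤ} (hC : Cyc G (dep lo hi Rf) T C n)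
    (f : (E → ℤ) → ℝ) :
    ∑ N ∈ (cls G R d).filter (Deep G R lo hi d n), wt a N * ncost G R lo hi a d n T C f N ≤
      16 * n ^ 2 * CDir G R d a C n f +
        32 * (∑ o ∈ range (n ^ 20), WE G R d a f (n ^ 20) o) / n ^ 20 := by
  have hn := H.big
  have hP : (0 : ℝ) < (n : ℝ) ^ 20 := by
    have : (0 : ℝ) < n := by exact_mod_cast (show 0 < n by omega)
    positivity
  have key : ∀ B ∈ noises G R lo hi d n T,
      ∑ N ∈ (cls G R d).filter (Deep G R lo hi d n), wt a N * noise2_c G R a d n C f N B ≤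
        16 * n ^ 2 * CDir G R d a C n f +
          32 * (∑ o ∈ range (n ^ 20), WE G R d a f (n ^ 20) o) / n ^ 20 := by
    intro B hB
    have hB' := noise2_mem.1 hB
    have h1 := noise_energy H hR hR' hC hB' f
    have h2 : ∀ o, ∑ N ∈ (cls G R d).filter (Deep G R lo hi d n), wt a N *
        (f (N + ∑ g, B g • C g) -
          wmean G R d a f (n ^ 20) o (win (n ^ 20) o (N + ∑ g, B g • C g))) ^ 2 ≤
        2 * WE G R d a f (n ^ 20) o := by
      intro o
      calc _ ≤ ∑ N ∈ (cls G R d).filter (Deep G R lo hi d n), 2 * (wt a (N + ∑ g, B g • C g) *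
            (f (N + ∑ g, B g • C g) -
              wmean G R d a f (n ^ 20) o (win (n ^ 20) o (N + ∑ g, B g • C g))) ^ 2) := by
            refine sum_le_sum fun N hN => ?_
            obtain ⟨hN1, hN2⟩ := mem_filter.1 hN
            rw [← mul_assoc]
            exact mul_le_mul_of_nonneg_right (noise_valid H hR hR' hC hN1 hN2 hB').2.2
              (sq_nonneg _)
        _ = 2 * ∑ X ∈ ((cls G R d).filter (Deep G R lo hi d n)).image (· + ∑ g, B g • C g),
            wt a X * (f X - wmean G R d a f (n ^ 20) o (win (n ^ 20) o X)) ^ 2 := by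
            rw [sum_image fun x _ y _ h => add_right_cancel h, mul_sum]
        _ ≤ 2 * WE G R d a f (n ^ 20) o := by
            refine mul_le_mul_of_nonneg_left (sum_le_sum_of_subset_of_nonneg ?_
              fun X _ _ => mul_nonneg (H.adm.wt_nonneg X) (sq_nonneg _)) (by norm_num)
            intro X hX
            obtain ⟨N, hN, rfl⟩ := mem_image.1 hX
            obtain ⟨hN1, hN2⟩ := mem_filter.1 hN
            exact (noise_valid H hR hR' hC hN1 hN2 hB').1
    have h3 := sum_le_sum fun o (_ : o ∈ range (n ^ 20)) => h2 o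
    rw [← mul_sum, sum_comm] at h3
    have e : ∑ N ∈ (cls G R d).filter (Deep G R lo hi d n), wt a N * noise2_c G R a d n C f N B =
        8 * ∑ N ∈ (cls G R d).filter (Deep G R lo hi d n),
          wt a N * (f N - f (N + ∑ g, B g • C g)) ^ 2 +
        16 * (∑ N ∈ (cls G R d).filter (Deep G R lo hi d n), ∑ o ∈ range (n ^ 20), wt a N *
          (f (N + ∑ g, B g • C g) -
            wmean G R d a f (n ^ 20) o (win (n ^ 20) o (N + ∑ g, B g • C g))) ^ 2) / n ^ 20 := by
      rw [mul_sum, mul_sum, sum_div, ← sum_add_distrib]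
      refine sum_congr rfl fun N _ => ?_
      rw [← mul_sum, noise2_c]
      ring
    rw [e]
    refine add_le_add (by linarith) (div_le_div_of_nonneg_right (by linarith) hP.le)
  simp only [noise2_ncost, ← mul_div_assoc, mul_sum]
  rw [← sum_div, sum_comm, div_le_iff₀ (noise2_card_pos T), ← mul_sum, mul_comm, ← nsmul_eq_mul,
    ← sum_const]
  exact sum_le_sum key

/-- Let `a'` be `a` restricted to the deep box (`Adm.restrict`, `wt_restrict`), `Z' > 0` (it contains
`Rf`), `m` the `a'`-mean of `f`.  Off the deep box use `deep_mass`.  On it: `var_mul_Z`, `GS_sq`, split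
along `Close`, `notClose_mass`, `close_pair`, `GS_left`/`GS_right`, and
`∑ N deep, a N * ncost N ≤ 16 n² CDir + 32 (∑ o, WE o) / n²⁰` by `noise_energy` and `noise_valid`
(for fixed `B` the shift is injective into the class and `a N ≤ 2 a (N + ∑ B C)`). -/
theorem noise_lemma [Nonempty V] (H : Hyp G R lo hi a d n) {Rf : E → ℤ} (hR : Rf ∈ cls G R d)
    (hR' : Deep G R lo hi d n Rf) {T : Finset E} {C : E → E → ℤ} (hC : Cyc G (dep lo hi Rf) T C n)
    {f : (E → ℤ) → ℝ} (hf : Unit01 f) (l : ℕ) :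
    ∃ m : ℝ, 0 ≤ m ∧ m ≤ 1 ∧ ∑ X ∈ cls G R d, wt a X * (f X - m) ^ 2 ≤
      Zc G R a d * (16 / n ^ 4 + (2 / 3 : ℝ) ^ l * n ^ 68) +
        2 ^ l * (16 * n ^ 2 * CDir G R d a C n f +
          32 * (∑ o ∈ range (n ^ 20), WE G R d a f (n ^ 20) o) / n ^ 20) := by
  classical
  set a' : E → ℤ → ℝ := fun e x => if lo e + mrg G R lo hi d n e ≤ x ∧
    x ≤ hi e - mrg G R lo hi d n e then a e x else 0 with ha'
  have hadm : Adm R a' := H.adm.restrict _ _
  have hwt : ∀ z, wt a' z = if Deep G R lo hi d n z then wt a z else 0 := fun z =>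
    wt_restrict a _ _ z
  have hdeep : ∀ z, Deep G R lo hi d n z → InBox lo hi z := by
    intro z hz e
    have h1 := hz e
    have h2 : (0 : ℤ) ≤ mrg G R lo hi d n e := Nat.cast_nonneg _
    constructor <;> linarith [h1.1, h1.2]
  have hZ' : 0 < Zc G R a' d := by
    have h1 := hadm.wt_le_Zc G Rf
    rw [(mem_cls.1 hR).2, hwt, if_pos hR'] at h1
    exact ((H.wt_pos_iff Rf).2 (hdeep _ hR')).trans_le h1
  have hZle : Zc G R a' d ≤ Zc G R a d := by
    refine sum_le_sum fun z _ => ?_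
    rw [hwt]
    split_ifs
    · exact le_rfl
    · exact H.adm.wt_nonneg z
  set m : ℝ := (∑ Y ∈ cls G R d, wt a' Y * f Y) / Zc G R a' d with hm
  have hm0 : 0 ≤ m :=
    div_nonneg (sum_nonneg fun Y _ => mul_nonneg (hadm.wt_nonneg Y) (hf Y).1) hZ'.le
  have hm1 : m ≤ 1 := by
    rw [hm, div_le_one hZ']
    exact sum_le_sum fun Y _ => mul_le_of_le_one_right (hadm.wt_nonneg Y) (hf Y).2
  refine ⟨m, hm0, hm1, ?_⟩
  have h1 : ∑ X ∈ cls G R d, wt a X * (f X - m) ^ 2 ≤
      ∑ X ∈ cls G R d, wt a' X * (f X - m) ^ 2 + 16 / n ^ 4 * Zc G R a d := by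
    refine le_trans ?_ (add_le_add le_rfl (deep_mass H))
    rw [← sum_add_distrib]
    refine sum_le_sum fun X _ => ?_
    rw [hwt]
    split_ifs
    · rw [mul_zero, add_zero]
    · rw [zero_mul, zero_add]
      refine mul_le_mul_of_nonneg_left ?_ (H.adm.wt_nonneg X)
      have := hf X
      nlinarith [this.1, this.2]
  have h2 := var_mul_Z G d hadm f
  have h3 := GS_sq G d l hadm f
  have h4 : GS G R d 0 l a' (fun N X => (f N - f X) ^ 2) ≤
      GS G R d 0 l a' (fun N X => (if Close G R lo hi d n T (N - X) then 0 else 1) +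
        (ncost G R lo hi a d n T C f N + ncost G R lo hi a d n T C f X)) := by
    refine GS_mono G d 0 l hadm fun N X hN hX hwN hwX => ?_
    have hcN := noise2_ncost_nonneg (G := G) (R := R) (lo := lo) (hi := hi) (a := a) (d := d)
      (n := n) T C f N
    have hcX := noise2_ncost_nonneg (G := G) (R := R) (lo := lo) (hi := hi) (a := a) (d := d)
      (n := n) T C f X
    split_ifs with hc
    · rw [zero_add]
      have hdN : Deep G R lo hi d n N := by
        by_contra h
        exact hwN (by rw [hwt, if_neg h])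
      have hdX : Deep G R lo hi d n X := by
        by_contra h
        exact hwX (by rw [hwt, if_neg h])
      exact close_pair H hC (mem_cls.2 ⟨hadm.mem_box hwN, by rw [hN, add_zero]⟩) (hdeep _ hdN)
        (mem_cls.2 ⟨hadm.mem_box hwX, hX⟩) (hdeep _ hdX) hc f
    · have h5 := hf N
      have h6 := hf X
      nlinarith [h5.1, h5.2, h6.1, h6.2]
  rw [GS_add, GS_add, GS_left G d 0 l hadm, GS_right G d 0 l hadm, add_zero] at h4
  have h5 : GS G R d 0 l a' (fun N X => if Close G R lo hi d n T (N - X) then 0 else 1) ≤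
      (1 / 3 : ℝ) ^ l * n ^ 68 * Zc G R a' d ^ 2 := notClose_mass H T l
  have h6 : ∑ N ∈ cls G R d, wt a' N * ncost G R lo hi a d n T C f N ≤
      16 * n ^ 2 * CDir G R d a C n f +
        32 * (∑ o ∈ range (n ^ 20), WE G R d a f (n ^ 20) o) / n ^ 20 := by
    refine le_trans (le_of_eq ?_) (noise2_cost_sum H hR hR' hC f)
    rw [sum_filter]
    refine sum_congr rfl fun N _ => ?_
    rw [hwt]
    split_ifs
    · rfl
    · rw [zero_mul]
  rw [← hm] at h2
  generalize 16 * (n : ℝ) ^ 2 * CDir G R d a C n f +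
    32 * (∑ o ∈ range (n ^ 20), WE G R d a f (n ^ 20) o) / n ^ 20 = S at h6 ⊢
  generalize ∑ N ∈ cls G R d, wt a' N * ncost G R lo hi a d n T C f N = S' at h4 h6
  generalize ∑ X ∈ cls G R d, wt a' X * (f X - m) ^ 2 = W at h1 h2
  have h2l : (0 : ℝ) < 2 ^ l := by positivity
  have hq : (0 : ℝ) ≤ (2 / 3 : ℝ) ^ l * n ^ 68 := by positivity
  have e : (2 / 3 : ℝ) ^ l = 2 ^ l * (1 / 3) ^ l := by rw [← mul_pow]; norm_num
  have h7 : 2 * W * Zc G R a' d ≤
      ((2 / 3 : ℝ) ^ l * n ^ 68 * Zc G R a' d + 2 * (2 ^ l * S')) * Zc G R a' d := by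
    calc 2 * W * Zc G R a' d ≤ 2 ^ l * GS G R d 0 l a' (fun N X => (f N - f X) ^ 2) := h2 ▸ h3
      _ ≤ 2 ^ l * ((1 / 3 : ℝ) ^ l * n ^ 68 * Zc G R a' d ^ 2 +
          (S' * Zc G R a' d + S' * Zc G R a' d)) :=
          mul_le_mul_of_nonneg_left (h4.trans (add_le_add h5 le_rfl)) h2l.le
      _ = _ := by rw [e]; ring
  have h8 := le_of_mul_le_mul_right h7 hZ'
  have h9 := mul_le_mul_of_nonneg_left hZle hq
  have h10 := mul_le_mul_of_nonneg_left h6 h2l.le
  have h11 := mul_nonneg hq (H.adm.Zc_nonneg G d)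
  linarith

end Crest.Agent.R309
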