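import Crest.Agent.R309.WindowRoot
import Crest.Agent.R309.Noise2

/-! Row 309: the weak Poincaré inequality. -/

set_option autoImplicit false

namespace Crest.Agent.R309

open Finset

variable {V E : Type} [Fintype V] [DecidableEq V] [Fintype E] [DecidableEq E]
variable {G : Gr V E} {R : ℕ} {lo hi : E → ℤ} {a : E → ℤ → ℝ} {d : V → ℤ} {n : ℕ}

lemma wp_wt_zero (H : Hyp G R lo hi a d n) {S : E → ℤ} (h : ¬ InBox lo hi S) : wt a S = 0 :=
  le_antisymm (not_lt.1 fun h' => h ((H.wt_pos_iff S).1 h')) (H.adm.wt_nonneg S)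

lemma wp_pstar_nonneg (H : Hyp G R lo hi a d n) (S : E → ℤ) : 0 ≤ pstar G R a S :=
  div_nonneg (H.adm.wt_nonneg S) (H.adm.Zc_nonneg G _)

lemma wp_term_nonneg (H : Hyp G R lo hi a d n) (f : (E → ℤ) → ℝ) (S S' : E → ℤ) (P : Prop)
    [Decidable P] :
    0 ≤ if P then min (pstar G R a S) (pstar G R a S') * (f S - f S') ^ 2 else 0 := by
  split_ifs
  · exact mul_nonneg (le_min (wp_pstar_nonneg H _) (wp_pstar_nonneg H _)) (sq_nonneg _)
  · exact le_rfl

lemma wp_Dir_nonneg (H : Hyp G R lo hi a d n) (C : E → E → ℤ) (f : (E → ℤ) → ℝ) :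
    0 ≤ Dir (Om G R lo hi d) C n (pstar G R a) f :=
  sum_nonneg fun _ _ => sum_nonneg fun _ _ => sum_nonneg fun _ _ => wp_term_nonneg H f _ _ _

lemma wp_pow {x : ℝ} (hx : 1000 ≤ x) {c : ℝ} (p q : ℕ) (hc : c ≤ 10 ^ 6) (h : p + 2 ≤ q) :
    c * x ^ p ≤ x ^ q := by
  have h1 : (1 : ℝ) ≤ x := by linarith
  calc c * x ^ p ≤ x ^ 2 * x ^ p := by
        refine mul_le_mul_of_nonneg_right ?_ (by positivity)
        nlinarith
    _ = x ^ (p + 2) := by ring
    _ ≤ _ := pow_le_pow_right₀ h1 h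

lemma wp_div {x : ℝ} (hx : 1000 ≤ x) {c : ℝ} (p q : ℕ) (hc : c ≤ 10 ^ 6) (h : p + 2 ≤ q) :
    c / x ^ q ≤ 1 / x ^ p := by
  rw [div_le_div_iff₀ (by positivity) (by positivity), one_mul]
  exact wp_pow hx p q hc h

/-- The unit moves are the moves with `j = 0` (`pstar` vanishes outside `[lo, hi]`). -/
lemma UDir_le_Dir (H : Hyp G R lo hi a d n) (C : E → E → ℤ) (f : (E → ℤ) → ℝ) :
    UDir G R d (pstar G R a) f ≤ Dir (Om G R lo hi d) C n (pstar G R a) f := by
  refine sum_le_sum fun e _ => ?_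
  refine le_trans ?_ (single_le_sum (f := fun j => ∑ S ∈ Om G R lo hi d,
    if S + mv C e j ∈ Om G R lo hi d then min (pstar G R a S) (pstar G R a (S + mv C e j)) *
      (f S - f (S + mv C e j)) ^ 2 else 0)
    (fun _ _ => sum_nonneg fun _ _ => wp_term_nonneg H f _ _ _) (mem_range.2 (Nat.succ_pos n)))
  have h0 : mv C e 0 = Pi.single e 1 := if_pos rfl
  simp only [h0]
  conv_rhs => rw [Om, sum_filter]
  refine sum_le_sum fun S _ => ?_
  have hnn : 0 ≤ if InBox lo hi S ∧ IsRt (G.div S - d) then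
      (if S + Pi.single e 1 ∈ (box E R).filter fun S => InBox lo hi S ∧ IsRt (G.div S - d) then
        min (pstar G R a S) (pstar G R a (S + Pi.single e 1)) *
          (f S - f (S + Pi.single e 1)) ^ 2 else 0) else 0 := by
    split_ifs with h1 h2
    · exact mul_nonneg (le_min (wp_pstar_nonneg H _) (wp_pstar_nonneg H _)) (sq_nonneg _)
    · exact le_rfl
    · exact le_rfl
  by_cases h : S + Pi.single e 1 ∈ box E R ∧ IsRt (G.div S - d) ∧
      IsRt (G.div (S + Pi.single e 1) - d)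
  · rw [if_pos h]
    by_cases h1 : InBox lo hi S
    · by_cases h2 : InBox lo hi (S + Pi.single e 1)
      · rw [if_pos ⟨h1, h.2.1⟩, if_pos (mem_filter.2 ⟨h.1, h2, h.2.2⟩)]
      · refine le_trans (mul_nonpos_of_nonpos_of_nonneg ((min_le_right _ _).trans ?_)
          (sq_nonneg _)) hnn
        rw [pstar, wp_wt_zero H h2, zero_div]
    · refine le_trans (mul_nonpos_of_nonpos_of_nonneg ((min_le_left _ _).trans ?_)
        (sq_nonneg _)) hnn
      rw [pstar, wp_wt_zero H h1, zero_div]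
  · rw [if_neg h]
    exact hnn

/-- The cycle moves are the moves with `j ≥ 1` started in the class `d`. -/
lemma CDir_le_Dir [Nonempty V] (H : Hyp G R lo hi a d n) {C : E → E → ℤ}
    (hC : ∀ f, G.div (C f) = 0) (f : (E → ℤ) → ℝ) :
    CDir G R d a C n f ≤ Zc G R a d * Dir (Om G R lo hi d) C n (pstar G R a) f := by
  have hZ := H.zpos
  rw [Dir, mul_sum]
  refine sum_le_sum fun e _ => ?_
  rw [sum_range_succ', mul_add, mul_sum]
  refine le_add_of_le_of_nonneg (sum_le_sum fun j _ => ?_)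
    (mul_nonneg hZ.le (sum_nonneg fun _ _ => wp_term_nonneg H f _ _ _))
  have h0 : mv C e (j + 1) = (2 : ℤ) ^ j • C e := if_neg (Nat.succ_ne_zero j)
  rw [h0]
  generalize hD : (2 : ℤ) ^ j • C e = D
  have hD0 : G.div D = 0 := by rw [← hD, G.div_smul, hC, smul_zero]
  conv_rhs => rw [Om, sum_filter, mul_sum]
  rw [cls, sum_filter]
  refine sum_le_sum fun S _ => ?_
  have hnn : 0 ≤ Zc G R a d * if InBox lo hi S ∧ IsRt (G.div S - d) then
      (if S + D ∈ (box E R).filter fun S => InBox lo hi S ∧ IsRt (G.div S - d) then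
        min (pstar G R a S) (pstar G R a (S + D)) * (f S - f (S + D)) ^ 2 else 0) else 0 := by
    refine mul_nonneg hZ.le ?_
    split_ifs with h1 h2
    · exact mul_nonneg (le_min (wp_pstar_nonneg H _) (wp_pstar_nonneg H _)) (sq_nonneg _)
    · exact le_rfl
    · exact le_rfl
  by_cases h : G.div S = d
  swap
  · rw [if_neg h]
    exact hnn
  rw [if_pos h]
  by_cases h' : S + D ∈ box E R
  swap
  · rw [if_neg h']
    exact hnn
  rw [if_pos h']
  have h3 : G.div (S + D) = d := by rw [G.div_add, hD0, add_zero, h]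
  by_cases h1 : InBox lo hi S
  · by_cases h2 : InBox lo hi (S + D)
    · rw [if_pos ⟨h1, by rw [h, sub_self]; exact isRt_zero⟩,
        if_pos (mem_filter.2 ⟨h', h2, by rw [h3, sub_self]; exact isRt_zero⟩), pstar, pstar, h, h3,
        min_div_div_right hZ.le, ← mul_assoc, mul_div_cancel₀ _ hZ.ne']
    · refine le_trans (mul_nonpos_of_nonpos_of_nonneg ((min_le_right _ _).trans ?_)
        (sq_nonneg _)) hnn
      rw [wp_wt_zero H h2]
  · refine le_trans (mul_nonpos_of_nonpos_of_nonneg ((min_le_left _ _).trans ?_)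
      (sq_nonneg _)) hnn
    rw [wp_wt_zero H h1]

/-- `(2/3) ^ (2 * clog 2 x) ≤ 1 / x` and `2 ^ (2 * clog 2 x) ≤ 4 x²`. -/
lemma exists_level (x : ℕ) (hx : 1 ≤ x) :
    ∃ l : ℕ, (2 / 3 : ℝ) ^ l * x ≤ 1 ∧ (2 : ℝ) ^ l ≤ 4 * x ^ 2 := by
  refine ⟨2 * Nat.clog 2 x, ?_, ?_⟩
  · have h1 : (x : ℝ) ≤ 2 ^ Nat.clog 2 x := by exact_mod_cast Nat.le_pow_clog (by norm_num) x
    calc (2 / 3 : ℝ) ^ (2 * Nat.clog 2 x) * x ≤ (2 / 3 : ℝ) ^ (2 * Nat.clog 2 x) * 2 ^ Nat.clog 2 x := by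
          gcongr
      _ = (8 / 9 : ℝ) ^ Nat.clog 2 x := by rw [pow_mul, ← mul_pow]; norm_num
      _ ≤ 1 := pow_le_one₀ (by norm_num) (by norm_num)
  · have h1 : 2 ^ Nat.clog 2 x ≤ 2 * x := by
      rcases hx.eq_or_lt with rfl | h
      · simp
      · have h2 := Nat.pow_pred_clog_lt_self (b := 2) (by norm_num) h
        have h3 := Nat.clog_pos (b := 2) (by norm_num) h
        obtain ⟨k, hk⟩ := Nat.exists_eq_succ_of_ne_zero h3.ne'
        rw [hk] at h2 ⊢
        rw [Nat.pred_succ] at h2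
        rw [pow_succ]
        omega
    have h2 : (2 : ℝ) ^ Nat.clog 2 x ≤ 2 * x := by exact_mod_cast h1
    calc (2 : ℝ) ^ (2 * Nat.clog 2 x) = (2 ^ Nat.clog 2 x) ^ 2 := by rw [mul_comm, pow_mul]
      _ ≤ (2 * x) ^ 2 := by gcongr
      _ = _ := by ring

/-- Weak Poincaré inequality.  `noise_lemma` with `l₁` from `exists_level (n ^ 72)`
(`2 ^ l₁ ≤ n ^ 145`), `window_zero` with `P = n ^ 20`, `Q = n ^ 154`, `l` from `exists_level (n ^ 245)`
(`tau ≤ 16 / n ^ 162`, `4 ^ l ≤ n ^ 982`) give `E_d (f - m)² ≤ 19 / n⁴ + n ^ 1285 Dir`; `window_root`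
gives `E_{d+ρ} (f - m)² ≤ 41 / n⁴ + n ^ 1295 Dir`; and
`∑ S ∈ Om, pstar S g S ≤ ∑ i j, (∑ S ∈ cls (d + rt i j), wt S g S) / Zc (d + rt i j)` has at most `n²`
terms. -/
theorem weak_poincare [Nonempty V] (H : Hyp G R lo hi a d n) {Rf : E → ℤ} (hR : Rf ∈ cls G R d)
    (hR' : Deep G R lo hi d n Rf) {T : Finset E} {C : E → E → ℤ} (hC : Cyc G (dep lo hi Rf) T C n)
    {f : (E → ℤ) → ℝ} (hf : Unit01 f) :
    ∃ m : ℝ, ∑ S ∈ Om G R lo hi d, pstar G R a S * (f S - m) ^ 2 ≤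
      (n : ℝ) ^ 1300 * Dir (Om G R lo hi d) C n (pstar G R a) f + 1 / n := by
  have hn : 0 < n := lt_of_lt_of_le (by norm_num) H.big
  have hx : (1000 : ℝ) ≤ n := by exact_mod_cast H.big
  have hx0 : (0 : ℝ) < n := by linarith
  have hZ := H.zpos
  have hD := wp_Dir_nonneg H C f
  have hU := UDir_le_Dir H C f
  have hCD := CDir_le_Dir H hC.circ f
  set D := Dir (Om G R lo hi d) C n (pstar G R a) f
  obtain ⟨l₁, a1, a2⟩ := exists_level (n ^ 72) (Nat.one_le_pow _ _ hn)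
  obtain ⟨l, b1, b2⟩ := exists_level (n ^ 245) (Nat.one_le_pow _ _ hn)
  push_cast at a1 a2 b1 b2
  obtain ⟨m, hm0, hm1, hm⟩ := noise_lemma H hR hR' hC hf l₁
  refine ⟨m, ?_⟩
  have hQ : (1 : ℝ) ≤ (n : ℝ) ^ 154 := one_le_pow₀ (by linarith)
  have hP : 0 < n ^ 20 := by positivity
  have t1 : (2 / 3 : ℝ) ^ l₁ * n ^ 68 ≤ 1 / n ^ 4 := by
    rw [le_div_iff₀ (by positivity)]
    calc _ = (2 / 3 : ℝ) ^ l₁ * n ^ 72 := by ring
      _ ≤ 1 := a1
  have t2 : tau n (n ^ 20) l ≤ 16 / (n : ℝ) ^ 162 := by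
    rw [le_div_iff₀ (by positivity), tau]
    push_cast
    calc _ = 16 * ((2 / 3 : ℝ) ^ l * n ^ 245) := by ring
      _ ≤ 16 := by linarith
  have t3 : (4 : ℝ) ^ l ≤ 16 * n ^ 980 := by
    calc (4 : ℝ) ^ l = (2 ^ l) ^ 2 := by rw [← pow_mul, mul_comm, pow_mul]; norm_num
      _ ≤ (4 * ((n : ℝ) ^ 245) ^ 2) ^ 2 := by gcongr
      _ = _ := by ring
  have t4 : ∀ o, WE G R d a f (n ^ 20) o ≤ Zc G R a d * (2 / n ^ 150 + 16 * n ^ 1135 * D) := by
    intro o
    refine (window_zero G H.noloop d H.cardV H.cardE l H.adm hZ hP o hQ hf).trans ?_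
    refine mul_le_mul_of_nonneg_left (add_le_add ?_ ?_) hZ.le
    · have c1 : (n : ℝ) ^ 4 / n ^ 154 = 1 / n ^ 150 := by field_simp
      have c2 := wp_div hx (c := 16) 150 162 (by norm_num) (by norm_num)
      have c3 : (2 : ℝ) / n ^ 150 = 1 / n ^ 150 + 1 / n ^ 150 := by ring
      linarith
    · calc _ ≤ (4 : ℝ) ^ l * n * n ^ 154 * D := by gcongr
        _ ≤ 16 * n ^ 980 * n * n ^ 154 * D := by gcongr
        _ = _ := by ring
  have t5 : (∑ o ∈ range (n ^ 20), WE G R d a f (n ^ 20) o) / n ^ 20 ≤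
      Zc G R a d * (2 / n ^ 150 + 16 * n ^ 1135 * D) := by
    rw [div_le_iff₀ (by positivity)]
    refine (sum_le_card_nsmul _ _ _ fun o _ => t4 o).trans ?_
    rw [card_range, nsmul_eq_mul, mul_comm]
    push_cast
    exact le_rfl
  have t6 : (∑ X ∈ cls G R d, wt a X * (f X - m) ^ 2) / Zc G R a d ≤ 18 / n ^ 4 + n ^ 1285 * D := by
    rw [div_le_iff₀ hZ]
    refine hm.trans ?_
    rw [mul_div_assoc 32]
    have c1 := wp_div hx (c := 256) 4 6 (by norm_num) (by norm_num)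
    have c2 := wp_pow hx (c := 64) 146 1279 (by norm_num) (by norm_num)
    have c3 := wp_pow hx (c := 2049) 1279 1285 (by norm_num) (by norm_num)
    calc _ ≤ Zc G R a d * (16 / n ^ 4 + 1 / n ^ 4) + 2 ^ l₁ * (16 * n ^ 2 * (Zc G R a d * D) +
          32 * (Zc G R a d * (2 / n ^ 150 + 16 * n ^ 1135 * D))) := by gcongr
      _ ≤ Zc G R a d * (16 / n ^ 4 + 1 / n ^ 4) + 4 * (n ^ 72) ^ 2 * (16 * n ^ 2 * (Zc G R a d * D) +
          32 * (Zc G R a d * (2 / n ^ 150 + 16 * n ^ 1135 * D))) := by gcongr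
      _ = (17 / n ^ 4 + 256 / n ^ 6 + (64 * n ^ 146 + 2048 * n ^ 1279) * D) * Zc G R a d := by
          field_simp
          ring
      _ ≤ (17 / n ^ 4 + 1 / n ^ 4 + n ^ 1285 * D) * Zc G R a d := by
          gcongr
          linarith
      _ = _ := by ring
  have hB : (0 : ℝ) ≤ 39 / n ^ 4 + n ^ 1295 * D :=
    add_nonneg (div_nonneg (by norm_num) (pow_nonneg hx0.le _)) (mul_nonneg (pow_nonneg hx0.le _) hD)
  have t7 : ∀ i j : V, (∑ N ∈ cls G R (d + rt i j), wt a N * (f N - m) ^ 2) /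
      Zc G R a (d + rt i j) ≤ 39 / n ^ 4 + n ^ 1295 * D := by
    intro i j
    refine div_le_of_le_mul₀ (H.adm.Zc_nonneg G _) hB ?_
    refine (window_root G H.noloop d ⟨i, j, rfl⟩ H.cardV H.cardE l H.adm hZ hP hQ hf hm0 hm1).trans ?_
    rw [mul_comm]
    refine mul_le_mul_of_nonneg_right ?_ (H.adm.Zc_nonneg G _)
    rw [mul_div_assoc 2]
    push_cast
    have c1 := wp_div hx (c := 2) 4 150 (by norm_num) (by norm_num)
    have c2 := wp_div hx (c := 8) 4 19 (by norm_num) (by norm_num)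
    have c3 := wp_div hx (c := 128) 4 8 (by norm_num) (by norm_num)
    have c4 := wp_pow hx (c := 2) 1285 1289 (by norm_num) (by norm_num)
    have c5 := wp_pow hx (c := 321) 1289 1295 (by norm_num) (by norm_num)
    calc _ ≤ 2 * (18 / n ^ 4 + n ^ 1285 * D) + 2 * n ^ 4 / n ^ 154 + 8 * n / n ^ 20 +
          8 * n ^ 154 * (16 / n ^ 162) + 20 * 4 ^ l * n * (n ^ 154) ^ 2 * D := by gcongr
      _ ≤ 2 * (18 / n ^ 4 + n ^ 1285 * D) + 2 * n ^ 4 / n ^ 154 + 8 * n / n ^ 20 +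
          8 * n ^ 154 * (16 / n ^ 162) + 20 * (16 * n ^ 980) * n * (n ^ 154) ^ 2 * D := by gcongr
      _ = 36 / n ^ 4 + 2 / n ^ 150 + 8 / n ^ 19 + 128 / n ^ 8 +
          (2 * n ^ 1285 + 320 * n ^ 1289) * D := by
          field_simp
          ring
      _ ≤ 36 / n ^ 4 + 1 / n ^ 4 + 1 / n ^ 4 + 1 / n ^ 4 + n ^ 1295 * D := by
          gcongr
          linarith
      _ = _ := by ring
  have hg : ∀ S, 0 ≤ pstar G R a S * (f S - m) ^ 2 := fun S =>
    mul_nonneg (wp_pstar_nonneg H S) (sq_nonneg _)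
  calc ∑ S ∈ Om G R lo hi d, pstar G R a S * (f S - m) ^ 2
      ≤ ∑ S ∈ Om G R lo hi d, ∑ p : V × V,
          if G.div S = d + rt p.1 p.2 then pstar G R a S * (f S - m) ^ 2 else 0 := by
        refine sum_le_sum fun S hS => ?_
        obtain ⟨i, j, h⟩ := (mem_filter.1 hS).2.2
        refine le_trans ?_ (single_le_sum (f := fun p : V × V =>
          if G.div S = d + rt p.1 p.2 then pstar G R a S * (f S - m) ^ 2 else 0)
          (fun p _ => by split_ifs; exacts [hg S, le_rfl]) (mem_univ (i, j)))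
        rw [if_pos (by rw [← h, add_sub_cancel])]
    _ ≤ ∑ S ∈ box E R, ∑ p : V × V,
          if G.div S = d + rt p.1 p.2 then pstar G R a S * (f S - m) ^ 2 else 0 :=
        sum_le_sum_of_subset_of_nonneg (filter_subset _ _) fun S _ _ =>
          sum_nonneg fun p _ => by split_ifs; exacts [hg S, le_rfl]
    _ = ∑ p : V × V, (∑ N ∈ cls G R (d + rt p.1 p.2), wt a N * (f N - m) ^ 2) /
          Zc G R a (d + rt p.1 p.2) := by
        rw [sum_comm]
        refine sum_congr rfl fun p _ => ?_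
        rw [← sum_filter, sum_div]
        refine sum_congr rfl fun S hS => ?_
        rw [pstar, (mem_filter.1 hS).2, div_mul_eq_mul_div]
    _ ≤ (n : ℝ) ^ 2 * (39 / n ^ 4 + n ^ 1295 * D) := by
        refine (sum_le_card_nsmul _ _ _ fun p _ => t7 p.1 p.2).trans ?_
        rw [card_univ, Fintype.card_prod, nsmul_eq_mul]
        have : (Fintype.card V : ℝ) ≤ n := by exact_mod_cast H.cardV
        push_cast
        rw [sq]
        exact mul_le_mul_of_nonneg_right (mul_le_mul this this (Nat.cast_nonneg _) hx0.le) hB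
    _ = n ^ 1297 * D + 39 / n ^ 2 := by
        field_simp
        ring
    _ ≤ _ := by
        refine add_le_add (mul_le_mul_of_nonneg_right
          (pow_le_pow_right₀ (by linarith) (by norm_num)) hD) ?_
        rw [div_le_div_iff₀ (by positivity) hx0]
        nlinarith

end Crest.Agent.R309
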