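import Crest.Agent.R309.Stage2
import Crest.Agent.R309.Kruskal
import Crest.Agent.R309.WP

/-! Row 309: the chain of one stage is reversible and mixes from warm starts. -/

set_option autoImplicit false

namespace Crest.Agent.R309

open Finset Crest.Agent.Lib.PT

lemma chain_Pr_succ (r : ℕ) (P : List Bool → Prop) :
    Pr (r + 1) P = (Pr r (fun l => P (false :: l)) + Pr r (fun l => P (true :: l))) / 2 := by
  unfold Pr
  rw [Ex_succ]

lemma chain_two_pow_size {n : ℕ} (hn : 0 < n) : 2 ^ Nat.size n ≤ 2 * n := by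
  have h1 : 0 < Nat.size n := Nat.size_pos.2 hn
  have h2 : 2 ^ (Nat.size n - 1) ≤ n := Nat.lt_size.1 (by omega)
  calc 2 ^ Nat.size n = 2 * 2 ^ (Nat.size n - 1) := by
        rw [← pow_succ']; congr 1; omega
    _ ≤ 2 * n := by omega

lemma chain_min (a b : ℤ) :
    (2 : ℝ) ^ a * (1 / 2 ^ (a - b).toNat) = min ((2 : ℝ) ^ a) ((2 : ℝ) ^ b) := by
  rcases le_total a b with h | h
  · rw [Int.toNat_eq_zero.2 (by omega), min_eq_left (zpow_le_zpow_right₀ (by norm_num) h)]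
    simp
  · rw [min_eq_right (zpow_le_zpow_right₀ (by norm_num) h), ← zpow_natCast,
      Int.toNat_of_nonneg (by omega), one_div, ← zpow_neg, ← zpow_add₀ (by norm_num)]
    congr 1
    ring

lemma chain_geom {x : ℝ} (hx0 : 0 ≤ x) (hx : x ≤ 1) (T : ℕ) : (1 - x) ^ T * (1 + T * x) ≤ 1 := by
  have h1 : 1 + (T : ℝ) * x ≤ (1 + x) ^ T := one_add_mul_le_pow (by linarith) T
  calc (1 - x) ^ T * (1 + T * x) ≤ (1 - x) ^ T * (1 + x) ^ T :=
        mul_le_mul_of_nonneg_left h1 (pow_nonneg (by linarith) T)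
    _ = ((1 - x) * (1 + x)) ^ T := (mul_pow _ _ _).symm
    _ ≤ 1 := pow_le_one₀ (by nlinarith) (by nlinarith)

lemma chain_cyc_mono {V E : Type} [Fintype V] [DecidableEq V] [Fintype E] [DecidableEq E]
    {G : Gr V E} {pr : E → ℤ} {T : Finset E} {C : E → E → ℤ} {n n' : ℕ} (h : Cyc G pr T C n)
    (hn : n ≤ n') : Cyc G pr T C n' :=
  ⟨h.circ, fun f t => (h.bdd f t).trans (by exact_mod_cast hn), h.tree, h.span, h.deep⟩

namespace Inst

variable {I : Inst} {s : ℕ}

lemma chain_step_false (θ : Th) (S : List ℤ) (l : List Bool) : I.step s θ S (false :: l) = S := by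
  simp [step]

lemma chain_step_iff (θ : Th) {S y : List ℤ} (h : S ≠ y) (sg : Bool) (l : List Bool) :
    I.step s θ S (true :: sg :: l) = y ↔
      (I.okMove s θ S sg (ofBits (l.take (pa s))) (ofBits ((l.drop (pa s)).take (pb s))) = true ∧
        I.prop s θ.2.2 S sg (ofBits (l.take (pa s))) (ofBits ((l.drop (pa s)).take (pb s))) = y) ∧
      ((((l.drop (pa s)).drop (pb s)).take (I.lw s θ S - I.lw s θ y).toNat).all
        (fun b => !b) = true) := by
  have e1 : (true :: sg :: l).drop 2 = l := rfl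
  have e2 : (true :: sg :: l).drop (2 + pa s) = l.drop (pa s) := by
    rw [← List.drop_drop, e1]
  have e3 : (true :: sg :: l).drop (2 + pa s + pb s) = (l.drop (pa s)).drop (pb s) := by
    rw [← List.drop_drop, e2]
  have e4 : (true :: sg :: l).getD 0 false = true := rfl
  have e5 : (true :: sg :: l).getD 1 false = sg := rfl
  unfold step
  rw [e1, e2, e3, e4, e5, Bool.true_and]
  split_ifs with hc
  · rw [Bool.and_eq_true] at hc
    constructor
    · intro hy
      rw [hy] at hc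
      exact ⟨⟨hc.1, hy⟩, hc.2⟩
    · exact fun hy => hy.1.2
  · constructor
    · exact fun hy => absurd hy h
    · rintro ⟨⟨h1, h2⟩, h3⟩
      exact absurd (by rw [Bool.and_eq_true, h2]; exact ⟨h1, h3⟩) hc

lemma chain_okMove_iff (θ : Th) (S : List ℤ) (sg : Bool) (e j : ℕ) :
    I.okMove s θ S sg e j = true ↔ e < I.ne ∧ j ≤ pW s ∧ I.valid θ.1 S = true ∧
      I.valid θ.1 (I.prop s θ.2.2 S sg e j) = true ∧
      (I.lw s θ S - I.lw s θ (I.prop s θ.2.2 S sg e j)).natAbs ≤ pA s := by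
  simp [okMove, and_assoc]

lemma chain_valid_length {M : ℕ} {S : List ℤ} (h : I.valid M S = true) : S.length = I.ne := by
  simp only [valid, Bool.and_eq_true, decide_eq_true_eq] at h
  exact h.1.1

lemma chain_valid_cls {M : ℕ} {S : List ℤ} (h : I.valid M S = true) :
    ∃ i < I.nv, ∃ j < I.nv, I.isCls S i j = true := by
  simp only [valid, Bool.and_eq_true, decide_eq_true_eq] at h
  exact h.2

lemma chain_prop_prop (C : List (List ℤ)) {S : List ℤ} (h : S.length = I.ne) (sg : Bool)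
    (e j : ℕ) : I.prop s C (I.prop s C S sg e j) (!sg) e j = S := by
  apply List.ext_getElem
  · simp [prop, h]
  · intro t h1 h2
    have ht : t < I.ne := h ▸ h2
    simp only [prop, List.getElem_map, List.getElem_range]
    rw [List.getD_eq_getElem _ _ (by simpa using ht)]
    simp only [List.getElem_map, List.getElem_range]
    rw [List.getD_eq_getElem _ _ h2]
    cases sg <;> simp

lemma chain_ok_symm (θ : Th) {x y : List ℤ} {sg : Bool} {e j : ℕ}
    (h : I.okMove s θ x sg e j = true ∧ I.prop s θ.2.2 x sg e j = y) :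
    I.okMove s θ y (!sg) e j = true ∧ I.prop s θ.2.2 y (!sg) e j = x := by
  obtain ⟨h1, rfl⟩ := h
  rw [chain_okMove_iff] at h1 ⊢
  obtain ⟨h1, h2, h3, h4, h5⟩ := h1
  rw [chain_prop_prop _ (chain_valid_length h3)]
  exact ⟨⟨h1, h2, h4, h3, by omega⟩, rfl⟩

/-- The transition probabilities: split the tape (`Ex_succ`, `Ex_split`, `Ex_ofBits`,
`Pr_allFalse`). -/
lemma Pr_step (θ : Th) {S y : List ℤ} (h : S ≠ y) :
    Pr (r1 s) (fun ω => I.step s θ S ω = y) =
      (∑ sg : Bool, ∑ e ∈ range (2 ^ pa s), ∑ j ∈ range (2 ^ pb s),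
        if I.okMove s θ S sg e j = true ∧ I.prop s θ.2.2 S sg e j = y then
          (1 : ℝ) / 2 ^ (I.lw s θ S - I.lw s θ y).toNat else 0) / 2 ^ (2 + pa s + pb s) := by
  have hr : r1 s = (pa s + (pb s + pA s)) + 1 + 1 := by unfold r1; ring
  set c : Bool → ℕ → ℕ → ℝ := fun sg e j =>
    if I.okMove s θ S sg e j = true ∧ I.prop s θ.2.2 S sg e j = y then
      (1 : ℝ) / 2 ^ (I.lw s θ S - I.lw s θ y).toNat else 0 with hc
  have h3 : ∀ sg e j, Pr (pA s) (fun w =>
      (I.okMove s θ S sg e j = true ∧ I.prop s θ.2.2 S sg e j = y) ∧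
        ((w.take (I.lw s θ S - I.lw s θ y).toNat).all (fun b => !b) = true)) = c sg e j := by
    intro sg e j
    simp only [hc]
    split_ifs with hh
    · rw [← Pr_allFalse (r := pA s)]
      · exact Pr_congr fun l _ => and_iff_right hh
      · have := ((chain_okMove_iff θ S sg e j).1 hh.1).2.2.2.2
        rw [hh.2] at this
        omega
    · rw [← Pr_false (pA s)]
      exact Pr_congr fun l _ => ⟨fun h' => hh h'.1, False.elim⟩
  have h1 : ∀ sg, Pr (pa s + (pb s + pA s)) (fun l => I.step s θ S (true :: sg :: l) = y) =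
      (∑ e ∈ range (2 ^ pa s), (∑ j ∈ range (2 ^ pb s), c sg e j) / 2 ^ pb s) / 2 ^ pa s := by
    intro sg
    rw [Pr_congr fun l _ => chain_step_iff θ h sg l]
    have h2 : ∀ e, Pr (pb s + pA s) (fun v =>
        (I.okMove s θ S sg e (ofBits (v.take (pb s))) = true ∧
          I.prop s θ.2.2 S sg e (ofBits (v.take (pb s))) = y) ∧
        (((v.drop (pb s)).take (I.lw s θ S - I.lw s θ y).toNat).all (fun b => !b) = true)) =
        (∑ j ∈ range (2 ^ pb s), c sg e j) / 2 ^ pb s := by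
      intro e
      rw [Pr_split (pb s) (pA s) (fun u w =>
        (I.okMove s θ S sg e (ofBits u) = true ∧ I.prop s θ.2.2 S sg e (ofBits u) = y) ∧
        ((w.take (I.lw s θ S - I.lw s θ y).toNat).all (fun b => !b) = true))]
      simp only [h3]
      exact Ex_ofBits (pb s) (c sg e)
    rw [Pr_split (pa s) (pb s + pA s) (fun u v =>
        (I.okMove s θ S sg (ofBits u) (ofBits (v.take (pb s))) = true ∧
          I.prop s θ.2.2 S sg (ofBits u) (ofBits (v.take (pb s))) = y) ∧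
        (((v.drop (pb s)).take (I.lw s θ S - I.lw s θ y).toNat).all (fun b => !b) = true))]
    simp only [h2]
    exact Ex_ofBits (pa s) (fun e => (∑ j ∈ range (2 ^ pb s), c sg e j) / 2 ^ pb s)
  have h0 : Pr (pa s + (pb s + pA s) + 1) (fun l => I.step s θ S (false :: l) = y) = 0 := by
    rw [← Pr_false (pa s + (pb s + pA s) + 1)]
    exact Pr_congr fun l _ => by rw [chain_step_false]; exact ⟨h, False.elim⟩
  rw [hr, chain_Pr_succ, h0, chain_Pr_succ, h1, h1, Fintype.sum_bool, ← Finset.sum_div,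
    ← Finset.sum_div, pow_add, pow_add]
  field_simp
  ring

/-- `pit S / 2 ^ (lw S - lw y).toNat = min (pit S) (pit y)`; for valid `S`,
`prop (prop S sg e j) (!sg) e j = S`, so `sg ↦ !sg` matches the terms of `Pr_step`. -/
theorem Sz.rev (H : I.Sz s) {θ : Th} (hM : θ.1 ≤ pM0 s) :
    Rev (I.OmL s θ.1) (I.pit s θ) (r1 s) (I.step s θ) := by
  refine ⟨fun x _ => pit_pos θ x, fun x hx ω => ?_, fun x _ y _ => ?_, fun x _ => ?_⟩
  · unfold step
    split_ifs with hc
    · simp only [Bool.and_eq_true] at hc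
      exact (H.mem_OmL hM _).2 ((chain_okMove_iff _ _ _ _ _).1 hc.1.2).2.2.2.1
    · exact hx
  · by_cases hxy : x = y
    · rw [hxy]
    rw [Pr_step θ hxy, Pr_step θ (Ne.symm hxy), ← mul_div_assoc, ← mul_div_assoc]
    congr 1
    rw [← Equiv.sum_comp (Function.Involutive.toPerm (f := fun b : Bool => !b) Bool.not_not)
      (fun sg => ∑ e ∈ range (2 ^ pa s), ∑ j ∈ range (2 ^ pb s),
        if I.okMove s θ y sg e j = true ∧ I.prop s θ.2.2 y sg e j = x then
          (1 : ℝ) / 2 ^ (I.lw s θ y - I.lw s θ x).toNat else 0)]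
    simp only [Finset.mul_sum, Function.Involutive.coe_toPerm]
    refine Finset.sum_congr rfl fun sg _ => Finset.sum_congr rfl fun e _ =>
      Finset.sum_congr rfl fun j _ => ?_
    by_cases hc : I.okMove s θ x sg e j = true ∧ I.prop s θ.2.2 x sg e j = y
    · rw [if_pos hc, if_pos (chain_ok_symm θ hc)]
      unfold pit
      rw [chain_min, chain_min, min_comm]
    · rw [if_neg hc, if_neg fun h' => hc (by simpa using chain_ok_symm θ h'), mul_zero, mul_zero]
  · have hr : r1 s = (pa s + (pb s + pA s) + 1) + 1 := by unfold r1; ring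
    have h0 : Pr (pa s + (pb s + pA s) + 1) (fun l => I.step s θ x (false :: l) = x) = 1 := by
      rw [← Pr_true (pa s + (pb s + pA s) + 1)]
      exact Pr_congr fun l _ => by rw [chain_step_false]; simp
    rw [hr, chain_Pr_succ, h0]
    have := Pr_nonneg (pa s + (pb s + pA s) + 1) (fun l => I.step s θ x (true :: l) = x)
    linarith

lemma Sz.chain_M_pos (H : I.Sz s) {M : ℕ} (hM1 : pP s - 1 ≤ M) : 0 < M := by
  have := H.big
  have h2 : 100 ≤ s ^ 2 := by nlinarith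
  unfold pP at hM1
  omega

lemma Sz.chain_Zt_ge (H : I.Sz s) (hc : 0 < I.cnt) {M : ℕ} (hM1 : pP s - 1 ≤ M) (hM : M ≤ pM0 s)
    {i j : ℕ} (hi : i < I.nv) (hj : j < I.nv) : 1 / 2 ^ (5 * s ^ 2) ≤ I.Zt s M i j := by
  refine le_trans ?_ (H.Zt_ge hc (H.chain_M_pos hM1) hM hi hj)
  refine one_div_le_one_div_of_le (by positivity) (pow_le_pow_right₀ (by norm_num) ?_)
  refine Nat.div_le_of_le_mul ?_
  have := H.big
  have h2 : 100 ≤ s ^ 2 := by nlinarith
  have h3 : 16 * s ^ 2 ≤ M := by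
    unfold pP at hM1
    omega
  unfold pJ
  calc 2 * (40 * s ^ 4) = 16 * s ^ 2 * (5 * s ^ 2) := by ring
    _ ≤ M * (5 * s ^ 2) := Nat.mul_le_mul_right _ h3

lemma Sz.chain_uu_le (H : I.Sz s) (hc : 0 < I.cnt) {M : ℕ} (hM1 : pP s - 1 ≤ M) (hM : M ≤ pM0 s)
    {u : List (List ℤ)} (hu : I.GoodU s M u) {S : List ℤ} (hS : I.valid M S = true) :
    |I.uu u S| ≤ 6 * (s : ℤ) ^ 2 + 2 := by
  obtain ⟨i, hi, j, hj, hij⟩ := chain_valid_cls hS
  by_cases h : i = j
  · subst h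
    rw [isCls_self] at hij
    rw [uu_of_isCls_zero hij, abs_zero]
    positivity
  rw [uu_of_isCls hi hj h hij]
  obtain ⟨h1, h2⟩ := hu i hi j hj h
  set a := (u.getD i []).getD j 0
  have h0 : 0 < I.nv := Nat.succ_pos _
  have l1 := H.chain_Zt_ge hc hM1 hM hi hj
  have l0 := H.chain_Zt_ge hc hM1 hM h0 h0
  have u1 := H.Zt_le hM i j
  have u0 := H.Zt_le hM 0 0
  have ha : (0 : ℝ) < 2 ^ a := by positivity
  have hA : (0 : ℝ) < 2 ^ (5 * s ^ 2) := by positivity
  have hB : (0 : ℝ) < 2 ^ (s ^ 2) := by positivity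
  have key : (2 : ℝ) ^ (6 * (s : ℤ) ^ 2 + 2) = 4 * 2 ^ (s ^ 2) * 2 ^ (5 * s ^ 2) := by
    have : 6 * (s : ℤ) ^ 2 + 2 = ((2 + s ^ 2 + 5 * s ^ 2 : ℕ) : ℤ) := by push_cast; ring
    rw [this, zpow_natCast, pow_add, pow_add]
    norm_num
  rw [div_le_iff₀ hA] at l1 l0
  rw [abs_le]
  constructor
  · rw [neg_le, ← zpow_le_zpow_iff_right₀ (a := (2 : ℝ)) (by norm_num), key, zpow_neg,
      inv_le_iff_one_le_mul₀ ha]
    calc (1 : ℝ) ≤ I.Zt s M 0 0 * 2 ^ (5 * s ^ 2) := l0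
      _ ≤ 4 * (2 ^ a * I.Zt s M i j) * 2 ^ (5 * s ^ 2) := by gcongr
      _ ≤ 4 * (2 ^ a * 2 ^ (s ^ 2)) * 2 ^ (5 * s ^ 2) := by gcongr
      _ = _ := by ring
  · rw [← zpow_le_zpow_iff_right₀ (a := (2 : ℝ)) (by norm_num), key]
    calc (2 : ℝ) ^ a = 2 ^ a * 1 := (mul_one _).symm
      _ ≤ 2 ^ a * (I.Zt s M i j * 2 ^ (5 * s ^ 2)) := by gcongr
      _ = (2 ^ a * I.Zt s M i j) * 2 ^ (5 * s ^ 2) := by ring
      _ ≤ (4 * I.Zt s M 0 0) * 2 ^ (5 * s ^ 2) := by gcongr
      _ ≤ _ := by gcongr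

/-- `|u i j| ≤ 8 s² + 2` by `GoodU`, `Zt_le`, `Zt_ge` (`2 J / M ≤ 5 s²`), `cnt_le_Zt`; `hh ≤ J s`. -/
lemma Sz.lw_diff (H : I.Sz s) (hc : 0 < I.cnt) {θ : Th} (hM1 : pP s - 1 ≤ θ.1) (hM : θ.1 ≤ pM0 s)
    (hu : I.GoodU s θ.1 θ.2.1) {S y : List ℤ} (hS : I.valid θ.1 S = true)
    (hy : I.valid θ.1 y = true) : (I.lw s θ S - I.lw s θ y).natAbs ≤ pA s := by
  have h1 := abs_le.1 (H.chain_uu_le hc hM1 hM hu hS)
  have h2 := abs_le.1 (H.chain_uu_le hc hM1 hM hu hy)
  have h3 := hh_le (s := s) hS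
  have h4 := hh_le (s := s) hy
  have hp : I.p ≤ s := by
    have := H.nv_le
    unfold nv at this
    omega
  have hJ : pJ s * I.p ≤ 40 * s ^ 5 := by
    unfold pJ
    calc 40 * s ^ 4 * I.p ≤ 40 * s ^ 4 * s := Nat.mul_le_mul_left _ hp
      _ = 40 * s ^ 5 := by ring
  have hs := H.big
  have h5 : 2 * s ^ 2 ≤ s ^ 5 := by
    have : 2 ≤ s ^ 3 := le_trans (by omega) (Nat.le_self_pow (by norm_num) s)
    calc 2 * s ^ 2 ≤ s ^ 3 * s ^ 2 := Nat.mul_le_mul_right _ this
      _ = s ^ 5 := by ring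
  have h6 : 1 ≤ s ^ 2 := Nat.one_le_pow _ _ (by omega)
  have e2 : (s : ℤ) ^ 2 = ((s ^ 2 : ℕ) : ℤ) := by push_cast; rfl
  rw [e2] at h1 h2
  unfold lw pA
  generalize s ^ 2 = a at *
  generalize s ^ 5 = b at *
  omega

lemma Sz.chain_en_row (H : I.Sz s) {θ : Th} (hM : θ.1 ≤ pM0 s) (f : List ℤ → ℝ) (x : List ℤ) :
    ∑ e ∈ range (2 ^ pa s), ∑ j ∈ range (2 ^ pb s),
        (if I.okMove s θ x true e j = true then
          min (I.pit s θ x) (I.pit s θ (I.prop s θ.2.2 x true e j)) *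
            (f x - f (I.prop s θ.2.2 x true e j)) ^ 2 else 0) ≤
      2 ^ (2 + pa s + pb s) * ∑ y ∈ I.OmL s θ.1,
        I.pit s θ x * Pr (r1 s) (fun ω => I.step s θ x ω = y) * (f x - f y) ^ 2 := by
  classical
  have h1 : ∀ e j, (if I.okMove s θ x true e j = true then
          min (I.pit s θ x) (I.pit s θ (I.prop s θ.2.2 x true e j)) *
            (f x - f (I.prop s θ.2.2 x true e j)) ^ 2 else 0) =
      ∑ y ∈ I.OmL s θ.1, if I.okMove s θ x true e j = true ∧ I.prop s θ.2.2 x true e j = y then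
        min (I.pit s θ x) (I.pit s θ y) * (f x - f y) ^ 2 else 0 := by
    intro e j
    split_ifs with h
    · simp only [h, true_and]
      rw [Finset.sum_ite_eq,
        if_pos ((H.mem_OmL hM _).2 ((chain_okMove_iff _ _ _ _ _).1 h).2.2.2.1)]
    · simp [h]
  simp only [h1]
  rw [Finset.sum_congr rfl fun e _ => Finset.sum_comm, Finset.sum_comm, Finset.mul_sum]
  refine Finset.sum_le_sum fun y _ => ?_
  by_cases hxy : x = y
  · subst hxy
    simp
  rw [Pr_step θ hxy, Fintype.sum_bool]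
  have hp := pit_pos (I := I) (s := s) θ x
  have h2 : 0 ≤ ∑ e ∈ range (2 ^ pa s), ∑ j ∈ range (2 ^ pb s),
      if I.okMove s θ x false e j = true ∧ I.prop s θ.2.2 x false e j = y then
        (1 : ℝ) / 2 ^ (I.lw s θ x - I.lw s θ y).toNat else 0 :=
    Finset.sum_nonneg fun _ _ => Finset.sum_nonneg fun _ _ => by split_ifs <;> positivity
  have h3 : (∑ e ∈ range (2 ^ pa s), ∑ j ∈ range (2 ^ pb s),
      if I.okMove s θ x true e j = true ∧ I.prop s θ.2.2 x true e j = y then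
        min (I.pit s θ x) (I.pit s θ y) * (f x - f y) ^ 2 else 0) =
      I.pit s θ x * (∑ e ∈ range (2 ^ pa s), ∑ j ∈ range (2 ^ pb s),
      if I.okMove s θ x true e j = true ∧ I.prop s θ.2.2 x true e j = y then
        (1 : ℝ) / 2 ^ (I.lw s θ x - I.lw s θ y).toNat else 0) * (f x - f y) ^ 2 := by
    simp only [Finset.mul_sum, Finset.sum_mul]
    refine Finset.sum_congr rfl fun e _ => Finset.sum_congr rfl fun j _ => ?_
    split_ifs
    · unfold pit
      rw [chain_min]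
    · simp
  rw [h3]
  generalize (∑ e ∈ range (2 ^ pa s), ∑ j ∈ range (2 ^ pb s),
      if I.okMove s θ x false e j = true ∧ I.prop s θ.2.2 x false e j = y then
        (1 : ℝ) / 2 ^ (I.lw s θ x - I.lw s θ y).toNat else 0) = B at h2 ⊢
  generalize (∑ e ∈ range (2 ^ pa s), ∑ j ∈ range (2 ^ pb s),
      if I.okMove s θ x true e j = true ∧ I.prop s θ.2.2 x true e j = y then
        (1 : ℝ) / 2 ^ (I.lw s θ x - I.lw s θ y).toNat else 0) = A
  have h4 : (2 : ℝ) ^ (2 + pa s + pb s) *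
      (I.pit s θ x * ((A + B) / 2 ^ (2 + pa s + pb s)) * (f x - f y) ^ 2) =
      I.pit s θ x * (A + B) * (f x - f y) ^ 2 := by
    field_simp
  rw [h4]
  gcongr
  linarith

/-- Only the proposals with `sg = true` are used (`prop_ofFn`, `Pr_step`). -/
lemma Sz.dir_le_en (H : I.Sz s) (hc : 0 < I.cnt) {θ : Th} (hM1 : pP s - 1 ≤ θ.1)
    (hM : θ.1 ≤ pM0 s) (hu : I.GoodU s θ.1 θ.2.1) (f : List ℤ → ℝ) :
    Dir (Om I.gr (rad s) (I.lo θ.1) (I.hi θ.1) I.dd) (I.mat θ.2.2) (pW s)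
        (fun z => I.pit s θ (List.ofFn z)) (fun z => f (List.ofFn z)) ≤
      2 ^ (2 + pa s + pb s) * En (I.OmL s θ.1) (I.pit s θ) (r1 s) (I.step s θ) f := by
  unfold Dir En
  rw [Finset.mul_sum, sum_OmL, Finset.sum_congr rfl fun e _ => Finset.sum_comm, Finset.sum_comm]
  refine Finset.sum_le_sum fun z hz => le_trans ?_ (H.chain_en_row hM f (List.ofFn z))
  set g : ℕ → ℕ → ℝ := fun e j => if I.okMove s θ (List.ofFn z) true e j = true then
    min (I.pit s θ (List.ofFn z)) (I.pit s θ (I.prop s θ.2.2 (List.ofFn z) true e j)) *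
      (f (List.ofFn z) - f (I.prop s θ.2.2 (List.ofFn z) true e j)) ^ 2 else 0 with hg
  have hg0 : ∀ e j, 0 ≤ g e j := fun e j => by
    simp only [hg]
    split_ifs
    · exact mul_nonneg (le_min (pit_pos _ _).le (pit_pos _ _).le) (sq_nonneg _)
    · exact le_rfl
  have hv : ∀ w ∈ Om I.gr (rad s) (I.lo θ.1) (I.hi θ.1) I.dd,
      I.valid θ.1 (List.ofFn w) = true := fun w hw =>
    (H.vec_mem_Om hM (List.length_ofFn ..)).1 (by rwa [vec_ofFn])
  calc _ ≤ ∑ e : Fin I.ne, ∑ j ∈ range (pW s + 1), g e j := by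
        refine Finset.sum_le_sum fun e _ => Finset.sum_le_sum fun j hj => ?_
        have hj' : j ≤ pW s := Nat.lt_succ_iff.1 (Finset.mem_range.1 hj)
        split_ifs with h
        · have hp : I.prop s θ.2.2 (List.ofFn z) true e j =
              List.ofFn (z + mv (I.mat θ.2.2) e j) := by
            rw [prop_ofFn _ _ _ _ hj']
            simp
          have hok : I.okMove s θ (List.ofFn z) true e j = true := by
            rw [chain_okMove_iff, hp]
            exact ⟨e.2, hj', hv z hz, hv _ h, H.lw_diff hc hM1 hM hu (hv z hz) (hv _ h)⟩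
          simp only [hg]
          rw [if_pos hok, hp]
        · exact hg0 _ _
    _ = ∑ e ∈ range I.ne, ∑ j ∈ range (pW s + 1), g e j :=
        (Finset.sum_range fun e => ∑ j ∈ range (pW s + 1), g e j).symm
    _ ≤ ∑ e ∈ range I.ne, ∑ j ∈ range (2 ^ pb s), g e j :=
        Finset.sum_le_sum fun e _ => Finset.sum_le_sum_of_subset_of_nonneg
          (Finset.range_subset_range.2 (Nat.lt_size_self _)) fun _ _ _ => hg0 _ _
    _ ≤ ∑ e ∈ range (2 ^ pa s), ∑ j ∈ range (2 ^ pb s), g e j :=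
        Finset.sum_le_sum_of_subset_of_nonneg
          (Finset.range_subset_range.2 (H.ne_le.trans (Nat.lt_size_self _).le))
          fun _ _ _ => Finset.sum_nonneg fun _ _ => hg0 _ _

/-- Comparison with the ideal weights (`wt_le_atw`, `Zc_le_Zt`, `GoodU`). -/
lemma Sz.pit_cmp (H : I.Sz s) (hc : 0 < I.cnt) {θ : Th} (hM0 : 0 < θ.1) (hM : θ.1 ≤ pM0 s)
    (hu : I.GoodU s θ.1 θ.2.1) {z : Fin I.ne → ℤ}
    (hz : z ∈ Om I.gr (rad s) (I.lo θ.1) (I.hi θ.1) I.dd) :
    I.pit s θ (List.ofFn z) ≤ 8 * I.Zt s θ.1 0 0 * pstar I.gr (rad s) (I.aw s θ.1) z ∧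
      I.Zt s θ.1 0 0 * pstar I.gr (rad s) (I.aw s θ.1) z ≤ 8 * I.pit s θ (List.ofFn z) := by
  have hv : I.valid θ.1 (List.ofFn z) = true :=
    (H.vec_mem_Om hM (List.length_ofFn ..)).1 (by rwa [vec_ofFn])
  obtain ⟨i, hi, j, hj, hij⟩ := chain_valid_cls hv
  have hdiv := (H.isCls_iff (List.ofFn z) ⟨i, hi⟩ ⟨j, hj⟩).1 hij
  rw [vec_ofFn] at hdiv
  obtain ⟨z1, z2⟩ := H.Zc_le_Zt hM0 hM ⟨i, hi⟩ ⟨j, hj⟩
  obtain ⟨w1, w2⟩ := wt_le_atw (s := s) hM0 hv
  rw [vec_ofFn] at w1 w2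
  have hZt : 0 < I.Zt s θ.1 i j := lt_of_lt_of_le (by positivity) (H.Zt_ge hc hM0 hM hi hj)
  have hW : I.Zt s θ.1 0 0 ≤ 4 * ((2 : ℝ) ^ I.uu θ.2.1 (List.ofFn z) * I.Zt s θ.1 i j) ∧
      (2 : ℝ) ^ I.uu θ.2.1 (List.ofFn z) * I.Zt s θ.1 i j ≤ 4 * I.Zt s θ.1 0 0 := by
    by_cases h : i = j
    · subst h
      have e : I.Zt s θ.1 i i = I.Zt s θ.1 0 0 := by
        unfold Zt
        simp only [isCls_self _ i]
      rw [isCls_self] at hij
      rw [uu_of_isCls_zero hij, zpow_zero, one_mul, e]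
      rw [e] at hZt
      constructor <;> linarith
    · rw [uu_of_isCls hi hj h hij]
      exact hu i hi j hj h
  have hw0 := (adm_aw H hM).wt_nonneg z
  unfold pstar
  rw [hdiv, pit_eq]
  simp only at z1 z2
  have hU : (0 : ℝ) < 2 ^ I.uu θ.2.1 (List.ofFn z) := by positivity
  generalize (2 : ℝ) ^ I.uu θ.2.1 (List.ofFn z) = U at *
  generalize Zc I.gr (rad s) (I.aw s θ.1) (I.dd + rt ⟨i, hi⟩ ⟨j, hj⟩) = Z at *
  generalize wt (I.aw s θ.1) z = w at *
  generalize I.atw s θ.1 (List.ofFn z) = a at *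
  generalize I.Zt s θ.1 i j = Y at *
  generalize I.Zt s θ.1 0 0 = Y0 at *
  have hZ : 0 < Z := by linarith
  obtain ⟨hW1, hW2⟩ := hW
  constructor
  · rw [← mul_div_assoc, le_div_iff₀ hZ]
    calc U * a * Z ≤ U * (2 * w) * Y := by gcongr
      _ = 2 * w * (U * Y) := by ring
      _ ≤ 2 * w * (4 * Y0) := by gcongr
      _ = _ := by ring
  · rw [← mul_div_assoc, div_le_iff₀ hZ]
    calc Y0 * w ≤ 4 * (U * Y) * w := by gcongr
      _ ≤ 4 * (U * (2 * Z)) * a := by gcongr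
      _ = _ := by ring

/-- `weak_poincare` (with `Sz.hyp`, `kruskal_cyc`; `Cyc` is monotone in the bound), `pit_cmp`,
`dir_le_en` (`2 ^ (2 + pa + pb) ≤ 16 s n ≤ n²`), `sum_pit` give the hypothesis of `Rev.mix` with
`C = n ^ 1303`, `δ = 8 / n`, `n = s ^ 130`; and `(1 - 1 / (2 C)) ^ (n ^ 1310) ≤ 1 / n`. -/
theorem Sz.mix (H : I.Sz s) (hc : 0 < I.cnt) {t : ℕ} {θ : Th} (hθ : I.GoodTh s t θ)
    {φ : List ℤ → ℝ} (hφ : Unit01 φ) :
    ∑ S ∈ I.OmL s θ.1, I.pit s θ S *
        ((Kop (r1 s) (I.step s θ))^[pT s] φ S - avg (I.OmL s θ.1) (I.pit s θ) φ) ^ 2 ≤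
      (3 / (s : ℝ) ^ 65) ^ 2 * ∑ S ∈ I.OmL s θ.1, I.pit s θ S := by
  obtain ⟨hθ1, hu, Rf, hR, hK⟩ := hθ
  have hM : θ.1 ≤ pM0 s := hθ1 ▸ Mt_le s t
  have hM1 : pP s - 1 ≤ θ.1 := hθ1 ▸ le_Mt H.big t
  have hM0 := H.chain_M_pos hM1
  have hyp := H.hyp hc hM0 hM
  have hs := H.big
  have hsn : s ≤ pW s := Nat.le_self_pow (by norm_num) s
  obtain ⟨T, hT⟩ := H.kruskal_cyc θ.1 Rf
  have hT' := chain_cyc_mono hT (H.nv_le.trans hsn)
  rw [← hK] at hT'
  have hn : (1000 : ℝ) ≤ pW s := by exact_mod_cast hyp.big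
  have hsn' : (s : ℝ) ≤ pW s := by exact_mod_cast hsn
  have hpow : (2 : ℝ) ^ (2 + pa s + pb s) ≤ 16 * (pW s : ℝ) ^ 2 := by
    have h1 : (2 : ℝ) ^ pa s ≤ 2 * s := by exact_mod_cast chain_two_pow_size (n := s) (by omega)
    have h2 : (2 : ℝ) ^ pb s ≤ 2 * pW s := by
      exact_mod_cast chain_two_pow_size (n := pW s) (by omega)
    rw [pow_add, pow_add]
    calc (2 : ℝ) ^ 2 * 2 ^ pa s * 2 ^ pb s ≤ 2 ^ 2 * (2 * pW s) * (2 * pW s) := by
          gcongr
          linarith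
      _ = _ := by ring
  have hZ0 := Zt_nonneg (I := I) (s := s) θ.1 0 0
  have hsum := (H.sum_pit hM hu).1
  have hn2 : (3 / (s : ℝ) ^ 65) ^ 2 = 9 / (pW s : ℝ) := by
    unfold pW
    push_cast
    rw [div_pow, ← pow_mul]
    norm_num
  have hT2 : (pT s : ℝ) = (pW s : ℝ) ^ 1310 := by
    unfold pT
    push_cast
    rfl
  have hmix := (H.rev hM).mix (C := 2 * (pW s : ℝ) ^ 1303) (δ := 8 / (pW s : ℝ))
    (by have := one_le_pow₀ (n := 1303) (show (1 : ℝ) ≤ pW s by linarith); linarith)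
    (by positivity) ?_ hφ (pT s)
  · refine hmix.trans ?_
    rw [hn2]
    gcongr
    · linarith
    generalize (pW s : ℝ) = n at *
    have hn0 : 0 < n := by linarith
    have h1 : (1 : ℝ) ≤ n ^ 1303 := one_le_pow₀ (by linarith)
    have hx1 : 1 / (2 * (2 * n ^ 1303)) ≤ 1 := by
      rw [div_le_one (by positivity)]
      linarith
    have h2 := chain_geom (x := 1 / (2 * (2 * n ^ 1303))) (by positivity) hx1 (pT s)
    have h3 : n ≤ 1 + (pT s : ℝ) * (1 / (2 * (2 * n ^ 1303))) := by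
      rw [hT2]
      have e : n ^ 1310 * (1 / (2 * (2 * n ^ 1303))) = n * (n ^ 6 / 4) := by
        rw [show n ^ 1310 = n ^ 1303 * n ^ 7 by rw [← pow_add]]
        have : n ^ 1303 ≠ 0 := by positivity
        generalize n ^ 1303 = N at *
        field_simp
        ring
      have h4 : n ≤ n ^ 6 := le_self_pow₀ (by linarith) (by norm_num)
      rw [e]
      nlinarith
    have h5 : 0 ≤ (1 - 1 / (2 * (2 * n ^ 1303))) ^ pT s := pow_nonneg (by linarith) _
    generalize (1 - 1 / (2 * (2 * n ^ 1303))) ^ pT s = A at *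
    have h6 : A ≤ 1 / n := by
      rw [le_div_iff₀ hn0]
      exact (mul_le_mul_of_nonneg_left h3 h5).trans h2
    calc 8 / n + A ≤ 8 / n + 1 / n := by linarith
      _ = 9 / n := by ring
  · intro f hf
    obtain ⟨m, hm⟩ := weak_poincare hyp hR.1 hR.2 hT' (f := fun z => f (List.ofFn z))
      (fun z => hf _)
    refine ⟨m, ?_⟩
    have hd := H.dir_le_en hc hM1 hM hu f
    have hEn : 0 ≤ En (I.OmL s θ.1) (I.pit s θ) (r1 s) (I.step s θ) f :=
      Finset.sum_nonneg fun x _ => Finset.sum_nonneg fun y _ =>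
        mul_nonneg (mul_nonneg (pit_pos _ _).le (Pr_nonneg _ _)) (sq_nonneg _)
    have h1 : ∑ S ∈ I.OmL s θ.1, I.pit s θ S * (f S - m) ^ 2 ≤ 8 * I.Zt s θ.1 0 0 *
        ∑ z ∈ Om I.gr (rad s) (I.lo θ.1) (I.hi θ.1) I.dd,
          pstar I.gr (rad s) (I.aw s θ.1) z * (f (List.ofFn z) - m) ^ 2 := by
      rw [sum_OmL, Finset.mul_sum]
      refine Finset.sum_le_sum fun z hz => ?_
      rw [← mul_assoc]
      exact mul_le_mul_of_nonneg_right (H.pit_cmp hc hM0 hM hu hz).1 (sq_nonneg _)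
    have h2 : I.Zt s θ.1 0 0 * Dir (Om I.gr (rad s) (I.lo θ.1) (I.hi θ.1) I.dd) (I.mat θ.2.2)
        (pW s) (pstar I.gr (rad s) (I.aw s θ.1)) (fun z => f (List.ofFn z)) ≤
        8 * Dir (Om I.gr (rad s) (I.lo θ.1) (I.hi θ.1) I.dd) (I.mat θ.2.2) (pW s)
          (fun z => I.pit s θ (List.ofFn z)) (fun z => f (List.ofFn z)) := by
      unfold Dir
      simp only [Finset.mul_sum]
      refine Finset.sum_le_sum fun e _ => Finset.sum_le_sum fun j _ =>
        Finset.sum_le_sum fun z hz => ?_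
      split_ifs with h
      · rw [← mul_assoc, ← mul_assoc]
        refine mul_le_mul_of_nonneg_right ?_ (sq_nonneg _)
        rw [mul_min_of_nonneg _ _ hZ0, mul_min_of_nonneg _ _ (by norm_num : (0 : ℝ) ≤ 8)]
        exact min_le_min (H.pit_cmp hc hM0 hM hu hz).2 (H.pit_cmp hc hM0 hM hu h).2
      · simp
    generalize Dir (Om I.gr (rad s) (I.lo θ.1) (I.hi θ.1) I.dd) (I.mat θ.2.2)
      (pW s) (pstar I.gr (rad s) (I.aw s θ.1)) (fun z => f (List.ofFn z)) = D1 at *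
    generalize Dir (Om I.gr (rad s) (I.lo θ.1) (I.hi θ.1) I.dd) (I.mat θ.2.2) (pW s)
      (fun z => I.pit s θ (List.ofFn z)) (fun z => f (List.ofFn z)) = D2 at *
    generalize En (I.OmL s θ.1) (I.pit s θ) (r1 s) (I.step s θ) f = E at *
    generalize I.Zt s θ.1 0 0 = Z at *
    generalize ∑ S ∈ I.OmL s θ.1, I.pit s θ S = N at *
    generalize (pW s : ℝ) = n at *
    have hn0 : 0 < n := by linarith
    have e : n ^ 1303 = n ^ 1300 * n ^ 3 := by rw [← pow_add]
    have hQ : 0 < n ^ 1300 := by positivity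
    rw [e]
    generalize n ^ 1300 = Q at *
    calc _ ≤ _ := h1
      _ ≤ 8 * Z * (Q * D1 + 1 / n) := by gcongr
      _ = 8 * Q * (Z * D1) + 8 / n * Z := by ring
      _ ≤ 8 * Q * (8 * (16 * n ^ 2 * E)) + 8 / n * N := by
          have h3 : Z * D1 ≤ 8 * (16 * n ^ 2 * E) := by
            refine h2.trans (mul_le_mul_of_nonneg_left (hd.trans ?_) (by norm_num))
            exact mul_le_mul_of_nonneg_right hpow hEn
          exact add_le_add (mul_le_mul_of_nonneg_left h3 (by positivity))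
            (mul_le_mul_of_nonneg_left hsum (by positivity))
      _ = 1024 * (Q * n ^ 2 * E) + 8 / n * N := by ring
      _ ≤ (2 * n) * (Q * n ^ 2 * E) + 8 / n * N := by
          gcongr
          linarith
      _ = _ := by ring

end Inst

end Crest.Agent.R309
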