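import Crest.Agent.R309.Fibre

/-! Row 309: inequalities between class weights. -/

set_option autoImplicit false
set_option linter.unusedSectionVars false

namespace Crest.Agent.R309

open Finset

variable {V E : Type} [Fintype V] [DecidableEq V] [Fintype E] [DecidableEq E]

lemma class_sum_shift (G : Gr V E) {R : ℕ} {a : E → ℤ → ℝ} (ha : Adm R a) (c : V → ℤ) {S : E → ℤ}
    (hS : S ∈ box E R) (h : (E → ℤ) → ℝ) :
    ∑ X ∈ cls G R (c - G.div S), wt a X * h X =
      ∑ W ∈ cls G (2 * R) c, wt a (W - S) * h (W - S) := by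
  refine sum_of_injOn (fun X => X + S) (add_left_injective S).injOn ?_ ?_ ?_
  · intro X hX
    simp only [mem_coe, mem_cls, mem_box] at hX hS ⊢
    refine ⟨fun e => ?_, by rw [G.div_add, hX.2, sub_add_cancel]⟩
    have := abs_add_le (X e) (S e)
    have := hX.1 e
    have := hS e
    simp only [Pi.add_apply]
    push_cast
    linarith
  · intro W hW hn
    by_contra h0
    refine hn ⟨W - S, ?_, sub_add_cancel W S⟩
    rw [mem_coe, mem_cls, G.div_sub, (mem_cls.1 hW).2]
    exact ⟨ha.mem_box (left_ne_zero_of_mul h0), rfl⟩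
  · intro X _
    simp only [add_sub_cancel_right]

/-- Regroup pairs by their sum. -/
lemma sum_pair (G : Gr V E) {R : ℕ} {a : E → ℤ → ℝ} (ha : Adm R a) (c c' : V → ℤ)
    (h : (E → ℤ) → (E → ℤ) → ℝ) :
    ∑ N ∈ cls G R c, ∑ X ∈ cls G R c', wt a N * wt a X * h N X =
      ∑ W ∈ cls G (2 * R) (c + c'), ∑ N ∈ cls G R c, wt (rfl' a W) N * h N (W - N) := by
  rw [sum_comm (s := cls G (2 * R) (c + c'))]
  refine sum_congr rfl fun N hN => ?_
  obtain ⟨h1, h2⟩ := mem_cls.1 hN
  have := class_sum_shift G ha (c + c') h1 (h N)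
  rw [h2, add_sub_cancel_left] at this
  simp only [wt_rfl', mul_assoc, ← mul_sum, this]

lemma sum_wt_sub (G : Gr V E) {R : ℕ} {a : E → ℤ → ℝ} (ha : Adm R a) (c : V → ℤ) {S : E → ℤ}
    (hS : S ∈ box E R) :
    ∑ W ∈ cls G (2 * R) c, wt a (W - S) = Zc G R a (c - G.div S) := by
  have := class_sum_shift G ha c hS fun _ => 1
  simp only [mul_one] at this
  exact this.symm

/-- Reflection of a class sum. -/
lemma Sym.sum_reflect (G : Gr V E) {R : ℕ} {a : E → ℤ → ℝ} (ha : Adm R a) {W : E → ℤ}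
    (hs : Sym a W) (c : V → ℤ) (h : (E → ℤ) → ℝ) :
    ∑ z ∈ cls G R c, wt a z * h (W - z) = ∑ z ∈ cls G R (G.div W - c), wt a z * h z := by
  refine sum_bij_ne_zero (fun z _ _ => W - z) ?_ ?_ ?_ ?_
  · intro z hz h0
    rw [mem_cls, G.div_sub, (mem_cls.1 hz).2]
    exact ⟨ha.mem_box (by rw [hs.wt_eq]; exact left_ne_zero_of_mul h0), rfl⟩
  · intro z _ _ z' _ _ e
    exact sub_right_injective e
  · intro z hz h0
    refine ⟨W - z, ?_, ?_, sub_sub_cancel W z⟩
    · rw [mem_cls, G.div_sub, (mem_cls.1 hz).2, sub_sub_cancel]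
      exact ⟨ha.mem_box (by rw [hs.wt_eq]; exact left_ne_zero_of_mul h0), rfl⟩
    · rwa [hs.wt_eq, sub_sub_cancel]
  · intro z _ _
    rw [hs.wt_eq]

lemma Sym.Zc_reflect (G : Gr V E) {R : ℕ} {a : E → ℤ → ℝ} (ha : Adm R a) {W : E → ℤ}
    (hs : Sym a W) (c : V → ℤ) : Zc G R a c = Zc G R a (G.div W - c) := by
  simpa only [mul_one, Zc] using Sym.sum_reflect G ha hs c fun _ => 1

lemma class_Z_mul (G : Gr V E) {R : ℕ} {a : E → ℤ → ℝ} (ha : Adm R a) (c c' : V → ℤ) :
    Zc G R a c * Zc G R a c' = ∑ W ∈ cls G (2 * R) (c + c'), Zc G R (rfl' a W) c := by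
  have := sum_pair G ha c c' fun _ _ => 1
  simp only [mul_one] at this
  rw [Zc, Zc, sum_mul_sum, this]
  rfl

/-- `sum_pair` with `h = 1` on both sides and `central` for each `W`. -/
theorem Z_mul_le_sq (G : Gr V E) {R : ℕ} {a : E → ℤ → ℝ} (ha : Adm R a) (c : V → ℤ) {ρ : V → ℤ}
    (hρ : IsRt ρ) : Zc G R a (c + ρ) * Zc G R a (c - ρ) ≤ Zc G R a c ^ 2 := by
  rw [sq, class_Z_mul G ha, class_Z_mul G ha, show c + ρ + (c - ρ) = c + c by abel]
  exact sum_le_sum fun W hW => central G (ha.rfl' W) (sym_rfl' a W) (mem_cls.1 hW).2 hρ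

lemma class_exists_of_Zc {G : Gr V E} {R : ℕ} {a : E → ℤ → ℝ} {c : V → ℤ} (h : Zc G R a c ≠ 0) :
    ∃ z, G.div z = c ∧ wt a z ≠ 0 := by
  obtain ⟨z, hz, h0⟩ := exists_ne_zero_of_sum_ne_zero h
  exact ⟨z, (mem_cls.1 hz).2, h0⟩

/-- Log-concavity along a root direction (`LC.of_local`, `Z_mul_le_sq`; no internal zeros by
`exists_path_rt` and `Adm.wt_ne_zero_between`, one step at a time). -/
theorem lc_line (G : Gr V E) {R : ℕ} {a : E → ℤ → ℝ} (ha : Adm R a) (c : V → ℤ) {ρ : V → ℤ}
    (hρ : IsRt ρ) : LC (fun t : ℤ => Zc G R a (c + t • ρ)) := by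
  refine LC.of_local (fun _ => ha.Zc_nonneg G _) (fun t => ?_) fun x u y hx hy h1 h2 => ?_
  · have := Z_mul_le_sq G ha (c + t • ρ) hρ
    rwa [mul_comm, show c + t • ρ - ρ = c + (t - 1) • ρ by rw [sub_smul, one_smul]; abel,
      show c + t • ρ + ρ = c + (t + 1) • ρ by rw [add_smul, one_smul]; abel] at this
  · obtain ⟨i, j, rfl⟩ := hρ
    obtain ⟨Y, hY, hY0⟩ := class_exists_of_Zc hy
    induction u, h1 using Int.leInduction with
    | base => exact hx
    | succ u _ ih =>
      obtain ⟨X, hX, hX0⟩ := class_exists_of_Zc (ih (by omega))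
      obtain ⟨P, hP, hc⟩ := exists_path_rt G (Y - X) i j (y - u) (by omega)
        (by rw [G.div_sub, hX, hY, sub_smul]; abel)
      have h3 : wt a (X + P) ≠ 0 := ha.wt_ne_zero_between hX0 hY0 fun e => by
        have := hc e
        simp only [Pi.sub_apply, Pi.add_apply] at this ⊢
        omega
      have h4 := ha.wt_le_Zc G (X + P)
      rw [G.div_add, hX, hP,
        show c + u • rt i j + rt i j = c + (u + 1) • rt i j by rw [add_smul, one_smul]; abel] at h4
      exact (((ha.wt_nonneg _).lt_of_ne h3.symm).trans_le h4).ne'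

/-- The graph with one more edge from `i` to `j`. -/
def Gr.addEdge (G : Gr V E) (i j : V) : Gr V (Option E) :=
  ⟨fun o => o.elim i G.tl, fun o => o.elim j G.hd⟩

/-- The weights with the indicator of `{0, 1}` on the new edge. -/
noncomputable def addWt (a : E → ℤ → ℝ) : Option E → ℤ → ℝ :=
  fun o => o.elim (fun x => if 0 ≤ x ∧ x ≤ 1 then 1 else 0) a

lemma class_div_addEdge (G : Gr V E) (i j : V) (y : Option E → ℤ) :
    (G.addEdge i j).div y = y none • rt i j + G.div fun e => y (some e) := by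
  funext v
  simp [Gr.div, Gr.inc, Gr.addEdge, Fintype.sum_option, mul_comm]

lemma class_wt_addWt (a : E → ℤ → ℝ) (y : Option E → ℤ) :
    wt (addWt a) y = if 0 ≤ y none ∧ y none ≤ 1 then wt a fun e => y (some e) else 0 := by
  simp [wt, addWt, Fintype.prod_option]

lemma class_adm_addWt {R : ℕ} {a : E → ℤ → ℝ} (ha : Adm R a) : Adm (R + 1) (addWt a) := by
  refine ⟨fun o => ?_, fun o x hx => ?_⟩
  · cases o with
    | none => exact LC.one.restrict _ fun x u y hx hy h1 h2 => ⟨hx.1.trans h1, h2.trans hy.2⟩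
    | some e => exact ha.1 e
  · cases o with
    | none =>
      have : 0 ≤ x ∧ x ≤ 1 := by
        by_contra h
        exact hx (if_neg h)
      rw [abs_le]
      omega
    | some e =>
      have := ha.2 e x hx
      omega

lemma class_sum_addEdge (G : Gr V E) {R : ℕ} {a : E → ℤ → ℝ} (ha : Adm R a) (i j : V) (c : V → ℤ)
    {t : ℤ} (ht : 0 ≤ t ∧ t ≤ 1) :
    Zc G R a (c - t • rt i j) =
      ∑ y ∈ cls (G.addEdge i j) (R + 1) c, if y none = t then wt (addWt a) y else 0 := by
  refine sum_of_injOn (fun z o => o.elim t z) ?_ ?_ ?_ ?_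
  · intro z _ z' _ e
    exact funext fun x => congrFun e (some x)
  · intro z hz
    simp only [mem_coe, mem_cls, mem_box, class_div_addEdge, Option.elim_none,
      Option.elim_some] at hz ⊢
    refine ⟨fun o => ?_, by rw [hz.2, add_sub_cancel]⟩
    cases o with
    | none =>
      simp only [Option.elim_none, abs_le]
      omega
    | some e =>
      have := hz.1 e
      simp only [Option.elim_some]
      omega
  · intro y hy hn
    by_contra h0
    have h1 : y none = t := by
      by_contra h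
      exact h0 (if_neg h)
    rw [if_pos h1, class_wt_addWt, h1, if_pos ht] at h0
    refine hn ⟨fun e => y (some e), ?_, ?_⟩
    · rw [mem_coe, mem_cls, ← (mem_cls.1 hy).2, class_div_addEdge, h1, add_sub_cancel_left]
      exact ⟨ha.mem_box h0, rfl⟩
    · funext o
      cases o with
      | none => exact h1.symm
      | some e => rfl
  · intro z _
    simp [class_wt_addWt, ht]

lemma class_Zc_addEdge (G : Gr V E) {R : ℕ} {a : E → ℤ → ℝ} (ha : Adm R a) (i j : V) (c : V → ℤ) :
    Zc (G.addEdge i j) (R + 1) (addWt a) c = Zc G R a c + Zc G R a (c - rt i j) := by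
  have h0 := class_sum_addEdge G ha i j c (t := 0) ⟨le_rfl, zero_le_one⟩
  have h1 := class_sum_addEdge G ha i j c (t := 1) ⟨zero_le_one, le_rfl⟩
  rw [zero_smul, sub_zero] at h0
  rw [one_smul] at h1
  rw [h0, h1, ← sum_add_distrib]
  refine sum_congr rfl fun y _ => ?_
  rw [class_wt_addWt]
  split_ifs <;> first | omega | simp

/-- Add a virtual edge `none` from `i` to `j` (`ρ = rt i j`) with weight `1` on `{0, 1}` (edge type
`Option E`, radius `R + 1`; `Zc` does not depend on the radius once it contains the support).  The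
new weights are symmetric about `(W, 1)`, of divergence `2 (d + ρ)`, and
`Z* c = Z c + Z (c - ρ)`.  `central` gives `Z (d + ρ + ρ') + Z (d + ρ') ≤ Z (d + ρ) + Z d = 2 Z d`. -/
theorem Sym.Z_le_two (G : Gr V E) {R : ℕ} {a : E → ℤ → ℝ} (ha : Adm R a) {W : E → ℤ}
    (hs : Sym a W) {d ρ ρ' : V → ℤ} (hρ : IsRt ρ) (hρ' : IsRt ρ') (hW : G.div W = d + d + ρ) :
    Zc G R a (d + ρ') ≤ 2 * Zc G R a d := by
  obtain ⟨i, j, rfl⟩ := hρ
  have hs' : Sym (addWt a) fun o => o.elim 1 W := by
    intro o x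
    cases o with
    | none => exact if_congr (by simp only [Option.elim_none]; omega) rfl rfl
    | some e => exact hs e x
  have h1 := central (G.addEdge i j) (class_adm_addWt ha) hs' (d := d + rt i j)
    (by rw [class_div_addEdge]; simp only [Option.elim_none, Option.elim_some, hW, one_smul]; abel)
    hρ'
  have h2 := Sym.Zc_reflect G ha hs d
  rw [hW, show d + d + rt i j - d = d + rt i j by abel] at h2
  rw [class_Zc_addEdge G ha, class_Zc_addEdge G ha, add_sub_cancel_right,
    show d + rt i j + ρ' - rt i j = d + ρ' by abel, ← h2] at h1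
  linarith [ha.Zc_nonneg G (d + rt i j + ρ')]

/-- `sum_pair` on both sides and `Sym.Z_le_two` for each `W`. -/
theorem Z_mul_le_two (G : Gr V E) {R : ℕ} {a : E → ℤ → ℝ} (ha : Adm R a) (d : V → ℤ)
    {ρ ρ' : V → ℤ} (hρ : IsRt ρ) (hρ' : IsRt ρ') :
    Zc G R a (d + ρ') * Zc G R a (d + ρ - ρ') ≤ 2 * (Zc G R a (d + ρ) * Zc G R a d) := by
  rw [mul_comm (Zc G R a (d + ρ)), class_Z_mul G ha, class_Z_mul G ha, mul_sum,
    show d + ρ' + (d + ρ - ρ') = d + (d + ρ) by abel]
  exact sum_le_sum fun W hW => Sym.Z_le_two G (ha.rfl' W) (sym_rfl' a W) hρ hρ'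
    (by rw [(mem_cls.1 hW).2, add_assoc])

/-- The ends at `v` of the edges of `A` are moved to the new vertex. -/
def Gr.split (G : Gr V E) (v : V) (A : Finset E) : Gr (Option V) E :=
  ⟨fun e => if e ∈ A ∧ G.tl e = v then none else some (G.tl e),
    fun e => if e ∈ A ∧ G.hd e = v then none else some (G.hd e)⟩

lemma class_div_split_none (G : Gr V E) (v : V) (A : Finset E) (z : E → ℤ) :
    (G.split v A).div z none = G.gf v A z := by
  rw [Gr.gf, ← sum_ite_mem_eq, Gr.div]
  refine sum_congr rfl fun e _ => ?_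
  by_cases h : e ∈ A <;> simp [Gr.inc, Gr.split, rt, h]

lemma class_div_split_some (G : Gr V E) (v : V) (A : Finset E) (z : E → ℤ) (u : V) :
    (G.split v A).div z (some u) = G.div z u - if v = u then G.gf v A z else 0 := by
  by_cases hu : v = u
  · subst hu
    rw [if_pos rfl, Gr.gf, ← sum_ite_mem_eq, Gr.div, Gr.div, ← sum_sub_distrib]
    refine sum_congr rfl fun e _ => ?_
    by_cases h : e ∈ A <;> by_cases h1 : G.tl e = v <;> by_cases h2 : G.hd e = v <;>
      simp [Gr.inc, Gr.split, rt, h, h1, h2]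
  · rw [if_neg hu, sub_zero, Gr.div, Gr.div]
    refine sum_congr rfl fun e _ => ?_
    by_cases h : e ∈ A <;> by_cases h1 : G.tl e = v <;> by_cases h2 : G.hd e = v <;>
      simp [Gr.inc, Gr.split, rt, h, h1, h2, hu]

lemma class_Zc_split (G : Gr V E) (R : ℕ) (a : E → ℤ → ℝ) (v : V) (A : Finset E) (c : V → ℤ)
    (k : ℤ) : Zc (G.split v A) R a ((fun o => o.elim 0 c) + k • rt none (some v)) =
      ∑ z ∈ (cls G R c).filter (fun z => G.gf v A z = k), wt a z := by
  rw [Zc, cls, cls, filter_filter]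
  refine sum_congr (filter_congr fun z _ => ?_) fun _ _ => rfl
  simp only [funext_iff, Option.forall, class_div_split_none, class_div_split_some]
  simp only [rt, Pi.add_apply, Pi.smul_apply, Option.elim_none, Option.elim_some, if_true,
    reduceCtorEq, if_false, Option.some.injEq, smul_eq_mul, sub_zero, mul_one, zero_add]
  rw [and_comm]
  refine and_congr_left fun h => forall_congr' fun u => ?_
  rw [h]
  split_ifs <;> omega

/-- The law of the outflow at `v` through `A` on the union of the classes `d + ρ` and `d` is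
log-concave.  Split the vertex: vertices `Option V`, where the ends at `v` of the edges of `A` are
moved to `none`; edges `Option E`, where `none` is the virtual edge of `Sym.Z_le_two` from `some i`
to `some j`.  With `c₀ none = 0`, `c₀ (some u) = (d + ρ) u`, the function below is
`k ↦ Z* (c₀ + k • rt none (some v))`; apply `lc_line`. -/
theorem lc_marg (G : Gr V E) {R : ℕ} {a : E → ℤ → ℝ} (ha : Adm R a) (d : V → ℤ) {ρ : V → ℤ}
    (hρ : IsRt ρ) (v : V) (A : Finset E) :
    LC (fun k : ℤ => ∑ z ∈ (cls G R (d + ρ)).filter (fun z => G.gf v A z = k), wt a z +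
      ∑ z ∈ (cls G R d).filter (fun z => G.gf v A z = k), wt a z) := by
  obtain ⟨i, j, rfl⟩ := hρ
  have := lc_line ((G.split v A).addEdge (some i) (some j)) (class_adm_addWt ha)
    (fun o => o.elim 0 (d + rt i j)) ⟨none, some v, rfl⟩
  convert this using 2 with k
  rw [class_Zc_addEdge _ ha, ← class_Zc_split, ← class_Zc_split]
  congr 2
  funext o
  cases o
  · simp [rt]
  · simp only [Pi.add_apply, Pi.sub_apply, Option.elim_some, rt, Option.some.injEq]
    ring

/-- The law of one coordinate on a class is log-concave (`lc_marg` with `ρ = 0`, `A = {e}`). -/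
theorem lc_coord (G : Gr V E) {R : ℕ} {a : E → ℤ → ℝ} (ha : Adm R a) (d : V → ℤ) (e : E)
    (he : G.tl e ≠ G.hd e) :
    LC (fun k : ℤ => ∑ z ∈ (cls G R d).filter (fun z => z e = k), wt a z) := by
  have := lc_marg G ha d ⟨G.tl e, G.tl e, rfl⟩ (G.tl e) {e}
  simp only [rt_self, add_zero, G.gf_single_tl e he] at this
  refine ⟨fun k => sum_nonneg fun _ _ => ha.wt_nonneg _, fun x u v y h1 h2 h3 => ?_⟩
  have := this.2 x u v y h1 h2 h3
  simp only at this ⊢
  linarith

end Crest.Agent.R309
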