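import Crest.Agent.R309.Class

/-! Row 309: the level-`l` coupling `Gam`. All inductions are on `l`, generalizing the weights. -/

set_option autoImplicit false
set_option linter.unusedSectionVars false

namespace Crest.Agent.R309

open Finset

variable {V E : Type} [Fintype V] [DecidableEq V] [Fintype E] [DecidableEq E]
variable (G : Gr V E) {R : ℕ} (d ρ : V → ℤ)

lemma Gam_nonneg (l : ℕ) {a : E → ℤ → ℝ} (ha : Adm R a) (N X : E → ℤ) :
    0 ≤ Gam G R d ρ l a N X := by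
  induction l generalizing a with
  | zero =>
    simp only [Gam]
    split_ifs
    · exact mul_nonneg (ha.wt_nonneg _) (ha.wt_nonneg _)
    · exact le_rfl
  | succ l ih =>
    simp only [Gam]
    exact Finset.sum_nonneg fun W _ => div_nonneg (ih (ha.rfl' W)) ((ha.rfl' W).Zc_nonneg G d)

lemma Gam_ne_zero (l : ℕ) {a : E → ℤ → ℝ} {N X : E → ℤ} (h : Gam G R d ρ l a N X ≠ 0) :
    G.div N = d + ρ ∧ G.div X = d ∧ wt a N ≠ 0 ∧ wt a X ≠ 0 := by
  induction l generalizing a with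
  | zero =>
    simp only [Gam] at h
    split_ifs at h with hc
    · exact ⟨hc.1, hc.2, left_ne_zero_of_mul h, right_ne_zero_of_mul h⟩
    · exact absurd rfl h
  | succ l ih =>
    simp only [Gam] at h
    obtain ⟨W, -, hW⟩ := Finset.exists_ne_zero_of_sum_ne_zero h
    obtain ⟨h1, h2, h3, h4⟩ := ih (a := rfl' a W) (fun h0 => hW (by rw [h0, zero_div]))
    rw [wt_rfl'] at h3 h4
    exact ⟨h1, h2, left_ne_zero_of_mul h3, left_ne_zero_of_mul h4⟩

lemma GS_zero (a : E → ℤ → ℝ) (h : (E → ℤ) → (E → ℤ) → ℝ) :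
    GS G R d ρ 0 a h = ∑ N ∈ cls G R (d + ρ), ∑ X ∈ cls G R d, wt a N * wt a X * h N X := by
  simp only [GS, Gam, cls, Finset.sum_filter]
  refine Finset.sum_congr rfl fun N _ => ?_
  by_cases hN : G.div N = d + ρ
  · simp only [hN, true_and, if_true, ite_mul, zero_mul]
  · simp [hN]

/-- `GS_zero` and `sum_pair`. -/
lemma GS_zero' {a : E → ℤ → ℝ} (ha : Adm R a) (h : (E → ℤ) → (E → ℤ) → ℝ) :
    GS G R d ρ 0 a h = ∑ W ∈ cls G (2 * R) (d + d + ρ), ∑ N ∈ cls G R (d + ρ),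
      wt (rfl' a W) N * h N (W - N) := by
  rw [GS_zero, sum_pair G ha, show d + ρ + d = d + d + ρ by abel]

lemma GS_succ (l : ℕ) (a : E → ℤ → ℝ) (h : (E → ℤ) → (E → ℤ) → ℝ) :
    GS G R d ρ (l + 1) a h = ∑ W ∈ cls G (2 * R) (d + d + ρ),
      GS G R d ρ l (rfl' a W) h / Zc G R (rfl' a W) d := by
  simp only [GS, Gam, Finset.sum_mul, Finset.sum_div]
  rw [Finset.sum_comm (s := cls G (2 * R) (d + d + ρ))]
  refine Finset.sum_congr rfl fun N _ => ?_
  rw [Finset.sum_comm]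
  refine Finset.sum_congr rfl fun W _ => Finset.sum_congr rfl fun X _ => ?_
  ring

/-- Monotonicity; the comparison is only needed on the support. -/
lemma GS_mono (l : ℕ) {a : E → ℤ → ℝ} (ha : Adm R a) {h h' : (E → ℤ) → (E → ℤ) → ℝ}
    (hh : ∀ N X, G.div N = d + ρ → G.div X = d → wt a N ≠ 0 → wt a X ≠ 0 → h N X ≤ h' N X) :
    GS G R d ρ l a h ≤ GS G R d ρ l a h' := by
  refine Finset.sum_le_sum fun N _ => Finset.sum_le_sum fun X _ => ?_
  by_cases h0 : Gam G R d ρ l a N X = 0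
  · simp [h0]
  · obtain ⟨h1, h2, h3, h4⟩ := Gam_ne_zero G d ρ l h0
    exact mul_le_mul_of_nonneg_left (hh N X h1 h2 h3 h4) (Gam_nonneg G d ρ l ha N X)

lemma GS_add (l : ℕ) (a : E → ℤ → ℝ) (h h' : (E → ℤ) → (E → ℤ) → ℝ) :
    GS G R d ρ l a (fun N X => h N X + h' N X) = GS G R d ρ l a h + GS G R d ρ l a h' := by
  simp only [GS, mul_add, Finset.sum_add_distrib]

lemma GS_smul (l : ℕ) (a : E → ℤ → ℝ) (c : ℝ) (h : (E → ℤ) → (E → ℤ) → ℝ) :
    GS G R d ρ l a (fun N X => c * h N X) = c * GS G R d ρ l a h := by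
  simp only [GS, Finset.mul_sum, mul_left_comm]

lemma GS_sum (l : ℕ) (a : E → ℤ → ℝ) {ι : Type} (s : Finset ι)
    (h : ι → (E → ℤ) → (E → ℤ) → ℝ) :
    GS G R d ρ l a (fun N X => ∑ i ∈ s, h i N X) = ∑ i ∈ s, GS G R d ρ l a (h i) := by
  simp only [GS, Finset.mul_sum]
  rw [Finset.sum_comm (s := s)]
  refine Finset.sum_congr rfl fun N _ => ?_
  rw [Finset.sum_comm]

lemma couple_sum_zero {a : E → ℤ → ℝ} (ha : Adm R a) {c : V → ℤ} (hZ : Zc G R a c = 0)
    (h : (E → ℤ) → ℝ) : ∑ N ∈ cls G R c, wt a N * h N = 0 := by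
  refine Finset.sum_eq_zero fun N hN => ?_
  rw [(Finset.sum_eq_zero_iff_of_nonneg fun z _ => ha.wt_nonneg z).1 hZ N hN, zero_mul]

lemma couple_Z_eq {b : E → ℤ → ℝ} (hb : Adm R b) {W : E → ℤ} (hs : Sym b W)
    (hW : G.div W = d + d + ρ) : Zc G R b (d + ρ) = Zc G R b d := by
  rw [hs.Zc_reflect G hb (d + ρ), hW, show d + d + ρ - (d + ρ) = d by abel]

lemma couple_reflect {b : E → ℤ → ℝ} (hb : Adm R b) {W : E → ℤ} (hs : Sym b W)
    (hW : G.div W = d + d + ρ) (h : (E → ℤ) → ℝ) :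
    ∑ z ∈ cls G R (d + ρ), wt b z * h (W - z) = ∑ z ∈ cls G R d, wt b z * h z := by
  rw [hs.sum_reflect G hb (d + ρ), hW, show d + d + ρ - (d + ρ) = d by abel]

lemma couple_mul_div {S Z : ℝ} (h : Z = 0 → S = 0) : S * Z / Z = S := by
  by_cases hZ : Z = 0
  · rw [h hZ]; simp
  · field_simp

/-- First marginal.  Step: by induction the `W` term is
`(∑ N, a^W N * h N) * Z^W d / Z^W d`; when `Z^W d = 0` also `Z^W (d + ρ) = 0` (`Sym.Zc_reflect`), so
`a^W N = 0` on the class.  Then `GS_zero'` backwards. -/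
lemma GS_left (l : ℕ) {a : E → ℤ → ℝ} (ha : Adm R a) (h : (E → ℤ) → ℝ) :
    GS G R d ρ l a (fun N _ => h N) = (∑ N ∈ cls G R (d + ρ), wt a N * h N) * Zc G R a d := by
  have h0 : ∀ a : E → ℤ → ℝ, GS G R d ρ 0 a (fun N _ => h N) =
      (∑ N ∈ cls G R (d + ρ), wt a N * h N) * Zc G R a d := by
    intro a
    rw [GS_zero, Finset.sum_mul]
    refine Finset.sum_congr rfl fun N _ => ?_
    rw [Zc, Finset.mul_sum]
    exact Finset.sum_congr rfl fun X _ => by ring
  induction l generalizing a with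
  | zero => exact h0 a
  | succ l ih =>
    rw [GS_succ, ← h0, GS_zero' G d ρ ha]
    refine Finset.sum_congr rfl fun W hW => ?_
    rw [ih (ha.rfl' W)]
    refine couple_mul_div fun hZ => couple_sum_zero G (ha.rfl' W) ?_ _
    rw [couple_Z_eq G d ρ (ha.rfl' W) (sym_rfl' a W) (mem_cls.1 hW).2, hZ]

/-- Second marginal (use `Sym.sum_reflect`). -/
lemma GS_right (l : ℕ) {a : E → ℤ → ℝ} (ha : Adm R a) (h : (E → ℤ) → ℝ) :
    GS G R d ρ l a (fun _ X => h X) = (∑ X ∈ cls G R d, wt a X * h X) * Zc G R a (d + ρ) := by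
  have h0 : ∀ a : E → ℤ → ℝ, GS G R d ρ 0 a (fun _ X => h X) =
      (∑ X ∈ cls G R d, wt a X * h X) * Zc G R a (d + ρ) := by
    intro a
    rw [GS_zero, Finset.sum_comm, Finset.sum_mul]
    refine Finset.sum_congr rfl fun N _ => ?_
    rw [Zc, Finset.mul_sum]
    exact Finset.sum_congr rfl fun X _ => by ring
  induction l generalizing a with
  | zero => exact h0 a
  | succ l ih =>
    rw [GS_succ, ← h0, GS_zero' G d ρ ha]
    refine Finset.sum_congr rfl fun W hW => ?_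
    rw [ih (ha.rfl' W), couple_Z_eq G d ρ (ha.rfl' W) (sym_rfl' a W) (mem_cls.1 hW).2,
      couple_reflect G d ρ (ha.rfl' W) (sym_rfl' a W) (mem_cls.1 hW).2]
    exact couple_mul_div fun hZ => couple_sum_zero G (ha.rfl' W) hZ _

lemma couple_abs_inc (v : V) (e : E) : |G.inc v e| ≤ 1 := by
  simp only [Gr.inc, rt]
  split_ifs <;> simp

lemma couple_gf_le (v : V) (A : Finset E) (z : E → ℤ) (B : ℤ) (hz : ∀ e, |z e| ≤ B) :
    |G.gf v A z| ≤ A.card * B := by
  calc |G.gf v A z| ≤ ∑ e ∈ A, |G.inc v e * z e| := Finset.abs_sum_le_sum_abs _ _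
    _ ≤ ∑ _e ∈ A, B := Finset.sum_le_sum fun e _ => by
        rw [abs_mul]
        calc |G.inc v e| * |z e| ≤ 1 * |z e| :=
              mul_le_mul_of_nonneg_right (couple_abs_inc G v e) (abs_nonneg _)
          _ ≤ B := by rw [one_mul]; exact hz e
    _ = A.card * B := by simp

lemma couple_gf_box (v : V) (A : Finset E) {z : E → ℤ} (hz : z ∈ box E R) :
    |G.gf v A z| ≤ ((Fintype.card E * R : ℕ) : ℤ) := by
  refine (couple_gf_le G v A z R (mem_box.1 hz)).trans ?_
  push_cast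
  exact mul_le_mul_of_nonneg_right (by exact_mod_cast Finset.card_le_univ A) (by positivity)

lemma couple_fiber (b : E → ℤ → ℝ) (c : V → ℤ) (v : V) (A : Finset E) (F : ℤ → ℝ) :
    ∑ k ∈ Icc (-((Fintype.card E * R : ℕ) : ℤ)) ((Fintype.card E * R : ℕ) : ℤ),
      (∑ z ∈ (cls G R c).filter (fun z => G.gf v A z = k), wt b z) * F k =
      ∑ z ∈ cls G R c, wt b z * F (G.gf v A z) := by
  rw [← Finset.sum_fiberwise_of_maps_to (s := cls G R c) (g := G.gf v A)
    (t := Icc (-((Fintype.card E * R : ℕ) : ℤ)) ((Fintype.card E * R : ℕ) : ℤ))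
    (fun z hz => Finset.mem_Icc.2 (abs_le.1 (couple_gf_box G v A (mem_cls.1 hz).1)))]
  refine Finset.sum_congr rfl fun k _ => ?_
  rw [Finset.sum_mul]
  exact Finset.sum_congr rfl fun z hz => by rw [(Finset.mem_filter.1 hz).2]

/-- One step of the contraction, for weights `b` symmetric about `W / 2`.  Let `μ k`, `μ' k` be the
weights of `{g = k}` in the classes `d + ρ`, `d`, and `g₀ = g W`; `μ' k = μ (g₀ - k)`
(`Sym.sum_reflect`), `ν = μ + μ'` is log-concave (`lc_marg`) and symmetric about `g₀ / 2`, supported in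
`|k| ≤ card E * R`.  `LC.psi_contract` for `ν`: `∑ ν = 2 Z`, `∑ ν k ψ (2k - g₀) = 2 ∑ μ k ψ (2k - g₀)`,
and `∑∑ ν ν ψ ≥ 2 ∑∑ μ μ' ψ` (drop two of four nonnegative terms), with `4` instead of `2` when
`ρ = 0` (then `μ = μ'`). -/
lemma psi_step {b : E → ℤ → ℝ} (hb : Adm R b) (hρ : IsRt ρ) {W : E → ℤ} (hs : Sym b W)
    (hW : G.div W = d + d + ρ) (v : V) (A : Finset E) :
    GS G R d ρ 0 b (fun N X => psi (G.gf v A (N - X))) ≤
      (if ρ = 0 then 1 / 3 else 2 / 3 : ℝ) * Zc G R b d *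
        ∑ N ∈ cls G R (d + ρ), wt b N * psi (G.gf v A (N - (W - N))) := by
  set μ : (V → ℤ) → ℤ → ℝ := fun c k => ∑ z ∈ (cls G R c).filter (fun z => G.gf v A z = k), wt b z
    with hμ
  set I := Icc (-((Fintype.card E * R : ℕ) : ℤ)) ((Fintype.card E * R : ℕ) : ℤ) with hI
  have hfib : ∀ c (F : ℤ → ℝ), ∑ k ∈ I, μ c k * F k = ∑ z ∈ cls G R c, wt b z * F (G.gf v A z) :=
    fun c F => couple_fiber G b c v A F
  have hμ0 : ∀ c k, 0 ≤ μ c k := fun c k => Finset.sum_nonneg fun z _ => hb.wt_nonneg z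
  have hμi : ∀ c k, μ c k = ∑ z ∈ cls G R c, wt b z * (if G.gf v A z = k then 1 else 0) := by
    intro c k
    simp only [hμ, Finset.sum_filter, mul_ite, mul_one, mul_zero]
  have hsym : ∀ k, μ d k = μ (d + ρ) (G.gf v A W - k) := by
    intro k
    rw [hμi, hμi, ← couple_reflect G d ρ hb hs hW (fun z => if G.gf v A z = k then 1 else 0)]
    refine Finset.sum_congr rfl fun z _ => ?_
    rw [G.gf_sub]
    congr 1
    exact if_congr (by omega) rfl rfl
  have key := (lc_marg G hb d hρ v A).psi_contract (W := G.gf v A W) (fun x => by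
      change μ (d + ρ) x + μ d x = μ (d + ρ) (G.gf v A W - x) + μ d (G.gf v A W - x)
      rw [hsym x, hsym (G.gf v A W - x), sub_sub_cancel, add_comm])
    (R := Fintype.card E * R) (fun x hx => by
      by_contra hcon
      apply hx
      have : ∀ c, μ c x = 0 := fun c => Finset.sum_eq_zero fun z hz => by
        exfalso
        have h1 := couple_gf_box G v A (mem_cls.1 (Finset.mem_filter.1 hz).1).1
        rw [(Finset.mem_filter.1 hz).2] at h1
        exact hcon h1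
      change μ (d + ρ) x + μ d x = 0
      rw [this, this, add_zero])
  change ∑ k ∈ I, ∑ k' ∈ I, (μ (d + ρ) k + μ d k) * (μ (d + ρ) k' + μ d k') * psi (k - k') ≤
    1 / 3 * (∑ k ∈ I, (μ (d + ρ) k + μ d k)) *
      ∑ k ∈ I, (μ (d + ρ) k + μ d k) * psi (2 * k - G.gf v A W) at key
  set T := ∑ N ∈ cls G R (d + ρ), wt b N * psi (G.gf v A (N - (W - N))) with hT
  have h1 : ∑ k ∈ I, (μ (d + ρ) k + μ d k) = 2 * Zc G R b d := by
    have e1 := hfib (d + ρ) (fun _ => 1)
    have e2 := hfib d (fun _ => 1)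
    simp only [mul_one] at e1 e2
    rw [Finset.sum_add_distrib, e1, e2]
    change Zc G R b (d + ρ) + Zc G R b d = _
    rw [couple_Z_eq G d ρ hb hs hW]; ring
  have h2 : ∑ k ∈ I, (μ (d + ρ) k + μ d k) * psi (2 * k - G.gf v A W) = 2 * T := by
    simp only [add_mul, Finset.sum_add_distrib]
    rw [hfib (d + ρ) (fun k => psi (2 * k - G.gf v A W)),
      hfib d (fun k => psi (2 * k - G.gf v A W)),
      ← couple_reflect G d ρ hb hs hW (fun z => psi (2 * G.gf v A z - G.gf v A W)), hT, two_mul]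
    congr 1
    · refine Finset.sum_congr rfl fun z _ => ?_
      rw [G.gf_sub, G.gf_sub]; congr 2; ring
    · refine Finset.sum_congr rfl fun z _ => ?_
      rw [G.gf_sub, G.gf_sub, G.gf_sub, ← psi_neg]; congr 2; ring
  set S : (V → ℤ) → (V → ℤ) → ℝ := fun c c' => ∑ k ∈ I, ∑ k' ∈ I, μ c k * μ c' k' * psi (k - k')
    with hS
  have hS0 : ∀ c c', 0 ≤ S c c' := fun c c' => Finset.sum_nonneg fun k _ =>
    Finset.sum_nonneg fun k' _ => mul_nonneg (mul_nonneg (hμ0 _ _) (hμ0 _ _)) (psi_nonneg _)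
  have hSs : S d (d + ρ) = S (d + ρ) d := by
    simp only [hS]
    rw [Finset.sum_comm]
    refine Finset.sum_congr rfl fun k _ => Finset.sum_congr rfl fun k' _ => ?_
    rw [← psi_neg, neg_sub]; ring
  have h3 : ∑ k ∈ I, ∑ k' ∈ I, (μ (d + ρ) k + μ d k) * (μ (d + ρ) k' + μ d k') * psi (k - k') =
      S (d + ρ) (d + ρ) + S (d + ρ) d + S d (d + ρ) + S d d := by
    simp only [hS, ← Finset.sum_add_distrib]
    exact Finset.sum_congr rfl fun k _ => Finset.sum_congr rfl fun k' _ => by ring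
  have h4 : GS G R d ρ 0 b (fun N X => psi (G.gf v A (N - X))) = S (d + ρ) d := by
    rw [GS_zero]
    simp only [hS, mul_assoc, ← Finset.mul_sum]
    rw [hfib (d + ρ) (fun k => ∑ k' ∈ I, μ d k' * psi (k - k'))]
    refine Finset.sum_congr rfl fun N _ => ?_
    rw [hfib d (fun k' => psi (G.gf v A N - k'))]
    simp only [G.gf_sub]
  rw [h1, h2, h3, hSs] at key
  rw [h4]
  split_ifs with h0
  · subst h0
    simp only [add_zero] at key ⊢
    linarith
  · have := hS0 (d + ρ) (d + ρ)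
    have := hS0 d d
    linarith

/-- Contraction of the potential (`GS_succ`, induction hypothesis, `psi_step`, `GS_zero'`). -/
theorem GS_psi (l : ℕ) {a : E → ℤ → ℝ} (ha : Adm R a) (hρ : IsRt ρ) (v : V) (A : Finset E) :
    GS G R d ρ l a (fun N X => psi (G.gf v A (N - X))) ≤
      (if ρ = 0 then 1 / 3 else 2 / 3 : ℝ) ^ l *
        GS G R d ρ 0 a (fun N X => psi (G.gf v A (N - X))) := by
  have hc : (0 : ℝ) ≤ (if ρ = 0 then 1 / 3 else 2 / 3 : ℝ) := by split_ifs <;> norm_num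
  induction l generalizing a with
  | zero => simp
  | succ l ih =>
    rw [GS_succ, GS_zero' G d ρ ha, Finset.mul_sum]
    refine Finset.sum_le_sum fun W hW => ?_
    have h1 := ih (ha.rfl' W)
    have h2 := psi_step G d ρ (ha.rfl' W) hρ (sym_rfl' a W) (mem_cls.1 hW).2 v A
    have hT : 0 ≤ ∑ N ∈ cls G R (d + ρ), wt (rfl' a W) N * psi (G.gf v A (N - (W - N))) :=
      Finset.sum_nonneg fun N _ => mul_nonneg ((ha.rfl' W).wt_nonneg _) (psi_nonneg _)
    refine div_le_of_le_mul₀ ((ha.rfl' W).Zc_nonneg G d) (by positivity) (h1.trans ?_)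
    calc _ ≤ _ := mul_le_mul_of_nonneg_left h2 (pow_nonneg hc l)
      _ = _ := by ring

lemma couple_var {a : E → ℤ → ℝ} (ha : Adm R a) (f : (E → ℤ) → ℝ) :
    2 * (∑ X ∈ cls G R d, wt a X *
        (f X - (∑ Y ∈ cls G R d, wt a Y * f Y) / Zc G R a d) ^ 2) * Zc G R a d =
      GS G R d 0 0 a (fun N X => (f N - f X) ^ 2) := by
  rw [GS_zero, add_zero]
  set S1 := ∑ Y ∈ cls G R d, wt a Y * f Y with hS1
  set S2 := ∑ Y ∈ cls G R d, wt a Y * f Y ^ 2 with hS2
  have hZ : Zc G R a d = ∑ Y ∈ cls G R d, wt a Y := rfl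
  have h1 : ∀ m : ℝ, ∑ X ∈ cls G R d, wt a X * (f X - m) ^ 2 =
      S2 - 2 * m * S1 + m ^ 2 * Zc G R a d := by
    intro m
    rw [hS1, hS2, hZ, Finset.mul_sum, Finset.mul_sum, ← Finset.sum_sub_distrib,
      ← Finset.sum_add_distrib]
    exact Finset.sum_congr rfl fun X _ => by ring
  have h2 : ∑ N ∈ cls G R d, ∑ X ∈ cls G R d, wt a N * wt a X * (f N - f X) ^ 2 =
      2 * S2 * Zc G R a d - 2 * S1 ^ 2 := by
    have : ∀ N, ∑ X ∈ cls G R d, wt a N * wt a X * (f N - f X) ^ 2 =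
        S2 * wt a N - 2 * S1 * (wt a N * f N) + Zc G R a d * (wt a N * f N ^ 2) := by
      intro N
      have h3 := h1 (f N)
      calc _ = wt a N * ∑ X ∈ cls G R d, wt a X * (f X - f N) ^ 2 := by
            rw [Finset.mul_sum]; exact Finset.sum_congr rfl fun X _ => by ring
        _ = _ := by rw [h3]; ring
    simp only [this, Finset.sum_add_distrib, Finset.sum_sub_distrib, ← Finset.mul_sum]
    rw [← hS1, ← hS2, ← hZ]; ring
  rw [h1, h2]
  by_cases h0 : Zc G R a d = 0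
  · have : S1 = 0 := couple_sum_zero G ha h0 f
    rw [h0, this]; ring
  · field_simp
    ring

/-- Each level costs a factor two.  Step, for `b = a^W`, `Z = Z^W d`, `m` the `b`-mean of `f`:
`∑ b N (f N - f (W - N))² ≤ 4 ∑ b N (f N - m)² = 2 GS 0 b / Z`. -/
theorem GS_sq (l : ℕ) {a : E → ℤ → ℝ} (ha : Adm R a) (f : (E → ℤ) → ℝ) :
    GS G R d 0 0 a (fun N X => (f N - f X) ^ 2) ≤
      2 ^ l * GS G R d 0 l a (fun N X => (f N - f X) ^ 2) := by
  induction l generalizing a with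
  | zero => simp
  | succ l ih =>
    rw [GS_succ, GS_zero' G d 0 ha, Finset.mul_sum]
    refine Finset.sum_le_sum fun W hW => ?_
    have hb := ha.rfl' W
    have h1 := ih hb
    have h2 := couple_var G d hb f
    have h3 := couple_reflect G d 0 hb (sym_rfl' a W) (mem_cls.1 hW).2
      (fun X => (f X - (∑ Y ∈ cls G R d, wt (rfl' a W) Y * f Y) / Zc G R (rfl' a W) d) ^ 2)
    rw [add_zero] at h3 ⊢
    set m := (∑ Y ∈ cls G R d, wt (rfl' a W) Y * f Y) / Zc G R (rfl' a W) d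
    set Q := ∑ X ∈ cls G R d, wt (rfl' a W) X * (f X - m) ^ 2 with hQ
    have h4 : ∑ N ∈ cls G R d, wt (rfl' a W) N * (f N - f (W - N)) ^ 2 ≤ 4 * Q := by
      calc _ ≤ ∑ N ∈ cls G R d, (2 * (wt (rfl' a W) N * (f N - m) ^ 2) +
            2 * (wt (rfl' a W) N * (f (W - N) - m) ^ 2)) := Finset.sum_le_sum fun N _ => by
              have := hb.wt_nonneg N
              nlinarith [mul_nonneg this (sq_nonneg (f N + f (W - N) - 2 * m))]
        _ = 4 * Q := by
            rw [Finset.sum_add_distrib, ← Finset.mul_sum, ← Finset.mul_sum, h3]; ring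
    rcases (hb.Zc_nonneg G d).eq_or_lt with h0 | h0
    · rw [couple_sum_zero G hb h0.symm, ← h0, div_zero, mul_zero]
    · refine h4.trans ?_
      rw [← mul_div_assoc, le_div_iff₀ h0, pow_succ]
      linarith

/-- The variance about the mean is half the pair energy. -/
lemma var_mul_Z {a : E → ℤ → ℝ} (ha : Adm R a) (f : (E → ℤ) → ℝ) :
    2 * (∑ X ∈ cls G R d, wt a X *
        (f X - (∑ Y ∈ cls G R d, wt a Y * f Y) / Zc G R a d) ^ 2) * Zc G R a d =
      GS G R d 0 0 a (fun N X => (f N - f X) ^ 2) := by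
  exact couple_var G d ha f

/-- Markov: `[¬ Good D] ≤ ∑ v e e', ψ (gf v {e, e'} D) / 12`, `GS_psi`, and at level zero
`|gf v {e, e'} (N - X)| ≤ 2 w` on the support (`|inc| ≤ 1`). -/
theorem GS_notGood (l : ℕ) {a : E → ℤ → ℝ} (ha : Adm R a) (hρ : IsRt ρ) {w : ℕ} (hw : Wid a w) :
    GS G R d ρ l a (fun N X => if Good G (N - X) then 0 else 1) ≤
      (if ρ = 0 then 1 / 3 else 2 / 3 : ℝ) ^ l *
        (Fintype.card V * Fintype.card E ^ 2 * (2 * w) ^ 4) * (Zc G R a (d + ρ) * Zc G R a d) := by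
  have hc : (0 : ℝ) ≤ (if ρ = 0 then 1 / 3 else 2 / 3 : ℝ) := by split_ifs <;> norm_num
  have h1 : GS G R d ρ l a (fun N X => if Good G (N - X) then 0 else 1) ≤
      GS G R d ρ l a (fun N X => ∑ p : V × E × E, psi (G.gf p.1 {p.2.1, p.2.2} (N - X))) := by
    refine GS_mono G d ρ l ha fun N X _ _ _ _ => ?_
    split_ifs with hg
    · exact Finset.sum_nonneg fun p _ => psi_nonneg _
    · simp only [Good, not_forall, not_le] at hg
      obtain ⟨v, e, e', h⟩ := hg
      have h2 := (psi_ge h).2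
      have h3 := Finset.single_le_sum (s := univ)
        (f := fun p : V × E × E => psi (G.gf p.1 {p.2.1, p.2.2} (N - X)))
        (fun p _ => psi_nonneg _) (mem_univ (v, e, e'))
      simp only at h3
      linarith
  have h2 : ∀ p : V × E × E,
      GS G R d ρ l a (fun N X => psi (G.gf p.1 {p.2.1, p.2.2} (N - X))) ≤
        (if ρ = 0 then 1 / 3 else 2 / 3 : ℝ) ^ l *
          ((2 * w) ^ 4 * (Zc G R a (d + ρ) * Zc G R a d)) := by
    intro p
    refine (GS_psi G d ρ l ha hρ p.1 _).trans (mul_le_mul_of_nonneg_left ?_ (pow_nonneg hc l))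
    calc _ ≤ GS G R d ρ 0 a (fun _ _ => (2 * w : ℝ) ^ 4) := by
          refine GS_mono G d ρ 0 ha fun N X _ _ hN hX => psi_le ?_
          have h3 := couple_gf_le G p.1 {p.2.1, p.2.2} (N - X) w
            (fun e => hw e _ _ (wt_ne_zero.1 hN e) (wt_ne_zero.1 hX e))
          have h4 : ((({p.2.1, p.2.2} : Finset E).card : ℤ)) * w ≤ 2 * w :=
            mul_le_mul_of_nonneg_right (by exact_mod_cast Finset.card_le_two) (by positivity)
          exact_mod_cast h3.trans h4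
      _ = _ := by
          rw [GS_left G d ρ 0 ha (fun _ => (2 * w : ℝ) ^ 4), ← Finset.sum_mul]
          change Zc G R a (d + ρ) * _ * _ = _
          ring
  refine h1.trans ?_
  rw [GS_sum G d ρ l a univ
    (fun (p : V × E × E) N X => psi (G.gf p.1 {p.2.1, p.2.2} (N - X)))]
  refine (Finset.sum_le_sum fun p _ => h2 p).trans (le_of_eq ?_)
  simp only [Finset.sum_const, Finset.card_univ, Fintype.card_prod, nsmul_eq_mul]
  push_cast
  ring

end Crest.Agent.R309
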