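import Crest.Agent.R309.Sample

/-! Row 309: one stage of the annealing succeeds with high probability. -/

set_option autoImplicit false

namespace Crest.Agent.R309

open Finset Crest.Agent.Lib.PT

/-- Empirical means of approximately distributed samples: `chebyshev` with `t = s ^ (-14)` and
`|E Y - μ| ≤ 2 / s ^ 52`, `μ ≥ s ^ (-3)`. -/
lemma rel_estimate {α : Type} {s m : ℕ} (hs : 100 ≤ s) {X : List Bool → α} {Ω : Finset α}
    {π : α → ℝ} (hN : Near (fun φ => Ex m fun ω => φ (X ω)) Ω π (2 / (s : ℝ) ^ 52)) {Y : α → ℝ}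
    (hY : Unit01 Y) (hμ : 1 / (s : ℝ) ^ 3 ≤ avg Ω π Y) :
    Pr (pN s * m) (fun ω => 2 / (s : ℝ) ^ 11 * avg Ω π Y <
      |(((chunks (pN s) m ω).map X).map Y).sum / pN s - avg Ω π Y|) ≤ 1 / (s : ℝ) ^ 12 := by
  have hs' : (100 : ℝ) ≤ s := by exact_mod_cast hs
  have hs0 : (0 : ℝ) < s := by linarith
  have hs1 : (1 : ℝ) ≤ s := by linarith
  have hn : 0 < pN s := by unfold pN; positivity
  have hE := hN Y hY
  simp only at hE
  have hc := chebyshev (pN s) m hn (Y := fun ω => Y (X ω)) (fun ω => hY (X ω))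
    (t := 1 / (s : ℝ) ^ 14) (by positivity)
  have e : 1 / ((pN s : ℝ) * (1 / (s : ℝ) ^ 14) ^ 2) = 1 / (s : ℝ) ^ 12 := by
    unfold pN
    push_cast
    field_simp
  rw [e] at hc
  refine le_trans (Pr_mono fun ω _ h => ?_) hc
  rw [List.map_map] at h
  have h1 : 2 / (s : ℝ) ^ 14 ≤ 2 / (s : ℝ) ^ 11 * avg Ω π Y := by
    calc 2 / (s : ℝ) ^ 14 = 2 / (s : ℝ) ^ 11 * (1 / (s : ℝ) ^ 3) := by field_simp
      _ ≤ _ := by gcongr
  have h2 : 2 / (s : ℝ) ^ 52 ≤ 1 / (s : ℝ) ^ 14 := by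
    rw [div_le_div_iff₀ (by positivity) (by positivity)]
    have h3 : (s : ℝ) ≤ (s : ℝ) ^ 38 := le_self_pow₀ hs1 (by norm_num)
    calc 2 * (s : ℝ) ^ 14 ≤ (s : ℝ) ^ 38 * (s : ℝ) ^ 14 := by gcongr; linarith
      _ = 1 * (s : ℝ) ^ 52 := by ring
  have h4 := abs_sub_le (((chunks (pN s) m ω).map (Y ∘ X)).sum / pN s)
    (Ex m fun ω => Y (X ω)) (avg Ω π Y)
  have h5 : 2 / (s : ℝ) ^ 14 = 2 * (1 / (s : ℝ) ^ 14) := by ring
  change 1 / (s : ℝ) ^ 14 ≤ |((chunks (pN s) m ω).map (Y ∘ X)).sum / pN s - Ex m fun ω => Y (X ω)|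
  linarith

lemma estim_ratio {x y a b ε : ℝ} (ha : 0 ≤ a) (hb : 0 < b) (hε0 : 0 ≤ ε) (hε : ε ≤ 1 / 2)
    (hx : |x - a| ≤ ε * a) (hy : |y - b| ≤ ε * b) : |x / y - a / b| ≤ 4 * ε * (a / b) := by
  obtain ⟨hx1, hx2⟩ := abs_le.1 hx
  obtain ⟨hy1, hy2⟩ := abs_le.1 hy
  have hy0 : b / 2 ≤ y := by nlinarith
  have hy' : 0 < y := by linarith
  have e : x / y - a / b = (x * b - a * y) / (y * b) := by field_simp
  rw [e, abs_div, abs_of_pos (mul_pos hy' hb), div_le_iff₀ (mul_pos hy' hb)]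
  have e2 : 4 * ε * (a / b) * (y * b) = 4 * ε * a * y := by field_simp
  rw [e2]
  have h1 : |x * b - a * y| ≤ 2 * ε * a * b := by
    rw [abs_le]
    constructor <;> nlinarith
  have h2 : 0 ≤ ε * a := mul_nonneg hε0 ha
  nlinarith

lemma estim_two_pow {s : ℕ} (hs : 100 ≤ s) : 2 * s ^ 52 ≤ 2 ^ (s ^ 2) := by
  calc 2 * s ^ 52 ≤ 2 * (2 ^ s) ^ 52 := by
        gcongr
        exact Nat.lt_two_pow_self.le
    _ = 2 ^ (s * 52 + 1) := by rw [← pow_mul, pow_succ, mul_comm]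
    _ ≤ 2 ^ (s ^ 2) := Nat.pow_le_pow_right (by norm_num) (by nlinarith)

namespace Inst

variable {I : Inst} {s : ℕ}

/-- For `M' ≤ M` and `valid M' S`: `yv / 2 ^ pA = atw M' S / atw M S` (`hh_mono`, `hh_le`). -/
lemma Sz.avg_yv (H : I.Sz s) {θ : Th} (hM : θ.1 ≤ pM0 s) {M' : ℕ} (hM' : M' ≤ θ.1) {i j : ℕ}
    (hi : i < I.nv) (hj : j < I.nv) :
    avg (I.OmL s θ.1) (I.pit s θ)
        (fun S => ((if I.isCls S i j then I.yv s θ.1 M' S else 0 : ℕ) : ℝ) / 2 ^ pA s) =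
      (if i = j then 1 else (2 : ℝ) ^ (θ.2.1.getD i []).getD j 0) * I.Zt s M' i j /
        ∑ S ∈ I.OmL s θ.1, I.pit s θ S := by
  unfold avg
  congr 1
  have hsub : (I.OmL s M').filter (fun S => I.isCls S i j = true) =
      (I.OmL s θ.1).filter (fun S => I.isCls S i j = true ∧ I.valid M' S = true) := by
    ext S
    simp only [Finset.mem_filter, H.mem_OmL hM, H.mem_OmL (hM'.trans hM)]
    exact ⟨fun h => ⟨valid_mono hM' h.1, h.2, h.1⟩, fun h => ⟨h.2.2, h.2.1⟩⟩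
  rw [Zt, hsub, Finset.sum_filter, Finset.mul_sum]
  refine Finset.sum_congr rfl fun S _ => ?_
  by_cases h1 : I.isCls S i j = true
  swap
  · simp [h1]
  by_cases h2 : I.valid M' S = true
  swap
  · simp [h1, h2, yv]
  have hu : (2 : ℝ) ^ I.uu θ.2.1 S = if i = j then 1 else (2 : ℝ) ^ (θ.2.1.getD i []).getD j 0 := by
    split_ifs with hij
    · subst hij
      rw [isCls_self] at h1
      rw [uu_of_isCls_zero h1, zpow_zero]
    · rw [uu_of_isCls hi hj hij h1]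
  have hm := hh_mono (s := s) hM' h2
  have hl : I.hh s M' S ≤ pA s := by
    refine (hh_le h2).trans ?_
    have hp : I.p ≤ s := le_trans (Nat.le_succ _) H.nv_le
    calc pJ s * I.p ≤ 40 * s ^ 4 * s := Nat.mul_le_mul_left _ hp
      _ = 40 * s ^ 5 := by ring
      _ ≤ pA s := Nat.mul_le_mul_right _ (by norm_num)
  beta_reduce
  rw [pit_eq, hu, if_pos h1, if_pos (show I.isCls S i j = true ∧ I.valid M' S = true from ⟨h1, h2⟩),
    mul_assoc]
  congr 1
  obtain ⟨d, hd⟩ := Nat.exists_eq_add_of_le hm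
  obtain ⟨e, he⟩ := Nat.exists_eq_add_of_le hl
  rw [yv, if_pos h2, atw, atw, he, hd, Nat.add_sub_cancel_left,
    show I.hh s θ.1 S + d + e - d = I.hh s θ.1 S + e by omega]
  push_cast
  field_simp
  ring

lemma Sz.avg_bc (H : I.Sz s) {θ : Th} (hM : θ.1 ≤ pM0 s) :
    avg (I.OmL s θ.1) (I.pit s θ)
        (fun S => if (I.valid θ.1 S && I.isCls S 0 0) = true then 1 else 0) =
      I.Zt s θ.1 0 0 / ∑ S ∈ I.OmL s θ.1, I.pit s θ S := by
  unfold avg
  congr 1
  rw [Zt, Finset.sum_filter]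
  refine Finset.sum_congr rfl fun S hS => ?_
  have h0 := (H.mem_OmL hM S).1 hS
  by_cases h1 : I.isCls S 0 0 = true
  · simp [h0, h1, pit_eq, uu_of_isCls_zero h1]
  · simp [h1]

lemma Sz.estim_Zt_pos (H : I.Sz s) (hc : 0 < I.cnt) {M : ℕ} (hM0 : 0 < M) (hM : M ≤ pM0 s) {i j : ℕ}
    (hi : i < I.nv) (hj : j < I.nv) : 0 < I.Zt s M i j :=
  lt_of_lt_of_le (by positivity) (H.Zt_ge hc hM0 hM hi hj)

lemma Sz.estim_Mt_pos (H : I.Sz s) (t : ℕ) : 0 < Mt s t := by
  have h1 := le_Mt H.big t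
  have h2 : 2 ≤ pP s := by
    have := H.big
    unfold pP
    nlinarith
  omega

open Classical in
/-- Typical states cost a factor two (`typ_next`, `badR_mass`, `Zt_mono`), atypical ones have mass
`≤ 2 ^ (-s²)` (`atyp_mass`); `sum_pit`. -/
lemma Sz.avg_badR (H : I.Sz s) (hc : 0 < I.cnt) {t : ℕ} {θ : Th} (hθ : I.GoodTh s t θ) :
    avg (I.OmL s θ.1) (I.pit s θ) (fun S => if I.valid (cool s θ.1) S = true ∧
      I.isCls S 0 0 = true ∧ ¬ I.GoodR s (cool s θ.1) S then 1 else 0) ≤ 1 / (s : ℝ) ^ 52 := by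
  obtain ⟨hM, hu, -⟩ := hθ
  have hs' : (100 : ℝ) ≤ s := by exact_mod_cast H.big
  have hs0 : (0 : ℝ) < s := by linarith
  have hs1 : (1 : ℝ) ≤ s := by linarith
  have hnv : 0 < I.nv := Nat.succ_pos _
  have hM0 : 0 < θ.1 := hM ▸ H.estim_Mt_pos t
  have hM1 : θ.1 ≤ pM0 s := hM ▸ Mt_le s t
  have hM2 : pP s - 1 ≤ θ.1 := hM ▸ le_Mt H.big t
  have hM' : cool s θ.1 = Mt s (t + 1) := by rw [Mt_succ, hM]
  have hM'0 : 0 < cool s θ.1 := hM' ▸ H.estim_Mt_pos (t + 1)
  have hM'1 : cool s θ.1 ≤ pM0 s := (cool_le s _).trans hM1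
  have hZ := H.estim_Zt_pos hc hM0 hM1 hnv hnv
  have hN := (H.sum_pit hM1 hu).1
  have h1 := H.badR_mass hc hM'0 hM'1
  have h2 := H.atyp_mass hc hM0 hM1 hnv hnv
  have h3 := H.Zt_mono hM1 (cool_le s θ.1) 0 0
  have h4 : ∑ S ∈ I.OmL s θ.1, I.pit s θ S * (if I.valid (cool s θ.1) S = true ∧
      I.isCls S 0 0 = true ∧ ¬ I.GoodR s (cool s θ.1) S then 1 else 0) ≤
      2 * ∑ S ∈ (I.OmL s (cool s θ.1)).filter
        (fun S => I.isCls S 0 0 = true ∧ ¬ I.GoodR s (cool s θ.1) S), I.atw s (cool s θ.1) S +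
      ∑ S ∈ (I.OmL s θ.1).filter (fun S => I.isCls S 0 0 = true ∧ ¬ I.Typ s θ.1 S),
        I.atw s θ.1 S := by
    have hsub : (I.OmL s (cool s θ.1)).filter
        (fun S => I.isCls S 0 0 = true ∧ ¬ I.GoodR s (cool s θ.1) S) =
        (I.OmL s θ.1).filter (fun S => I.valid (cool s θ.1) S = true ∧
          I.isCls S 0 0 = true ∧ ¬ I.GoodR s (cool s θ.1) S) := by
      ext S
      simp only [Finset.mem_filter, H.mem_OmL hM1, H.mem_OmL hM'1]
      exact ⟨fun h => ⟨valid_mono (cool_le s _) h.1, h.1, h.2⟩, fun h => h.2⟩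
    rw [hsub, Finset.sum_filter, Finset.sum_filter, Finset.mul_sum, ← Finset.sum_add_distrib]
    refine Finset.sum_le_sum fun S hS => ?_
    have p1 := atw_pos (I := I) (s := s) θ.1 S
    have p2 := atw_pos (I := I) (s := s) (cool s θ.1) S
    by_cases hb : I.valid (cool s θ.1) S = true ∧
      I.isCls S 0 0 = true ∧ ¬ I.GoodR s (cool s θ.1) S
    · rw [if_pos hb, if_pos hb, pit_eq, uu_of_isCls_zero hb.2.1, zpow_zero, one_mul, mul_one]
      by_cases ht : I.Typ s θ.1 S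
      · have h5 := (H.typ_next hM2 ((H.mem_OmL hM1 S).1 hS) ht).2
        have h6 : I.atw s θ.1 S ≤ 2 * I.atw s (cool s θ.1) S := by
          unfold atw
          rw [mul_one_div, div_le_div_iff₀ (by positivity) (by positivity), one_mul, ← pow_succ']
          exact pow_le_pow_right₀ (by norm_num) h5
        rw [if_neg (fun h => h.2 ht)]
        linarith
      · rw [if_pos ⟨hb.2.1, ht⟩]
        linarith
    · rw [if_neg hb, if_neg hb, mul_zero, mul_zero, zero_add]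
      split_ifs
      · exact p1.le
      · exact le_rfl
  have h5 : 2 * (32 / (pW s : ℝ) ^ 4) ≤ 1 / (2 * (s : ℝ) ^ 52) := by
    unfold pW
    push_cast
    rw [← mul_div_assoc, div_le_div_iff₀ (by positivity) (by positivity), ← pow_mul]
    have h6 : (s : ℝ) ^ 2 ≤ (s : ℝ) ^ 468 := pow_le_pow_right₀ hs1 (by norm_num)
    calc 2 * 32 * (2 * (s : ℝ) ^ 52) = 128 * (s : ℝ) ^ 52 := by ring
      _ ≤ (s : ℝ) ^ 468 * (s : ℝ) ^ 52 := by gcongr; nlinarith
      _ = 1 * (s : ℝ) ^ (130 * 4) := by rw [← pow_add, one_mul]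
  have h6 : 1 / (2 : ℝ) ^ (s ^ 2) ≤ 1 / (2 * (s : ℝ) ^ 52) := by
    gcongr
    exact_mod_cast estim_two_pow H.big
  have h7 : (0 : ℝ) ≤ 32 / (pW s : ℝ) ^ 4 := by positivity
  unfold avg
  rw [div_le_iff₀ (hZ.trans_le hN)]
  refine h4.trans ?_
  calc _ ≤ 2 * (32 / (pW s : ℝ) ^ 4 * I.Zt s θ.1 0 0) + 1 / 2 ^ (s ^ 2) * I.Zt s θ.1 0 0 := by
        have : 32 / (pW s : ℝ) ^ 4 * I.Zt s (cool s θ.1) 0 0 ≤
            32 / (pW s : ℝ) ^ 4 * I.Zt s θ.1 0 0 := mul_le_mul_of_nonneg_left h3 h7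
        linarith
    _ = (2 * (32 / (pW s : ℝ) ^ 4) + 1 / 2 ^ (s ^ 2)) * I.Zt s θ.1 0 0 := by ring
    _ ≤ (1 / (2 * (s : ℝ) ^ 52) + 1 / (2 * (s : ℝ) ^ 52)) * ∑ S ∈ I.OmL s θ.1, I.pit s θ S := by
        gcongr
    _ = 1 / (s : ℝ) ^ 52 * ∑ S ∈ I.OmL s θ.1, I.pit s θ S := by
        congr 1
        field_simp
        norm_num

lemma estim_log {a : ℕ} (ha : (0 : ℝ) < a) :
    (2 : ℝ) ^ Nat.log 2 a ≤ a ∧ (a : ℝ) ≤ 2 * 2 ^ Nat.log 2 a := by
  have h0 : a ≠ 0 := by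
    rintro rfl
    simp at ha
  constructor
  · exact_mod_cast Nat.pow_log_le_self 2 h0
  · have := Nat.lt_pow_succ_log_self (b := 2) (by norm_num) a
    rw [pow_succ, mul_comm] at this
    exact_mod_cast this.le

/-- Deterministic part: accurate sums give good class exponents
(`2 ^ log₂ a ≤ a < 2 * 2 ^ log₂ a` for `a > 0`). -/
lemma goodU_of_acc {M M' : ℕ} {u : List (List ℤ)} {Ss : List (List ℤ)} {κ : ℝ} (hκ : 0 < κ)
    (hpos : ∀ i < I.nv, ∀ j < I.nv, 0 < I.Zt s M' i j)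
    (h0 : |(I.acc s M M' Ss 0 0 : ℝ) - κ * I.Zt s M' 0 0| ≤ 1 / 10 * (κ * I.Zt s M' 0 0))
    (h : ∀ i < I.nv, ∀ j < I.nv, i ≠ j →
      |(I.acc s M M' Ss i j : ℝ) - κ * ((2 : ℝ) ^ (u.getD i []).getD j 0 * I.Zt s M' i j)| ≤
        1 / 10 * (κ * ((2 : ℝ) ^ (u.getD i []).getD j 0 * I.Zt s M' i j))) :
    I.GoodU s M' (I.nextU s M M' u Ss) := by
  intro i hi j hj hij
  have hnv : 0 < I.nv := Nat.succ_pos _
  have e : ((I.nextU s M M' u Ss).getD i []).getD j 0 = (u.getD i []).getD j 0 +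
      (Nat.log 2 (I.acc s M M' Ss 0 0) : ℤ) - (Nat.log 2 (I.acc s M M' Ss i j) : ℤ) := by
    simp [nextU, List.getD_eq_getElem?_getD, hi, hj]
  rw [e, zpow_sub₀ (by norm_num), zpow_add₀ (by norm_num), zpow_natCast, zpow_natCast]
  have hZ0 := hpos 0 hnv 0 hnv
  have hZ := hpos i hi j hj
  obtain ⟨a1, a2⟩ := abs_le.1 h0
  obtain ⟨b1, b2⟩ := abs_le.1 (h i hi j hj hij)
  have hw : 0 < (2 : ℝ) ^ (u.getD i []).getD j 0 := by positivity
  generalize (2 : ℝ) ^ (u.getD i []).getD j 0 = w at *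
  have hκ0 := mul_pos hκ hZ0
  have hκ1 := mul_pos hκ (mul_pos hw hZ)
  obtain ⟨c1, c2⟩ := estim_log (a := I.acc s M M' Ss 0 0) (by linarith)
  obtain ⟨d1, d2⟩ := estim_log (a := I.acc s M M' Ss i j) (by linarith)
  have hA : 0 < (2 : ℝ) ^ Nat.log 2 (I.acc s M M' Ss 0 0) := by positivity
  have hB : 0 < (2 : ℝ) ^ Nat.log 2 (I.acc s M M' Ss i j) := by positivity
  generalize (2 : ℝ) ^ Nat.log 2 (I.acc s M M' Ss 0 0) = A at *
  generalize (2 : ℝ) ^ Nat.log 2 (I.acc s M M' Ss i j) = B at *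
  have e2 : w * A / B * I.Zt s M' i j = (w * I.Zt s M' i j) * A / B := by ring
  have hW := mul_pos hw hZ
  rw [e2]
  generalize w * I.Zt s M' i j = W at *
  generalize I.Zt s M' 0 0 = Z at *
  have f1 : 9 / 20 * (κ * Z) ≤ A := by linarith
  have f2 : A ≤ 11 / 10 * (κ * Z) := by linarith
  have f3 : 9 / 20 * (κ * W) ≤ B := by linarith
  have f4 : B ≤ 11 / 10 * (κ * W) := by linarith
  have g0 : 0 < κ * W * Z := by positivity
  constructor
  · rw [← mul_div_assoc, le_div_iff₀ hB]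
    have g1 : Z * B ≤ Z * (11 / 10 * (κ * W)) := by gcongr
    have g2 : W * (9 / 20 * (κ * Z)) ≤ W * A := by gcongr
    nlinarith
  · rw [div_le_iff₀ hB]
    have g1 : Z * (9 / 20 * (κ * W)) ≤ Z * B := by gcongr
    have g2 : W * A ≤ W * (11 / 10 * (κ * Z)) := by gcongr
    nlinarith

/-- the test function behind `acc` -/
noncomputable def estimY (I : Inst) (s M M' i j : ℕ) (S : List ℤ) : ℝ :=
  ((if I.isCls S i j then I.yv s M M' S else 0 : ℕ) : ℝ) / 2 ^ pA s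

/-- the test function behind `bc` -/
noncomputable def estimB (I : Inst) (M : ℕ) (S : List ℤ) : ℝ :=
  if (I.valid M S && I.isCls S 0 0) = true then 1 else 0

lemma estimY_unit (M M' i j : ℕ) : Unit01 (I.estimY s M M' i j) := by
  intro S
  unfold estimY
  refine ⟨by positivity, ?_⟩
  rw [div_le_one (by positivity)]
  have : (if I.isCls S i j then I.yv s M M' S else 0 : ℕ) ≤ 2 ^ pA s := by
    unfold yv
    split_ifs
    · exact Nat.pow_le_pow_right (by norm_num) (Nat.sub_le _ _)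
    · exact Nat.zero_le _
    · exact Nat.zero_le _
  exact_mod_cast this

lemma estimB_unit (M : ℕ) : Unit01 (I.estimB M) := by
  intro S
  unfold estimB
  split_ifs <;> norm_num

lemma estimY_sum (M M' i j : ℕ) (Ss : List (List ℤ)) :
    (Ss.map (I.estimY s M M' i j)).sum = (I.acc s M M' Ss i j : ℝ) / 2 ^ pA s := by
  unfold acc
  induction Ss with
  | nil => simp
  | cons S Ss ih =>
    rw [List.map_cons, List.sum_cons, ih, List.map_cons, List.sum_cons, Nat.cast_add, add_div]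
    rfl

lemma estimB_sum (M : ℕ) (Ss : List (List ℤ)) : (Ss.map (I.estimB M)).sum = (I.bc M Ss : ℝ) := by
  unfold bc
  induction Ss with
  | nil => simp
  | cons S Ss ih =>
    rw [List.map_cons, List.sum_cons, ih, List.countP_cons, Nat.cast_add, add_comm]
    unfold estimB
    split_ifs <;> simp

lemma estim_nextR {M M' : ℕ} {Ss : List (List ℤ)} (h : 0 < I.acc s M M' Ss 0 0) :
    I.nextR M' Ss ∈ Ss ∧ I.valid M' (I.nextR M' Ss) = true ∧
      I.isCls (I.nextR M' Ss) 0 0 = true := by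
  unfold nextR
  cases hf : Ss.find? fun S => I.valid M' S && I.isCls S 0 0 with
  | none =>
    exfalso
    rw [List.find?_eq_none] at hf
    refine h.ne' (List.sum_eq_zero fun x hx => ?_)
    obtain ⟨S, hS, rfl⟩ := List.mem_map.1 hx
    have := hf S hS
    unfold yv
    split_ifs with h1 h2
    · simp [h1, h2] at this
    · rfl
    · rfl
  | some S =>
    have h1 := List.find?_some hf
    rw [Bool.and_eq_true] at h1
    exact ⟨List.mem_of_find?_eq_some hf, h1.1, h1.2⟩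

lemma estim_scale {a n c N Z ε : ℝ} (hn : 0 < n) (hc : 0 < c) (hN : 0 < N) (hZ : 0 ≤ Z)
    (hε : ε ≤ 1 / 10) (h : |a / c / n - Z / N| ≤ ε * (Z / N)) :
    |a - c * n / N * Z| ≤ 1 / 10 * (c * n / N * Z) := by
  have e : a - c * n / N * Z = (c * n) * (a / c / n - Z / N) := by field_simp
  rw [e, abs_mul, abs_of_pos (mul_pos hc hn)]
  calc c * n * |a / c / n - Z / N| ≤ c * n * (1 / 10 * (Z / N)) := by
        gcongr
        exact h.trans (by gcongr)
    _ = 1 / 10 * (c * n / N * Z) := by ring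

/-- The outcome of a stage is good. -/
def StageOK (I : Inst) (s : ℕ) (θs : List Th) (ω : List Bool) : Prop :=
  (θs.length ≤ pTa s → I.GoodTh s θs.length
    (I.nextTh s (θs.getLastD (0, [], [])) (nextM s θs) (I.samples s θs ω))) ∧
  |(I.ratio s (θs.getLastD (0, [], [])).1 (nextM s θs) (I.samples s θs ω) : ℝ) -
      I.Zt s (nextM s θs) 0 0 / I.Zt s (θs.getLastD (0, [], [])).1 0 0| ≤
    1 / (s : ℝ) ^ 10 * (I.Zt s (nextM s θs) 0 0 / I.Zt s (θs.getLastD (0, [], [])).1 0 0)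

/-- Union bound over `rel_estimate` for `bc`, for `acc 0 0` and (if `θs.length ≤ pTa`) for all
`acc i j` (means `≥ 1 / (64 s²) ≥ s ^ (-3)` by `avg_yv`, `avg_bc`, `GoodU`, `Zt_le_next`, `Zt_le_last`
with `Mt_pTa_lt`, `sum_pit`), and `Pr_exists_chunk` with `avg_badR` (no sample is a bad reference;
`acc 0 0 > 0` shows that `find?` succeeds). -/
theorem Sz.stage_ok (H : I.Sz s) (hc : 0 < I.cnt) {θs : List Th} (hθ : I.GoodThs s θs)
    (h0 : θs ≠ []) (hl : θs.length ≤ pTa s + 1) :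
    Pr (pN s * rS s) (fun ω => ¬ I.StageOK s θs ω) ≤ 3 / (s : ℝ) ^ 10 := by
  classical
  have hNear := H.near_sample hc hθ h0 hl
  have hlen : 0 < θs.length := List.length_pos_iff.2 h0
  have hθt : I.GoodTh s (θs.length - 1) (θs.getLastD (0, [], [])) := by
    have := hθ (θs.length - 1) (by omega)
    rwa [← List.getLast_eq_getElem h0, ← Option.getD_some (a := θs.getLast h0) (b := (0, [], [])),
      ← List.getLast?_eq_some_getLast h0, ← List.getLastD_eq_getLast?] at this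
  have hnext : nextM s θs = if θs.length ≤ pTa s then cool s (θs.getLastD (0, [], [])).1 else 0 := rfl
  unfold StageOK
  generalize θs.getLastD (0, [], []) = θ at *
  generalize nextM s θs = M' at *
  have hbad := H.avg_badR hc hθt
  obtain ⟨hM, hu, -⟩ := hθt
  have hs' : (100 : ℝ) ≤ s := by exact_mod_cast H.big
  have hs0 : (0 : ℝ) < s := by linarith
  have hs1 : (1 : ℝ) ≤ s := by linarith
  have hnv : 0 < I.nv := Nat.succ_pos _
  have hM0 : 0 < θ.1 := hM ▸ H.estim_Mt_pos _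
  have hM1 : θ.1 ≤ pM0 s := hM ▸ Mt_le s _
  have hM2 : pP s - 1 ≤ θ.1 := hM ▸ le_Mt H.big _
  have hM'le : M' ≤ θ.1 := by
    rw [hnext]
    split_ifs
    · exact cool_le s _
    · exact Nat.zero_le _
  have hZ := H.estim_Zt_pos hc hM0 hM1 hnv hnv
  obtain ⟨hN1, hN2⟩ := H.sum_pit hM1 hu
  set N := ∑ S ∈ I.OmL s θ.1, I.pit s θ S with hNdef
  have hN : 0 < N := hZ.trans_le hN1
  have hZ' : I.Zt s θ.1 0 0 ≤ 4 * I.Zt s M' 0 0 := by
    rw [hnext]
    split_ifs with h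
    · exact H.Zt_le_next hc hM2 hM1 hnv hnv
    · have h1 : θ.1 < pP s := by
        rw [hM, show θs.length - 1 = pTa s by omega]
        exact Mt_pTa_lt H.big
      have h2 := H.Zt_le_last hc hM0 h1
      have h3 := Zt_nonneg (I := I) (s := s) 0 0 0
      linarith
  have hlow : ∀ W : ℝ, I.Zt s θ.1 0 0 ≤ 16 * W → 1 / (s : ℝ) ^ 3 ≤ W / N := by
    intro W hW
    rw [div_le_div_iff₀ (by positivity) hN]
    have hW0 : 0 < W := by linarith
    calc 1 * N ≤ 4 * s ^ 2 * (16 * W) := by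
          rw [one_mul]
          exact hN2.trans (by gcongr)
      _ = W * (64 * s ^ 2) := by ring
      _ ≤ W * (s * s ^ 2) := by gcongr; linarith
      _ = W * s ^ 3 := by ring
  have aB : avg (I.OmL s θ.1) (I.pit s θ) (I.estimB θ.1) = I.Zt s θ.1 0 0 / N := H.avg_bc hM1
  have aY : ∀ i < I.nv, ∀ j < I.nv, avg (I.OmL s θ.1) (I.pit s θ) (I.estimY s θ.1 M' i j) =
      (if i = j then 1 else (2 : ℝ) ^ (θ.2.1.getD i []).getD j 0) * I.Zt s M' i j / N :=
    fun i hi j hj => H.avg_yv hM1 hM'le hi hj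
  have a0 : avg (I.OmL s θ.1) (I.pit s θ) (I.estimY s θ.1 M' 0 0) = I.Zt s M' 0 0 / N := by
    rw [aY 0 hnv 0 hnv, if_pos rfl, one_mul]
  -- the four kinds of bad events
  let dev : (List ℤ → ℝ) → List Bool → Prop := fun Y ω =>
    2 / (s : ℝ) ^ 11 * avg (I.OmL s θ.1) (I.pit s θ) Y <
      |((I.samples s θs ω).map Y).sum / pN s - avg (I.OmL s θ.1) (I.pit s θ) Y|
  let badR : List ℤ → Prop := fun S => I.valid (cool s θ.1) S = true ∧
    I.isCls S 0 0 = true ∧ ¬ I.GoodR s (cool s θ.1) S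
  have p1 : Pr (pN s * rS s) (dev (I.estimB θ.1)) ≤ 1 / (s : ℝ) ^ 12 :=
    rel_estimate H.big hNear (estimB_unit _) (by rw [aB]; exact hlow _ (by linarith))
  have p2 : Pr (pN s * rS s) (dev (I.estimY s θ.1 M' 0 0)) ≤ 1 / (s : ℝ) ^ 12 :=
    rel_estimate H.big hNear (estimY_unit _ _ _ _) (by rw [a0]; exact hlow _ (by linarith))
  have p3 : ∀ p ∈ range I.nv ×ˢ range I.nv, Pr (pN s * rS s) (fun ω =>
      (θs.length ≤ pTa s ∧ p.1 ≠ p.2) ∧ dev (I.estimY s θ.1 M' p.1 p.2) ω) ≤ 1 / (s : ℝ) ^ 12 := by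
    intro p hp
    obtain ⟨hi, hj⟩ := Finset.mem_product.1 hp
    rw [Finset.mem_range] at hi hj
    by_cases hcond : θs.length ≤ pTa s ∧ p.1 ≠ p.2
    · refine le_trans (Pr_mono fun ω _ h => h.2) ?_
      refine rel_estimate H.big hNear (estimY_unit _ _ _ _) ?_
      rw [aY _ hi _ hj, if_neg hcond.2]
      apply hlow
      have h1 := (hu _ hi _ hj hcond.2).1
      have h2 := H.Zt_le_next hc hM2 hM1 hi hj
      rw [hnext, if_pos hcond.1]
      have hw : 0 < (2 : ℝ) ^ (θ.2.1.getD p.1 []).getD p.2 0 := by positivity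
      have h3 := mul_le_mul_of_nonneg_left h2 hw.le
      linarith
    · refine le_trans (Pr_mono (Q := fun _ => False) fun ω _ h => hcond h.1) ?_
      rw [Pr_false]
      positivity
  have p3' : Pr (pN s * rS s) (fun ω => ∃ p ∈ range I.nv ×ˢ range I.nv,
      (θs.length ≤ pTa s ∧ p.1 ≠ p.2) ∧ dev (I.estimY s θ.1 M' p.1 p.2) ω) ≤ 1 / (s : ℝ) ^ 10 := by
    refine (Pr_exists_le _ _ _).trans ((Finset.sum_le_sum p3).trans ?_)
    rw [Finset.sum_const, Finset.card_product, Finset.card_range, nsmul_eq_mul]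
    have h1 : (I.nv : ℝ) ≤ s := by exact_mod_cast H.nv_le
    push_cast
    calc (I.nv : ℝ) * I.nv * (1 / (s : ℝ) ^ 12) ≤ s * s * (1 / (s : ℝ) ^ 12) := by gcongr
      _ = 1 / (s : ℝ) ^ 10 := by field_simp
  have p4 : Pr (pN s * rS s) (fun ω => ∃ u ∈ chunks (pN s) (rS s) ω, badR (I.sample s θs u)) ≤
      3 / (s : ℝ) ^ 12 := by
    refine (Pr_exists_chunk _ _ _).trans ?_
    have h1 := hNear (fun S => if badR S then 1 else 0) (fun S => by
      beta_reduce
      split_ifs <;> norm_num)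
    have h2 : Pr (rS s) (fun u => badR (I.sample s θs u)) =
        Ex (rS s) fun ω => if badR (I.sample s θs ω) then 1 else 0 := by
      unfold Pr
      refine Ex_congr fun l _ => ?_
      congr
    have h3 : avg (I.OmL s θ.1) (I.pit s θ) (fun S => if badR S then 1 else 0) ≤
        1 / (s : ℝ) ^ 52 := by
      convert hbad
    have h4 : Pr (rS s) (fun u => badR (I.sample s θs u)) ≤ 3 / (s : ℝ) ^ 52 := by
      rw [h2]
      have h5 := (abs_le.1 h1).2
      have e : 3 / (s : ℝ) ^ 52 = 2 / (s : ℝ) ^ 52 + 1 / (s : ℝ) ^ 52 := by ring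
      simp only at h5
      linarith
    calc (pN s : ℝ) * Pr (rS s) (fun u => badR (I.sample s θs u)) ≤ pN s * (3 / (s : ℝ) ^ 52) := by
          gcongr
      _ = 3 / (s : ℝ) ^ 12 := by
          unfold pN
          push_cast
          field_simp
  have hε : 2 / (s : ℝ) ^ 11 ≤ 1 / 10 := by
    rw [div_le_div_iff₀ (by positivity) (by positivity)]
    have := le_self_pow₀ hs1 (show 11 ≠ 0 by norm_num)
    linarith
  have hn : (0 : ℝ) < pN s := by
    unfold pN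
    push_cast
    positivity
  have h2A : (0 : ℝ) < 2 ^ pA s := by positivity
  refine le_trans (Pr_mono (Q := fun ω => (dev (I.estimB θ.1) ω ∨ dev (I.estimY s θ.1 M' 0 0) ω) ∨
    ((∃ p ∈ range I.nv ×ˢ range I.nv,
      (θs.length ≤ pTa s ∧ p.1 ≠ p.2) ∧ dev (I.estimY s θ.1 M' p.1 p.2) ω) ∨
      ∃ u ∈ chunks (pN s) (rS s) ω, badR (I.sample s θs u))) fun ω _ h => ?_) ?_
  · by_contra hcon
    apply h
    rw [not_or, not_or, not_or] at hcon
    obtain ⟨⟨c1, c2⟩, c3, c4⟩ := hcon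
    simp only [dev, not_lt] at c1 c2
    rw [aB, estimB_sum] at c1
    rw [a0, estimY_sum] at c2
    have hZ0' : 0 < I.Zt s M' 0 0 := by linarith
    constructor
    · intro hle
      have hM' : M' = cool s θ.1 := by rw [hnext, if_pos hle]
      have hMt : M' = Mt s θs.length := by
        rw [hM', hM, ← Mt_succ, Nat.sub_add_cancel hlen]
      have hM'0 : 0 < M' := hMt ▸ H.estim_Mt_pos _
      have k0 := estim_scale hn h2A hN hZ0'.le hε c2
      have hκ : 0 < 2 ^ pA s * (pN s : ℝ) / N := by positivity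
      refine ⟨hMt, goodU_of_acc hκ
        (fun i hi j hj => H.estim_Zt_pos hc hM'0 (hM'le.trans hM1) hi hj) k0
        (fun i hi j hj hij => ?_), _, ?_, rfl⟩
      · have c5 : ¬ dev (I.estimY s θ.1 M' i j) ω := fun hd => c3 ⟨(i, j),
          Finset.mem_product.2 ⟨Finset.mem_range.2 hi, Finset.mem_range.2 hj⟩, ⟨hle, hij⟩, hd⟩
        simp only [dev, not_lt] at c5
        rw [aY i hi j hj, if_neg hij, estimY_sum] at c5
        exact estim_scale hn h2A hN (mul_nonneg (by positivity) (Zt_nonneg _ _ _)) hε c5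
      · have hpos : 0 < I.acc s θ.1 M' (I.samples s θs ω) 0 0 := by
          have h1 := (abs_le.1 k0).1
          have h2 := mul_pos hκ hZ0'
          have : (0 : ℝ) < I.acc s θ.1 M' (I.samples s θs ω) 0 0 := by linarith
          exact_mod_cast this
        obtain ⟨r1, r2, r3⟩ := estim_nextR hpos
        by_contra hng
        obtain ⟨u, hu1, hu2⟩ := List.mem_map.1 r1
        refine c4 ⟨u, hu1, ?_⟩
        rw [hu2]
        simp only [badR, ← hM']
        exact ⟨r2, r3, hng⟩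
    · have k := estim_ratio (by positivity) (by positivity) (by positivity)
        (hε.trans (by norm_num)) c2 c1
      have e1 : (I.ratio s θ.1 M' (I.samples s θs ω) : ℝ) =
          (I.acc s θ.1 M' (I.samples s θs ω) 0 0 : ℝ) / 2 ^ pA s / pN s /
            ((I.bc θ.1 (I.samples s θs ω) : ℝ) / pN s) := by
        unfold ratio
        push_cast
        rw [div_div_div_cancel_right₀ hn.ne', div_div]
      have e2 : I.Zt s M' 0 0 / N / (I.Zt s θ.1 0 0 / N) = I.Zt s M' 0 0 / I.Zt s θ.1 0 0 :=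
        div_div_div_cancel_right₀ hN.ne' _ _
      rw [e1]
      rw [e2] at k
      refine k.trans (mul_le_mul_of_nonneg_right ?_ (by positivity))
      rw [← mul_div_assoc, div_le_div_iff₀ (by positivity) (by positivity)]
      calc 4 * 2 * (s : ℝ) ^ 10 ≤ s * (s : ℝ) ^ 10 := by gcongr; linarith
        _ = 1 * (s : ℝ) ^ 11 := by ring
  · refine (Pr_or_le _ _ _).trans ?_
    have q1 := (Pr_or_le (pN s * rS s) _ _).trans (add_le_add p1 p2)
    have q2 := (Pr_or_le (pN s * rS s) _ _).trans (add_le_add p3' p4)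
    have q3 : 5 * (1 / (s : ℝ) ^ 12) ≤ 1 / (s : ℝ) ^ 10 := by
      rw [mul_one_div, div_le_div_iff₀ (by positivity) (by positivity)]
      calc 5 * (s : ℝ) ^ 10 ≤ s ^ 2 * (s : ℝ) ^ 10 := by gcongr; nlinarith
        _ = 1 * (s : ℝ) ^ 12 := by ring
    have e1 : 3 / (s : ℝ) ^ 12 = 3 * (1 / (s : ℝ) ^ 12) := by ring
    have e2 : 3 / (s : ℝ) ^ 10 = 3 * (1 / (s : ℝ) ^ 10) := by ring
    have q4 : 0 ≤ 1 / (s : ℝ) ^ 10 := by positivity
    linarith

end Inst

end Crest.Agent.R309
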