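import Crest.Agent.R309.Tab

/-! Row 309: every table has the same probability in one round of the exact sampler. -/

set_option autoImplicit false

namespace Crest.Agent.R309

open Finset Crest.Agent.Lib.PT Crest.Tables

lemma select_mem {β : Type} {l : List (β × ℕ)} {U : ℕ} {y : β} (h : select l U = some y) :
    y ∈ l.map Prod.fst := by
  induction l generalizing U with
  | nil => simp [select] at h
  | cons p l ih =>
    obtain ⟨z, a⟩ := p
    simp only [select] at h
    split_ifs at h with hU
    · simp only [Option.some.injEq] at h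
      simp [h]
    · have := ih h
      simp only [List.map_cons, List.mem_cons]
      exact Or.inr this

/-- The number of `U < B` selecting `y`. -/
lemma card_select {β : Type} [DecidableEq β] (l : List (β × ℕ)) (B : ℕ)
    (h : (l.map Prod.snd).sum ≤ B) (y : β) :
    ((range B).filter fun U => select l U = some y).card =
      ((l.filter fun p => p.1 = y).map Prod.snd).sum := by
  induction l generalizing B with
  | nil => simp [select]
  | cons p l ih =>
    obtain ⟨z, a⟩ := p
    simp only [List.map_cons, List.sum_cons] at h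
    obtain ⟨B', rfl⟩ : ∃ B', B = a + B' := ⟨B - a, by omega⟩
    have ih' := ih B' (by omega)
    rw [Finset.card_filter] at ih' ⊢
    rw [Finset.sum_range_add]
    have h1 : ∑ i ∈ range a, (if select ((z, a) :: l) i = some y then 1 else 0) =
        if z = y then a else 0 := by
      rw [Finset.sum_congr rfl (g := fun _ => if z = y then 1 else 0)]
      · split_ifs <;> simp
      · intro i hi
        simp [select, Finset.mem_range.1 hi]
    have h2 : ∑ i ∈ range B', (if select ((z, a) :: l) (a + i) = some y then 1 else 0) =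
        ∑ i ∈ range B', (if select l i = some y then 1 else 0) := by
      refine Finset.sum_congr rfl fun i _ => ?_
      simp [select]
    rw [h1, h2, ih']
    by_cases hz : z = y <;> simp [hz]

lemma exact_mem_lvs {rs cs : List ℕ} {y : List Bool} : y ∈ lvs rs cs ↔ y ∈ tOm rs cs := by
  simp [lvs, tOm, leaves]

lemma exact_nodup_lvs (rs cs : List ℕ) : (lvs rs cs).Nodup := (nodup_allBits _).filter _

lemma exact_toFinset_lvs (rs cs : List ℕ) : (lvs rs cs).toFinset = tOm rs cs := rfl

lemma exact_zip_map {α β : Type} (l : List α) (w : α → β) :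
    l.zip (l.map w) = l.map fun x => (x, w x) := by
  induction l with
  | nil => rfl
  | cons a l ih => simp [ih]

lemma exact_vt {rs cs : List ℕ} (hc : ∀ x ∈ tOm rs cs, ∀ ω, tstep rs cs x ω ∈ tOm rs cs)
    (h0 : tx0 rs cs ∈ tOm rs cs) (t : ℕ) :
    ∃ w : List Bool → ℕ, vt rs cs t = (lvs rs cs).map w ∧ ∀ y, (w y : ℝ) =
      2 ^ (t * tR rs cs) * Pr (t * tR rs cs) fun ω => walk rs cs t ω = y := by
  induction t with
  | zero =>
    refine ⟨fun y => if y = tx0 rs cs then 1 else 0, rfl, fun y => ?_⟩
    simp only [zero_mul, pow_zero, one_mul, Pr, Ex_zero, walk, chunks, List.range_zero,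
      List.map_nil, List.foldl_nil]
    by_cases hy : y = tx0 rs cs
    · simp [hy]
    · simp [hy, Ne.symm hy]
  | succ t ih =>
    obtain ⟨w, hw, hw'⟩ := ih
    refine ⟨fun y => (((lvs rs cs).zip (vt rs cs t)).map fun p => p.2 * kcnt rs cs p.1 y).sum,
      ?_, fun y => ?_⟩
    · unfold vt
      rw [Function.iterate_succ_apply']
      rfl
    · have h1 := walk_succ (r := tR rs cs) hc h0 t y
      have h2 : Pr ((t + 1) * tR rs cs) (fun ω => walk rs cs (t + 1) ω = y) =
          ∑ x ∈ tOm rs cs, Pr (t * tR rs cs) (fun l => walk rs cs t l = x) *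
            Pr (tR rs cs) (fun ω => tstep rs cs x ω = y) := h1
      have h3 : (((lvs rs cs).zip (vt rs cs t)).map fun p => p.2 * kcnt rs cs p.1 y).sum =
          ∑ x ∈ tOm rs cs, w x * kcnt rs cs x y := by
        rw [hw, exact_zip_map, List.map_map, ← exact_toFinset_lvs,
          List.sum_toFinset _ (exact_nodup_lvs rs cs)]
        rfl
      beta_reduce
      rw [h2, h3, Nat.cast_sum, Finset.mul_sum]
      refine Finset.sum_congr rfl fun x _ => ?_
      have hk : Pr (tR rs cs) (fun ω => tstep rs cs x ω = y) =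
          (kcnt rs cs x y : ℝ) / 2 ^ tR rs cs := by
        rw [kcnt, ← Pr_eq_countP]
        exact Pr_congr fun l _ => beq_iff_eq.symm
      rw [Nat.cast_mul, hw', hk, add_mul, one_mul, pow_add]
      field_simp

/-- `vt t` lists `2 ^ (t * tR)` times the law of the walk (`walk_succ`, `Pr_eq_countP`). -/
lemma vt_eq {rs cs : List ℕ} (hc : ∀ x ∈ tOm rs cs, ∀ ω, tstep rs cs x ω ∈ tOm rs cs)
    (h0 : tx0 rs cs ∈ tOm rs cs) (t : ℕ) :
    (vt rs cs t).map (fun a : ℕ => (a : ℝ)) = (lvs rs cs).map fun y =>
      2 ^ (t * tR rs cs) * Pr (t * tR rs cs) fun ω => walk rs cs t ω = y := by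
  obtain ⟨w, hw, hw'⟩ := exact_vt hc h0 t
  rw [hw, List.map_map]
  exact List.map_congr_left fun y _ => hw' y

lemma exact_slow_mem {rs cs : List ℕ} {k t U : ℕ} {y : List Bool}
    (h : slow rs cs k t U = some y) : y ∈ tOm rs cs := by
  have := select_mem h
  obtain ⟨p, hp, rfl⟩ := List.mem_map.1 this
  exact exact_mem_lvs.1 (List.of_mem_zip (a := p.1) (b := p.2) hp).1

lemma exact_round_mem {rs cs : List ℕ} (hc : ∀ x ∈ tOm rs cs, ∀ ω, tstep rs cs x ω ∈ tOm rs cs)
    (h0 : tx0 rs cs ∈ tOm rs cs) (k : ℕ) (ω : List Bool) {y : List ℕ}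
    (hy : round rs cs k ω = some y) : ∃ w ∈ tOm rs cs, y = tdec rs cs w := by
  unfold round at hy
  split_ifs at hy with h
  · obtain ⟨w, hw, rfl⟩ := Option.map_eq_some_iff.1 hy
    exact ⟨w, exact_slow_mem hw, rfl⟩
  · simp only [Option.some.injEq] at hy
    exact ⟨_, walk_mem hc h0 _, hy.symm⟩

lemma exact_le_foldr (l : List ℕ) {a : ℕ} (h : a ∈ l) : a ≤ l.foldr max 0 := by
  induction l with
  | nil => simp at h
  | cons b l ih =>
    simp only [List.foldr_cons]
    rcases List.mem_cons.1 h with rfl | h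
    · exact le_max_left _ _
    · exact (ih h).trans (le_max_right _ _)

lemma exact_foldr_mem (l : List ℕ) : l.foldr max 0 = 0 ∨ l.foldr max 0 ∈ l := by
  induction l with
  | nil => simp
  | cons b l ih =>
    simp only [List.foldr_cons]
    rcases max_choice b (l.foldr max 0) with h | h
    · rw [h]; simp
    · rw [h]
      rcases ih with h' | h'
      · exact Or.inl h'
      · exact Or.inr (List.mem_cons_of_mem _ h')

lemma exact_filter_sum {α : Type} [DecidableEq α] (l : List α) (hl : l.Nodup) (g : α → ℕ) {y : α}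
    (hy : y ∈ l) :
    (((l.map fun x => (x, g x)).filter fun p => p.1 = y).map Prod.snd).sum = g y := by
  induction l with
  | nil => simp at hy
  | cons a l ih =>
    rw [List.nodup_cons] at hl
    by_cases ha : a = y
    · subst ha
      have : ((l.map fun x => (x, g x)).filter fun p => p.1 = a) = [] := by
        rw [List.filter_eq_nil_iff]
        intro p hp
        obtain ⟨x, hx, rfl⟩ := List.mem_map.1 hp
        simp only [decide_eq_true_eq]
        rintro rfl
        exact hl.1 hx
      simp [this]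
    · have hy' : y ∈ l := by
        rcases List.mem_cons.1 hy with h | h
        · exact absurd h.symm ha
        · exact h
      simp only [List.map_cons, List.filter_cons, ha, decide_false]
      simpa using ih hl.2 hy'

lemma exact_round_prob {rs cs : List ℕ} (H : Doeb (tOm rs cs) (tR rs cs) (tstep rs cs))
    (h0 : tx0 rs cs ∈ tOm rs cs) (k : ℕ) :
    ∃ κ : ℝ, ∀ y ∈ tOm rs cs,
      Pr (rLen rs cs k) (fun ω => round rs cs k ω = some (tdec rs cs y)) = κ := by
  classical
  set t := rT rs cs k with ht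
  set R := t * tR rs cs with hR
  obtain ⟨w, hw, hw'⟩ := exact_vt H.closed h0 t
  set V := (vt rs cs t).foldr max 0 with hV
  have hle : ∀ y ∈ tOm rs cs, w y ≤ V := fun y hy =>
    exact_le_foldr _ (by rw [hw]; exact List.mem_map_of_mem (exact_mem_lvs.2 hy))
  have hosc : ∀ y ∈ tOm rs cs, ((V - w y : ℕ) : ℝ) ≤ 2 ^ R * (7 / 8) ^ t := by
    intro y hy
    rcases exact_foldr_mem (vt rs cs t) with h | h
    · rw [← hV] at h
      rw [h]; simp only [zero_tsub, Nat.cast_zero]; positivity
    · rw [← hV, hw] at h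
      obtain ⟨z, hz, hzV⟩ := List.mem_map.1 h
      rw [Nat.cast_sub (hle y hy), ← hzV, hw', hw', ← mul_sub]
      exact mul_le_mul_of_nonneg_left (H.osc h0 t (exact_mem_lvs.1 hz) hy) (by positivity)
  have hslow : ∀ U, slow rs cs k t U =
      select ((lvs rs cs).map fun x => (x, (2 ^ k - 1) * (V - w x))) U := by
    intro U
    unfold slow
    rw [← hV, hw, List.map_map, exact_zip_map]
    rfl
  have hsum : (((lvs rs cs).map fun x => (x, (2 ^ k - 1) * (V - w x))).map Prod.snd).sum
      ≤ 2 ^ R := by
    rw [List.map_map]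
    have hlen : (lvs rs cs).length ≤ 2 ^ tD rs cs := by
      rw [← length_allBits]; exact List.length_filter_le _ _
    have h78 : ((7 : ℝ) / 8) ^ t ≤ (1 / 2) ^ (k + tD rs cs) := by
      rw [ht, rT, pow_mul]
      exact pow_le_pow_left₀ (by positivity) (by norm_num) _
    have hb : ∀ x ∈ (lvs rs cs).map
        (Prod.snd ∘ fun x => (x, (2 ^ k - 1) * (V - w x))), x * 2 ^ tD rs cs ≤ 2 ^ R := by
      intro x hx
      obtain ⟨y, hy, rfl⟩ := List.mem_map.1 hx
      have h1 := hosc y (exact_mem_lvs.1 hy)
      have h2 : (((2 ^ k - 1) * (V - w y) * 2 ^ tD rs cs : ℕ) : ℝ) ≤ ((2 ^ R : ℕ) : ℝ) := by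
        have h3 : ((2 ^ k - 1 : ℕ) : ℝ) ≤ 2 ^ k := by
          exact_mod_cast Nat.sub_le _ _
        push_cast
        calc ((2 ^ k - 1 : ℕ) : ℝ) * ((V - w y : ℕ) : ℝ) * 2 ^ tD rs cs
            ≤ 2 ^ k * (2 ^ R * (1 / 2) ^ (k + tD rs cs)) * 2 ^ tD rs cs := by
              gcongr
              exact h1.trans (by gcongr)
          _ = 2 ^ R := by
              rw [pow_add, one_div, inv_pow, inv_pow]; field_simp
      exact_mod_cast h2
    have hpos : 0 < 2 ^ tD rs cs := by positivity
    refine Nat.le_of_mul_le_mul_right ?_ hpos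
    have hgen : ∀ (L : List ℕ) (c B : ℕ), (∀ x ∈ L, x * c ≤ B) → L.sum * c ≤ L.length * B := by
      intro L c B hL
      induction L with
      | nil => simp
      | cons a L ih =>
        have h1 := hL a (List.mem_cons_self)
        have h2 := ih fun x hx => hL x (List.mem_cons_of_mem _ hx)
        simp only [List.sum_cons, List.length_cons, add_mul, one_mul]
        omega
    refine (hgen _ _ _ hb).trans ?_
    rw [List.length_map, mul_comm]
    exact Nat.mul_le_mul_left _ hlen
  refine ⟨(2 ^ k - 1) * V / (2 ^ R * 2 ^ k), fun y hy => ?_⟩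
  have hA : Pr R (fun v => (slow rs cs k t (ofBits v)).map (tdec rs cs) = some (tdec rs cs y)) =
      (2 ^ k - 1) * (V - w y) / 2 ^ R := by
    have e1 : Pr R (fun v => (slow rs cs k t (ofBits v)).map (tdec rs cs) = some (tdec rs cs y)) =
        Pr R (fun v => slow rs cs k t (ofBits v) = some y) := by
      refine Pr_congr fun l _ => ⟨fun h => ?_, fun h => by rw [h]; rfl⟩
      obtain ⟨z, hz, e⟩ := Option.map_eq_some_iff.1 h
      rw [hz, tdec_injOn (exact_slow_mem hz) hy e]
    rw [e1]
    have e2 := Ex_ofBits R (fun U => if slow rs cs k t U = some y then 1 else 0)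
    have e3 := card_select _ _ hsum y
    rw [exact_filter_sum _ (exact_nodup_lvs rs cs) _ (exact_mem_lvs.2 hy)] at e3
    have e2' : Pr R (fun v => slow rs cs k t (ofBits v) = some y) =
        (∑ U ∈ range (2 ^ R), if slow rs cs k t U = some y then (1 : ℝ) else 0) / 2 ^ R := by
      rw [← e2]
      exact Ex_congr fun l _ => by by_cases hl : slow rs cs k t (ofBits l) = some y <;> simp [hl]
    rw [e2', Finset.sum_boole]
    have e7 : (range (2 ^ R)).filter (fun U => slow rs cs k t U = some y) =
        (range (2 ^ R)).filter (fun U =>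
          select ((lvs rs cs).map fun x => (x, (2 ^ k - 1) * (V - w x))) U = some y) :=
      Finset.filter_congr fun U _ => by rw [hslow]
    rw [e7, e3, Nat.cast_mul, Nat.cast_sub (hle y hy), Nat.cast_sub (Nat.one_le_two_pow (n := k))]
    push_cast
    rfl
  have hB : Pr R (fun v => some (tdec rs cs (walk rs cs t v)) = some (tdec rs cs y)) =
      w y / 2 ^ R := by
    have e1 : Pr R (fun v => some (tdec rs cs (walk rs cs t v)) = some (tdec rs cs y)) =
        Pr R (fun v => walk rs cs t v = y) := by
      refine Pr_congr fun l _ => ⟨fun h => ?_, fun h => by rw [h]⟩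
      exact tdec_injOn (walk_mem H.closed h0 _) hy (Option.some.inj h)
    rw [e1, hw', ← hR]
    field_simp
  have hs := Pr_split k R (fun u v => (if u.all (fun b => !b) then
    (slow rs cs k t (ofBits v)).map (tdec rs cs)
      else some (tdec rs cs (walk rs cs t v))) = some (tdec rs cs y))
  refine Eq.trans hs ?_
  have e4 : Ex k (fun u => Pr R fun v => (if u.all (fun b => !b) then
    (slow rs cs k t (ofBits v)).map (tdec rs cs)
      else some (tdec rs cs (walk rs cs t v))) = some (tdec rs cs y)) =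
      Ex k (fun u => w y / 2 ^ R + ((2 ^ k - 1) * (V - w y) / 2 ^ R - w y / 2 ^ R) *
        (if (u.take k).all (fun b => !b) = true then 1 else 0)) := by
    refine Ex_congr fun u hu => ?_
    rw [List.take_of_length_le hu.le]
    by_cases h : u.all (fun b => !b) = true
    · simp only [h, if_true, hA]; ring
    · simp only [h, Bool.false_eq_true, if_false, hB]; ring
  have e5 := Pr_allFalse (k := k) (r := k) le_rfl
  rw [e4, Ex_add, Ex_const, Ex_mul_left]
  unfold Pr at e5
  have e6 : Ex k (fun u => if (u.take k).all (fun b => !b) = true then (1 : ℝ) else 0) =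
      1 / 2 ^ k := by
    rw [← e5]
    exact Ex_congr fun l _ => by
      by_cases hl : (l.take k).all (fun b => !b) = true <;> simp only [hl, if_true, if_false]
  rw [e6]
  field_simp
  ring

variable {m n : ℕ} (rs : Fin m → ℕ) (cs : Fin n → ℕ)

theorem round_sound (h : ∑ i, rs i = ∑ j, cs j) (k : ℕ) (ω : List Bool) {y : List ℕ}
    (hy : round (List.ofFn rs) (List.ofFn cs) k ω = some y) :
    ∃ X : Fin m → Fin n → ℕ, IsTable rs cs X ∧ y = flat X := by
  obtain ⟨w, hw, rfl⟩ := exact_round_mem (doeb_tstep rs cs h).closed (tx0_mem rs cs h) k ω hy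
  exact tdec_isTable rs cs hw

/-- Let `R = t * tR`, `v y` the entries of `vt t`, `V` their maximum.  The interval lengths
`(2 ^ k - 1) (V - v y)` sum to at most `2 ^ k 2 ^ D (7/8) ^ t 2 ^ R ≤ 2 ^ R` (`Doeb.osc`,
`(7/8) ^ 6 ≤ 1/2`), so the probability of `y` is
`(1 - 2 ^ (-k)) v y / 2 ^ R + 2 ^ (-k) (2 ^ k - 1) (V - v y) / 2 ^ R = (1 - 2 ^ (-k)) V / 2 ^ R`. -/
theorem round_prob (h : ∑ i, rs i = ∑ j, cs j) (k : ℕ) :
    ∃ κ : ℝ, ∀ X : Fin m → Fin n → ℕ, IsTable rs cs X →
      Pr (rLen (List.ofFn rs) (List.ofFn cs) k)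
        (fun ω => round (List.ofFn rs) (List.ofFn cs) k ω = some (flat X)) = κ := by
  obtain ⟨κ, hκ⟩ := exact_round_prob (doeb_tstep rs cs h) (tx0_mem rs cs h) k
  refine ⟨κ, fun X hX => ?_⟩
  obtain ⟨h1, h2⟩ := tenc_mem rs cs hX
  have := hκ _ h1
  rwa [h2] at this

theorem round_success (rs cs : List ℕ) {k : ℕ} (hk : 1 ≤ k) :
    1 / 2 ≤ Pr (rLen rs cs k) (fun ω => (round rs cs k ω).isSome = true) := by
  have h1 := Pr_allFalse (k := k) (r := rLen rs cs k) (Nat.le_add_right _ _)
  have h2 := Pr_not (rLen rs cs k) (fun l => (l.take k).all (fun b => !b) = true)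
  have h3 : Pr (rLen rs cs k) (fun l => ¬ (l.take k).all (fun b => !b) = true) ≤
      Pr (rLen rs cs k) (fun ω => (round rs cs k ω).isSome = true) := by
    refine Pr_mono fun l _ hl => ?_
    unfold round
    rw [if_neg hl]; rfl
  have h4 : (1 : ℝ) / 2 ^ k ≤ 1 / 2 := by
    apply one_div_le_one_div_of_le (by norm_num)
    calc (2 : ℝ) = 2 ^ 1 := by norm_num
      _ ≤ 2 ^ k := pow_le_pow_right₀ (by norm_num) hk
  linarith

/-- `round_sound` and `round_prob`: the success probability is `κ` times the number of tables. -/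
theorem round_ratio (h : ∑ i, rs i = ∑ j, cs j) {k : ℕ} (hk : 1 ≤ k) {X : Fin m → Fin n → ℕ}
    (hX : IsTable rs cs X) :
    Pr (rLen (List.ofFn rs) (List.ofFn cs) k)
        (fun ω => round (List.ofFn rs) (List.ofFn cs) k ω = some (flat X)) /
      Pr (rLen (List.ofFn rs) (List.ofFn cs) k)
        (fun ω => (round (List.ofFn rs) (List.ofFn cs) k ω).isSome = true) =
      1 / (numBoundedTables rs cs (fun _ _ => ∑ i, rs i) : ℝ) := by
  classical
  have H := doeb_tstep rs cs h
  have h0 := tx0_mem rs cs h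
  obtain ⟨κ, hκ⟩ := exact_round_prob H h0 k
  obtain ⟨h1, h2⟩ := tenc_mem rs cs hX
  have hXκ := hκ _ h1
  rw [h2] at hXκ
  have hs := round_success (List.ofFn rs) (List.ofFn cs) hk
  have htot : Pr (rLen (List.ofFn rs) (List.ofFn cs) k)
        (fun ω => (round (List.ofFn rs) (List.ofFn cs) k ω).isSome = true) =
      (tOm (List.ofFn rs) (List.ofFn cs)).card * κ := by
    rw [← nsmul_eq_mul, ← Finset.sum_const, ← Finset.sum_congr rfl hκ]
    unfold Pr
    rw [← Ex_sum]
    refine Ex_congr fun l _ => ?_
    rcases hr : round (List.ofFn rs) (List.ofFn cs) k l with _ | z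
    · simp [hr]
    · obtain ⟨w, hw, rfl⟩ := exact_round_mem H.closed h0 k l hr
      rw [Finset.sum_eq_single w]
      · simp [hr]
      · intro b hb hbw
        rw [if_neg]
        intro e
        rw [hr] at e
        exact hbw (tdec_injOn hw hb (Option.some.inj e)).symm
      · intro h'; exact absurd hw h'
  rw [htot, card_tOm] at hs
  rw [htot, hXκ, card_tOm]
  have hκ0 : κ ≠ 0 := by
    rintro rfl
    norm_num at hs
  have hc : (numBoundedTables rs cs (fun _ _ => ∑ i, rs i) : ℝ) ≠ 0 := by
    intro e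
    rw [e] at hs
    norm_num at hs
  field_simp

end Crest.Agent.R309
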