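import Crest.Agent.R309.LC

/-! Row 309: the augmenting path lemma and the central fibre inequality. -/

set_option autoImplicit false
set_option linter.unusedSectionVars false

namespace Crest.Agent.R309

open Finset

variable {V E : Type} [Fintype V] [DecidableEq V] [Fintype E] [DecidableEq E]

lemma fibre_unit (G : Gr V E) (D : E → ℤ) (i : V) (hi : 0 < G.div D i) :
    ∃ (e : E) (c : ℤ) (k : V), i ≠ k ∧ (c = 1 ∧ 0 < D e ∨ c = -1 ∧ D e < 0) ∧
      G.div (Pi.single e c) = rt i k := by
  obtain ⟨e, -, he⟩ : ∃ e ∈ univ, 0 < G.inc i e * D e := by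
    by_contra h
    push Not at h
    exact absurd (sum_nonpos h) (not_le.2 hi)
  simp only [Gr.inc, rt] at he
  by_cases h1 : G.tl e = i <;> by_cases h2 : G.hd e = i
  · simp [h1, h2] at he
  · refine ⟨e, 1, G.hd e, Ne.symm h2, Or.inl ⟨rfl, by simpa [h1, h2] using he⟩, ?_⟩
    rw [G.div_single, h1, one_smul]
  · refine ⟨e, -1, G.tl e, Ne.symm h1, Or.inr ⟨rfl, by simpa [h1, h2] using he⟩, ?_⟩
    rw [G.div_single, h2, neg_one_smul, rt_neg]
  · simp [h1, h2] at he

/-- Augmenting path.  Induction on `∑ |D e|`: pick `e` with `inc i e * D e > 0`, let `u = ± single e`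
be the unit of `D` on `e`, `div u = rt i k`.  If `div D k < 0` take `P = u`; otherwise apply the
induction hypothesis to `D - u` at `k` (there `div (D - u) k > 0`) and add `u`. -/
lemma exists_path (G : Gr V E) (D : E → ℤ) (i : V) (hi : 0 < G.div D i) :
    ∃ (P : E → ℤ) (j : V), G.div D j < 0 ∧ G.div P = rt i j ∧
      ∀ e, (0 ≤ P e ∧ P e ≤ D e) ∨ (D e ≤ P e ∧ P e ≤ 0) := by
  induction hn : ∑ e, (D e).natAbs using Nat.strong_induction_on generalizing D i with
  | _ n ih =>
  obtain ⟨e, c, k, hk, hc, hdiv⟩ := fibre_unit G D i hi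
  have hcs : ∀ e', (Pi.single e c : E → ℤ) e' = if e' = e then c else 0 := fun e' => by
    simp [Pi.single_apply]
  by_cases h : G.div D k < 0
  · refine ⟨Pi.single e c, k, h, hdiv, fun e' => ?_⟩
    rw [hcs]
    split_ifs with h'
    · subst h'; omega
    · omega
  · have hlt : ∑ e', ((D - Pi.single e c : E → ℤ) e').natAbs < n := by
      rw [← hn]
      refine sum_lt_sum (fun e' _ => ?_) ⟨e, mem_univ _, ?_⟩
      · rw [Pi.sub_apply, hcs]
        split_ifs with h'
        · subst h'; omega
        · omega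
      · rw [Pi.sub_apply, hcs, if_pos rfl]; omega
    obtain ⟨P, j, h1, h2, h3⟩ := ih _ hlt (D - Pi.single e c) k (by
      rw [G.div_sub, hdiv, Pi.sub_apply]
      simp only [rt, if_neg hk, if_true]
      omega) rfl
    rw [G.div_sub, hdiv, Pi.sub_apply] at h1
    refine ⟨P + Pi.single e c, j, ?_, ?_, fun e' => ?_⟩
    · simp only [rt] at h1
      by_cases hij : i = j
      · subst hij
        rw [if_pos rfl, if_neg (Ne.symm hk)] at h1
        omega
      · rw [if_neg hij] at h1
        split_ifs at h1 <;> omega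
    · rw [G.div_add, hdiv, h2]
      funext v
      simp only [rt, Pi.add_apply]
      ring
    · have := h3 e'
      rw [Pi.sub_apply, hcs] at this
      rw [Pi.add_apply, hcs]
      split_ifs at this ⊢ with h'
      · subst h'; omega
      · omega

/-- Conformal path for a positive multiple of a root. -/
lemma exists_path_rt (G : Gr V E) (D : E → ℤ) (i j : V) (t : ℤ) (ht : 0 < t)
    (hD : G.div D = t • rt i j) :
    ∃ P : E → ℤ, G.div P = rt i j ∧ ∀ e, (0 ≤ P e ∧ P e ≤ D e) ∨ (D e ≤ P e ∧ P e ≤ 0) := by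
  by_cases hij : i = j
  · subst hij
    refine ⟨0, by rw [G.div_zero, rt_self], fun e => ?_⟩
    simp only [Pi.zero_apply]
    omega
  obtain ⟨P, k, h1, h2, h3⟩ := exists_path G D i (by simpa [hD, rt, Ne.symm hij] using ht)
  refine ⟨P, ?_, h3⟩
  by_contra hne
  have hk : j ≠ k := fun h => hne (h ▸ h2)
  simp only [hD, rt, Pi.smul_apply, smul_eq_mul, if_neg hk] at h1
  split_ifs at h1 <;> omega

/-- The number of flows of class `c` in the box `[lo, hi]`. -/
noncomputable def fibreN (G : Gr V E) (lo hi : E → ℤ) (c : V → ℤ) : ℕ :=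
  ((Fintype.piFinset fun e => Icc (lo e) (hi e)).filter fun z => G.div z = c).card

lemma fibre_refl (G : Gr V E) (lo hi : E → ℤ) (c c' : V → ℤ) (h : G.div (lo + hi) = c + c') :
    fibreN G lo hi c = fibreN G lo hi c' := by
  unfold fibreN
  refine card_bij' (fun z _ => lo + hi - z) (fun z _ => lo + hi - z) ?_ ?_ (by simp) (by simp)
  all_goals
    intro z hz
    simp only [mem_filter, Fintype.mem_piFinset, mem_Icc] at hz ⊢
    refine ⟨fun e => ?_, by rw [G.div_sub, h, hz.2]; abel⟩
    have := hz.1 e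
    simp only [Pi.sub_apply, Pi.add_apply]
    omega

lemma fibre_mul (G : Gr V E) (lo hi : E → ℤ) (c c' : V → ℤ) :
    fibreN G lo hi c * fibreN G lo hi c' =
      ∑ W ∈ (Fintype.piFinset fun e => Icc (2 * lo e) (2 * hi e)).filter
        (fun W => G.div W = c + c'),
        fibreN G (fun e => max (lo e) (W e - hi e)) (fun e => min (hi e) (W e - lo e)) c := by
  unfold fibreN
  rw [← card_product]
  rw [card_eq_sum_card_fiberwise (f := fun p : (E → ℤ) × (E → ℤ) => p.1 + p.2)
    (t := (Fintype.piFinset fun e => Icc (2 * lo e) (2 * hi e)).filter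
        (fun W => G.div W = c + c'))]
  · refine sum_congr rfl fun W hW => ?_
    simp only [mem_filter] at hW
    refine card_bij' (fun p _ => p.1) (fun z _ => (z, W - z)) ?_ ?_ ?_ (by simp)
    · rintro ⟨x, y⟩ hp
      simp only [mem_filter, mem_product, Fintype.mem_piFinset, mem_Icc] at hp ⊢
      obtain ⟨⟨⟨h1, h2⟩, h3, -⟩, rfl⟩ := hp
      refine ⟨fun e => ?_, h2⟩
      have := h1 e
      have := h3 e
      simp only [Pi.add_apply]
      omega
    · intro z hz
      simp only [mem_filter, mem_product, Fintype.mem_piFinset, mem_Icc] at hz ⊢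
      refine ⟨⟨⟨fun e => ?_, hz.2⟩, fun e => ?_, by rw [G.div_sub, hW.2, hz.2]; abel⟩, by abel⟩
      · have := hz.1 e
        omega
      · have := hz.1 e
        simp only [Pi.sub_apply]
        omega
    · rintro ⟨x, y⟩ hp
      simp only [mem_filter] at hp
      obtain ⟨-, rfl⟩ := hp
      simp
  · rintro ⟨x, y⟩ hp
    simp only [coe_product, coe_filter, Set.mem_prod, Set.mem_ofPred_eq, Fintype.mem_piFinset,
      mem_Icc] at hp ⊢
    obtain ⟨⟨h1, h2⟩, h3, h4⟩ := hp
    refine ⟨fun e => ?_, by rw [G.div_add, h2, h4]⟩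
    have := h1 e
    have := h3 e
    simp only [Pi.add_apply]
    omega

lemma fibre_pos (G : Gr V E) (lo hi : E → ℤ) (d : V → ℤ) (i j : V)
    (h : G.div (lo + hi) = d + d) (hr : 0 < fibreN G lo hi (d + rt i j)) :
    0 < fibreN G lo hi d := by
  obtain ⟨N, hN⟩ := card_pos.1 hr
  simp only [mem_filter, Fintype.mem_piFinset, mem_Icc] at hN
  obtain ⟨P, h1, h2⟩ := exists_path_rt G (N - (lo + hi - N)) i j 2 two_pos (by
    rw [G.div_sub, G.div_sub, h, hN.2, two_smul]; abel)
  refine card_pos.2 ⟨N - P, ?_⟩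
  simp only [mem_filter, Fintype.mem_piFinset, mem_Icc]
  refine ⟨fun e => ?_, by rw [G.div_sub, hN.2, h1]; abel⟩
  have := h2 e
  have := hN.1 e
  simp only [Pi.sub_apply, Pi.add_apply] at *
  omega

lemma fibre_central (G : Gr V E) (lo hi : E → ℤ) (d : V → ℤ) (i j : V)
    (h : G.div (lo + hi) = d + d) : fibreN G lo hi (d + rt i j) ≤ fibreN G lo hi d := by
  induction hn : ∑ e, (hi e - lo e + 1).toNat using Nat.strong_induction_on generalizing lo hi with
  | _ n ih =>
  rcases Nat.eq_zero_or_pos (fibreN G lo hi (d + rt i j)) with hr | hr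
  · omega
  have hz := fibre_pos G lo hi d i j h hr
  have hne : ∀ e, lo e ≤ hi e := by
    obtain ⟨N, hN⟩ := card_pos.1 hr
    simp only [mem_filter, Fintype.mem_piFinset, mem_Icc] at hN
    exact fun e => (hN.1 e).1.trans (hN.1 e).2
  have h1 := fibre_mul G lo hi (d + rt i j) (d - rt i j)
  have h2 := fibre_mul G lo hi d d
  have e1 : d + rt i j + (d - rt i j) = d + d := by abel
  rw [← fibre_refl G lo hi (d + rt i j) (d - rt i j) (by rw [h, e1]), e1] at h1
  set T := (Fintype.piFinset fun e => Icc (2 * lo e) (2 * hi e)).filter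
    (fun W => G.div W = d + d) with hT
  have hW : lo + hi ∈ T := by
    simp only [hT, mem_filter, Fintype.mem_piFinset, mem_Icc]
    refine ⟨fun e => ?_, h⟩
    have := hne e
    simp only [Pi.add_apply]
    omega
  rw [← add_sum_erase _ _ hW] at h1 h2
  simp only [Pi.add_apply, add_sub_cancel_right, add_sub_cancel_left, max_self, min_self] at h1 h2
  have h3 : ∑ W ∈ T.erase (lo + hi), fibreN G (fun e => max (lo e) (W e - hi e))
      (fun e => min (hi e) (W e - lo e)) (d + rt i j) ≤
      ∑ W ∈ T.erase (lo + hi), fibreN G (fun e => max (lo e) (W e - hi e))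
      (fun e => min (hi e) (W e - lo e)) d := by
    refine sum_le_sum fun W hW' => ?_
    obtain ⟨hne', hW'⟩ := mem_erase.1 hW'
    simp only [hT, mem_filter] at hW'
    refine ih _ ?_ _ _ ?_ rfl
    · rw [← hn]
      obtain ⟨e, he⟩ := Function.ne_iff.1 hne'
      refine sum_lt_sum (fun e' _ => by omega) ⟨e, mem_univ _, ?_⟩
      have := hne e
      simp only [Pi.add_apply] at he
      omega
    · rw [← hW'.2]
      congr 1
      funext e
      simp only [Pi.add_apply]
      omega
  change fibreN G lo hi _ * fibreN G lo hi _ = fibreN G lo hi _ + _ at h1 h2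
  by_contra hc
  push Not at hc
  nlinarith

/-- Central fibre inequality for boxes.  Strong induction on `∑ e, (hi e - lo e).toNat` (for
nonempty boxes).  Let `r`, `z` be the two cardinalities, `W₀ = lo + hi`.  The reflection
`x ↦ W₀ - x` shows that the classes `d + ρ` and `d - ρ` have the same size, so
`r² = ∑ W, |K_W (d + ρ)|` and `z² = ∑ W, |K_W d|`, the sums being over all `W` with `div W = 2 d`
(`(N, N') ↦ (N + N', N)`), where `K_W` is the box `[max lo (W - hi), min hi (W - lo)]`, symmetric about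
`W / 2`, strictly smaller unless `W = W₀`, in which case it is the box itself.  So
`r² - r ≤ z² - z`, whence `r ≤ z` if `z ≥ 1`.  If `z = 0` and `N` has divergence `d + ρ`, apply
`exists_path_rt` to `N - (W₀ - N)` (divergence `2 ρ`): `N - P` is in the box with divergence `d`. -/
theorem central_box (G : Gr V E) (lo hi : E → ℤ) (d : V → ℤ) (i j : V)
    (h : G.div (lo + hi) = d + d) :
    ((Fintype.piFinset fun e => Icc (lo e) (hi e)).filter fun z => G.div z = d + rt i j).card ≤
      ((Fintype.piFinset fun e => Icc (lo e) (hi e)).filter fun z => G.div z = d).card :=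
  fibre_central G lo hi d i j h

/-- Central fibre inequality for symmetric log-concave weights: expand every `a e` by `LC.layer`
(`Finset.prod_univ_sum`) and use `central_box` for the boxes `[k, W - k]` (they lie in `box R` when
the coefficient is nonzero, by symmetry). -/
theorem central (G : Gr V E) {R : ℕ} {a : E → ℤ → ℝ} (ha : Adm R a) {W : E → ℤ} (hs : Sym a W)
    {d : V → ℤ} (h : G.div W = d + d) {ρ : V → ℤ} (hρ : IsRt ρ) :
    Zc G R a (d + ρ) ≤ Zc G R a d := by
  obtain ⟨i, j, rfl⟩ := hρ
  choose c c0 c1 c2 using fun e => (ha.1 e).layer (hs e) (ha.2 e)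
  have key : ∀ b : V → ℤ, Zc G R a b =
      ∑ k ∈ box E R, (∏ e, c e (k e)) * (fibreN G k (W - k) b : ℝ) := by
    intro b
    have hw : ∀ z, wt a z = ∑ k ∈ box E R, if InBox k (W - k) z then ∏ e, c e (k e) else 0 := by
      intro z
      simp only [wt, c2, box]
      rw [prod_univ_sum]
      refine sum_congr rfl fun k _ => ?_
      rw [Fintype.prod_ite_zero]
      rfl
    simp only [Zc, hw]
    rw [sum_comm]
    refine sum_congr rfl fun k _ => ?_
    rw [← sum_filter, sum_const, nsmul_eq_mul, mul_comm]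
    by_cases h0 : ∏ e, c e (k e) = 0
    · simp [h0]
    congr 2
    unfold fibreN
    congr 1
    ext z
    rw [mem_filter, mem_filter, mem_cls, mem_box]
    simp only [Fintype.mem_piFinset, mem_Icc, InBox]
    refine ⟨fun h => ⟨h.2, h.1.2⟩, fun h => ⟨⟨fun e => ?_, h.2⟩, h.1⟩⟩
    have h1 := c1 e _ (prod_ne_zero_iff.1 h0 e (mem_univ _))
    have h2 := ha.2 e _ h1
    have h3 := ha.2 e _ (hs e _ ▸ h1)
    have h4 := h.1 e
    simp only [Pi.sub_apply] at h4
    rw [abs_le] at *
    omega
  rw [key, key]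
  refine sum_le_sum fun k _ => mul_le_mul_of_nonneg_left ?_ (prod_nonneg fun e _ => c0 e _)
  exact_mod_cast fibre_central G k (W - k) d i j (by rw [add_sub_cancel, h])

end Crest.Agent.R309
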