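import Crest.Agent.R309.TabDefs

/-! Row 309: approximate counting gives a symmetric chain with a Doeblin lower bound. -/

set_option autoImplicit false

namespace Crest.Agent.R309

open Finset Crest.Agent.Lib.PT

variable {D s : ℕ} {val : List Bool → Bool}

lemma mem_leaves {x : List Bool} : x ∈ leaves D val ↔ x.length = D ∧ val x = true := by
  simp [leaves, mem_allBits]

lemma below_nil : below D val [] = (leaves D val).card := by
  simp [below]

lemma below_succ {w : List Bool} (h : w.length < D) :
    below D val w = below D val (w ++ [false]) + below D val (w ++ [true]) := by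
  unfold below
  rw [← Finset.card_union_of_disjoint, ← Finset.filter_or]
  · refine congrArg Finset.card (Finset.filter_congr fun x hx => ?_)
    have hl : w.length < x.length := by rw [(mem_leaves.1 hx).1]; exact h
    simp only [List.length_append, List.length_singleton]
    rw [List.take_succ_eq_append_getElem hl]
    constructor
    · intro e
      rw [e]
      cases x[w.length] <;> simp
    · rintro (e | e) <;> exact (List.append_inj' e rfl).1
  · refine Finset.disjoint_filter.2 fun x _ e e' => ?_
    simp only [List.length_append, List.length_singleton] at e e'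
    simpa using e.symm.trans e'

lemma below_leaf {w : List Bool} (h : w.length = D) :
    below D val w = if val w then 1 else 0 := by
  unfold below
  have e : (leaves D val).filter (fun x => x.take w.length = w) =
      (leaves D val).filter (fun x => x = w) := Finset.filter_congr fun x hx => by
    rw [List.take_of_length_le (by rw [(mem_leaves.1 hx).1, h])]
  rw [e, Finset.filter_eq']
  by_cases hv : val w = true
  · rw [if_pos (mem_leaves.2 ⟨h, hv⟩), if_pos hv, Finset.card_singleton]
  · rw [if_neg (fun hw => hv (mem_leaves.1 hw).2), if_neg hv, Finset.card_empty]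

lemma card_leaves_le : (leaves D val).card ≤ 2 ^ D := by
  refine (List.toFinset_card_le _).trans ((List.length_filter_le _ _).trans ?_)
  rw [length_allBits]

lemma jvv_pos_succ (u : List Bool → ℕ) (w : List Bool) (b : Bool) :
    pos (w.length + 1) u (w ++ [b]) = pos w.length u w + if b then u (w ++ [false]) else 0 := by
  unfold pos
  rw [Finset.sum_range_succ]
  congr 1
  · refine Finset.sum_congr rfl fun i hi => ?_
    have hi' := Finset.mem_range.1 hi
    rw [List.getD_append _ _ _ _ hi', List.take_append_of_le_length hi'.le]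
  · simp

lemma jvv_iter (u : List Bool → ℕ) (U k : ℕ) : ((dstep u)^[k] ([], U)).1.length = k ∧
    U = ((dstep u)^[k] ([], U)).2 + pos k u ((dstep u)^[k] ([], U)).1 := by
  induction k with
  | zero => simp [pos]
  | succ k ih =>
    rw [Function.iterate_succ_apply']
    generalize (dstep u)^[k] ([], U) = st at ih ⊢
    obtain ⟨rfl, h2⟩ := ih
    unfold dstep
    split_ifs with h
    · refine ⟨by simp, ?_⟩
      simpa [jvv_pos_succ] using h2
    · refine ⟨by simp, ?_⟩
      simp only [jvv_pos_succ, if_true]
      omega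

/-- After `k` steps from `([], U)` the state is `(w, U')` with `w.length = k` and
`U = U' + ∑ i < k, [w i] u (w.take i ++ [false])`; at a leaf `U' < u w ≤ 1`. -/
lemma hit_eq_some {u : List Bool → ℕ} (hu : ∀ w, w.length = D → u w = if val w then 1 else 0)
    {U : ℕ} {y : List Bool} (h : hit D u U = some y) : y ∈ leaves D val ∧ U = pos D u y := by
  obtain ⟨h1, h2⟩ := jvv_iter u U D
  unfold hit at h
  split_ifs at h with h3
  obtain rfl := Option.some.inj h
  rw [hu _ h1] at h3
  split_ifs at h3 with h4
  · exact ⟨mem_leaves.2 ⟨h1, h4⟩, by omega⟩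
  · omega

/-- With super-additive weights every valid leaf is reached: the residual
`∑ i ∈ [k, D), [x i] u (x.take i ++ [false])` is `< u (x.take k)` (downward induction on `k`). -/
lemma hit_pos {u : List Bool → ℕ} (hu : ∀ w, w.length = D → u w = if val w then 1 else 0)
    (hs : ∀ w, w.length < D → u (w ++ [false]) + u (w ++ [true]) ≤ u w) {x : List Bool}
    (hx : x ∈ leaves D val) : hit D u (pos D u x) = some x ∧ pos D u x < u [] := by
  obtain ⟨hl, hv⟩ := mem_leaves.1 hx
  set res : ℕ → ℕ := fun k =>
    ∑ i ∈ Finset.Ico k D, if x.getD i false then u (x.take i ++ [false]) else 0 with hres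
  have r0 : res 0 = pos D u x := by simp only [hres, pos, Finset.range_eq_Ico]
  have rD : res D = 0 := by simp [hres]
  have rs : ∀ k, k < D → (res k = res (k + 1) ∧ x.take (k + 1) = x.take k ++ [false]) ∨
      (res k = u (x.take k ++ [false]) + res (k + 1) ∧ x.take (k + 1) = x.take k ++ [true]) := by
    intro k hk
    have hk' : k < x.length := by omega
    have e : res k = (if x.getD k false then u (x.take k ++ [false]) else 0) + res (k + 1) :=
      Finset.sum_eq_sum_Ico_succ_bot hk _
    rw [List.getD_eq_getElem _ _ hk'] at e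
    rw [List.take_succ_eq_append_getElem hk']
    cases hb : x[k]
    · left
      simpa [hb] using e
    · right
      simpa [hb] using e
  have c1 : ∀ j k, k + j = D → res k < u (x.take k) := by
    intro j
    induction j with
    | zero =>
      intro k hk
      obtain rfl : k = D := by omega
      rw [rD, List.take_of_length_le hl.le, hu x hl, if_pos hv]
      exact one_pos
    | succ j ih =>
      intro k hk
      have h1 := ih (k + 1) (by omega)
      have h2 := hs (x.take k) (by rw [List.length_take]; omega)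
      rcases rs k (by omega) with ⟨h3, h4⟩ | ⟨h3, h4⟩ <;> rw [h4] at h1 <;> omega
  have c2 : ∀ k, k ≤ D → (dstep u)^[k] ([], pos D u x) = (x.take k, res k) := by
    intro k
    induction k with
    | zero => intro _; simp [r0]
    | succ k ih =>
      intro hk
      have h1 := c1 (D - (k + 1)) (k + 1) (by omega)
      rw [Function.iterate_succ_apply', ih (by omega), dstep]
      rcases rs k (by omega) with ⟨h3, h4⟩ | ⟨h3, h4⟩
      · rw [h4] at h1
        rw [if_pos (by simpa [h3] using h1), h3, h4]
      · rw [if_neg (by simp [h3]), h3, h4]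
        simp
  refine ⟨?_, by simpa [r0] using c1 D 0 (by omega)⟩
  unfold hit
  rw [c2 D le_rfl, if_pos (c1 0 D rfl), List.take_of_length_le hl.le]

lemma jstep_mem {u : List Bool → ℕ} (hu : ∀ w, w.length = D → u w = if val w then 1 else 0)
    {x : List Bool} (hx : x ∈ leaves D val) (ω : List Bool) : jstep D u x ω ∈ leaves D val := by
  unfold jstep
  split_ifs
  · cases h : hit D u (ofBits (ω.take (D + 2)) % 2 ^ qq D u) with
    | none => exact hx
    | some y => exact (hit_eq_some hu h).1
  · exact hx

lemma jvv_Pr_mod {q r k : ℕ} (h : q ≤ r) (hk : k < 2 ^ q) :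
    Pr r (fun l => ofBits l % 2 ^ q = k) = 1 / 2 ^ q := by
  have e := Ex_ofBits_mod h fun j => if j = k then (1 : ℝ) else 0
  rw [Finset.sum_ite_eq', if_pos (Finset.mem_range.2 hk)] at e
  rw [← e]
  exact Ex_congr fun l _ => by congr

lemma jvv_Pr {u : List Bool → ℕ} (hu : ∀ w, w.length = D → u w = if val w then 1 else 0)
    {x y : List Bool} (hxy : x ≠ y) : Pr (D + 2) (fun ω => jstep D u x ω = y) =
      if (pos D u x < 2 ^ qq D u ∧ hit D u (pos D u x) = some x) ∧
        (pos D u y < 2 ^ qq D u ∧ hit D u (pos D u y) = some y) then 1 / 2 ^ qq D u else 0 := by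
  have key : ∀ U, (hit D u U).getD x = y ↔ U = pos D u y ∧ hit D u (pos D u y) = some y := by
    intro U
    constructor
    · intro e
      cases h : hit D u U with
      | none => rw [h] at e; exact absurd e hxy
      | some z =>
        rw [h] at e
        obtain rfl : z = y := e
        have := (hit_eq_some hu h).2
        exact ⟨this, this ▸ h⟩
    · rintro ⟨rfl, h⟩
      rw [h]
      rfl
  split_ifs with h
  · rw [← jvv_Pr_mod (q := qq D u) (r := D + 2) (min_le_left _ _) h.2.1]
    refine Pr_congr fun l hl => ?_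
    unfold jstep
    rw [if_pos h.1, key, List.take_of_length_le hl.le]
    exact and_iff_left h.2.2
  · rw [← Pr_false (D + 2)]
    refine Pr_congr fun l _ => iff_false_intro fun e => ?_
    unfold jstep at e
    split_ifs at e with h1
    · rw [key] at e
      exact h ⟨h1, e.1 ▸ Nat.mod_lt _ (by positivity), e.2⟩
    · exact hxy e

/-- For `x ≠ y` both sides are `[x reachable] [y reachable] / 2 ^ qq` (`Ex_ofBits_mod`). -/
lemma jstep_symm {u : List Bool → ℕ} (hu : ∀ w, w.length = D → u w = if val w then 1 else 0)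
    (x y : List Bool) :
    Pr (D + 2) (fun ω => jstep D u x ω = y) = Pr (D + 2) (fun ω => jstep D u y ω = x) := by
  by_cases hxy : x = y
  · rw [hxy]
  · rw [jvv_Pr hu hxy, jvv_Pr hu (Ne.symm hxy)]
    simp only [and_comm]

/-- `u [] ≤ 2 c ≤ 2 ^ (D + 1)`, so `qq = size (u [])` and `u [] < 2 ^ qq ≤ 2 u [] ≤ 4 c`. -/
lemma jstep_lower {u : List Bool → ℕ} (hu : ∀ w, w.length = D → u w = if val w then 1 else 0)
    (hs : ∀ w, w.length < D → u (w ++ [false]) + u (w ++ [true]) ≤ u w)
    (hr : u [] ≤ 2 * (leaves D val).card) {x y : List Bool} (hx : x ∈ leaves D val)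
    (hy : y ∈ leaves D val) :
    1 / (4 * ((leaves D val).card : ℝ)) ≤ Pr (D + 2) (fun ω => jstep D u x ω = y) := by
  obtain ⟨x1, x2⟩ := hit_pos hu hs hx
  obtain ⟨y1, y2⟩ := hit_pos hu hs hy
  have hc : (leaves D val).card ≤ 2 ^ D := card_leaves_le
  have hq : qq D u = Nat.size (u []) := by
    refine min_eq_right (Nat.size_le.2 ?_)
    have : 0 < 2 ^ D := by positivity
    rw [pow_add]
    omega
  have h1 : u [] < 2 ^ qq D u := by rw [hq]; exact Nat.lt_size_self _
  have h2 : 2 ^ qq D u ≤ 4 * (leaves D val).card := by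
    have h3 : 0 < Nat.size (u []) := Nat.size_pos.2 (by omega)
    obtain ⟨q, hq'⟩ : ∃ q, Nat.size (u []) = q + 1 := ⟨_, (Nat.succ_pred_eq_of_pos h3).symm⟩
    have h4 : 2 ^ q ≤ u [] := Nat.lt_size.1 (by omega)
    rw [hq, hq', pow_succ]
    omega
  refine le_trans ?_ ((jvv_Pr_mod (q := qq D u) (r := D + 2) (min_le_left _ _)
    (y2.trans h1)).symm.le.trans (Pr_mono fun l hl e => ?_))
  · refine one_div_le_one_div_of_le (by positivity) ?_
    exact_mod_cast h2
  · unfold jstep
    rw [if_pos ⟨x2.trans h1, x1⟩, List.take_of_length_le hl.le, e, y1]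
    rfl

lemma uOf_leaf (est : List Bool → ℚ) {w : List Bool} (h : w.length = D) :
    uOf D s val est w = if val w then 1 else 0 := by
  unfold uOf
  rw [if_pos h.ge]

lemma jvv_pow {x : ℚ} (hx : 0 ≤ x) (n : ℕ) : (1 + x) ^ n * (1 - n * x) ≤ 1 := by
  induction n with
  | zero => simp
  | succ n ih =>
    have p0 : (0 : ℚ) ≤ (1 + x) ^ n := by positivity
    have n0 : (0 : ℚ) ≤ n := Nat.cast_nonneg _
    have h : (1 + x) * (1 - (n + 1) * x) ≤ 1 - n * x := by
      nlinarith [mul_nonneg n0 (sq_nonneg x), sq_nonneg x]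
    rw [pow_succ, mul_assoc]
    push_cast
    exact (mul_le_mul_of_nonneg_left h p0).trans ih

/-- With `ε = 1 / s`: `uOf w ≤ (1 + ε) (1 + 3 ε) ^ (D - |w|) below w` for all `|w| ≤ D`,
`1 + ε ≤ (1 - ε) (1 + 3 ε)`, and `(1 + 3 ε) ^ (D + 1) ≤ 2`. -/
lemma uOf_good (hs : 8 * (D + 1) ≤ s) {est : List Bool → ℚ}
    (h : ∀ w : List Bool, w.length < D → (1 - 1 / (s : ℚ)) * below D val w ≤ est w ∧
      est w ≤ (1 + 1 / (s : ℚ)) * below D val w) :
    (∀ w, w.length < D →
      uOf D s val est (w ++ [false]) + uOf D s val est (w ++ [true]) ≤ uOf D s val est w) ∧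
      uOf D s val est [] ≤ 2 * (leaves D val).card := by
  have s8 : (8 : ℚ) * (D + 1) ≤ s := by exact_mod_cast hs
  have D0 : (0 : ℚ) ≤ D := Nat.cast_nonneg _
  have s0 : (0 : ℚ) < s := by linarith
  have e3 : 3 / (s : ℚ) = 3 * (1 / s) := by ring
  have ε0 : (0 : ℚ) < 1 / s := by positivity
  have ε1 : 8 * ((D : ℚ) + 1) * (1 / s) ≤ 1 := by
    rw [mul_one_div, div_le_one s0]; exact s8
  have hu : ∀ w : List Bool, w.length < D →
      uOf D s val est w = ⌊est w * (1 + 3 * (1 / (s : ℚ))) ^ (D - w.length)⌋₊ := fun w hw => by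
    unfold uOf
    rw [if_neg (not_le.2 hw), e3]
  generalize 1 / (s : ℚ) = ε at h ε0 ε1 hu
  have ε2 : ε ≤ 1 / 8 := by nlinarith
  have up : ∀ w : List Bool, w.length ≤ D →
      (uOf D s val est w : ℚ) ≤ (1 + ε) * (1 + 3 * ε) ^ (D - w.length) * below D val w := by
    intro w hw
    have b0 : (0 : ℚ) ≤ below D val w := Nat.cast_nonneg _
    rcases hw.eq_or_lt with hw | hw
    · rw [uOf_leaf est hw, ← below_leaf hw, hw, Nat.sub_self, pow_zero]
      nlinarith
    · have p0 : (0 : ℚ) ≤ (1 + 3 * ε) ^ (D - w.length) := by positivity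
      have e0 : 0 ≤ est w := le_trans (mul_nonneg (by linarith) b0) (h w hw).1
      rw [hu w hw]
      refine (Nat.floor_le (mul_nonneg e0 p0)).trans ?_
      nlinarith [mul_le_mul_of_nonneg_right (h w hw).2 p0]
  refine ⟨fun w hw => ?_, ?_⟩
  · have h0 := up (w ++ [false]) (by simpa using hw)
    have h1 := up (w ++ [true]) (by simpa using hw)
    have h2 : (below D val w : ℚ) = below D val (w ++ [false]) + below D val (w ++ [true]) := by
      exact_mod_cast below_succ hw
    have b0 : (0 : ℚ) ≤ below D val w := Nat.cast_nonneg _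
    simp only [List.length_append, List.length_singleton] at h0 h1
    rw [hu w hw, show D - w.length = D - (w.length + 1) + 1 by omega, pow_succ]
    refine Nat.le_floor ?_
    have p0 : (0 : ℚ) ≤ (1 + 3 * ε) ^ (D - (w.length + 1)) := by positivity
    generalize (1 + 3 * ε) ^ (D - (w.length + 1)) = p at h0 h1 p0 ⊢
    have h3 : (1 + ε) * below D val w ≤ est w * (1 + 3 * ε) := by
      have h4 := mul_le_mul_of_nonneg_right (h w hw).1 (show 0 ≤ 1 + 3 * ε by linarith)
      have h5 : 1 + ε ≤ (1 - ε) * (1 + 3 * ε) := by nlinarith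
      nlinarith [mul_le_mul_of_nonneg_right h5 b0]
    have h6 := mul_le_mul_of_nonneg_left h3 p0
    push_cast
    rw [h2] at h6
    linarith
  · have h0 := up [] (Nat.zero_le _)
    rw [below_nil, List.length_nil, Nat.sub_zero] at h0
    have h1 := jvv_pow (x := 3 * ε) (by linarith) (D + 1)
    have p0 : (0 : ℚ) ≤ (1 + 3 * ε) ^ D := by positivity
    have h2 : (1 + ε) * (1 + 3 * ε) ^ D ≤ 2 := by
      push_cast at h1
      rw [pow_succ] at h1
      have h3 : (1 + ε) * (1 + 3 * ε) ^ D ≤ (1 + 3 * ε) ^ D * (1 + 3 * ε) := by nlinarith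
      have h4 : 0 ≤ (1 + 3 * ε) ^ D * (1 + 3 * ε) := by positivity
      have h5 : 1 / 2 ≤ 1 - ((D : ℚ) + 1) * (3 * ε) := by nlinarith
      nlinarith [mul_le_mul_of_nonneg_left h5 h4]
    have c0 : (0 : ℚ) ≤ (leaves D val).card := Nat.cast_nonneg _
    have h6 : (uOf D s val est [] : ℚ) ≤ 2 * (leaves D val).card :=
      h0.trans (mul_le_mul_of_nonneg_right h2 c0)
    exact_mod_cast h6

/-- One random string is good for all nodes with probability at least `1 / 2` (union bound over the
fewer than `2 ^ D` nodes); `Pr_split`. -/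
theorem doeb_jstep (hs : 8 * (D + 1) ≤ s) {r : ℕ} {est : List Bool → List Bool → ℚ}
    (h : ∀ w : List Bool, w.length < D → Pr r (fun ρ =>
      ¬ ((1 - 1 / (s : ℚ)) * below D val w ≤ est ρ w ∧
        est ρ w ≤ (1 + 1 / (s : ℚ)) * below D val w)) ≤ (1 / 2) ^ (D + 1)) :
    Doeb (leaves D val) (r + (D + 2))
      (fun x ω => jstep D (uOf D s val (est (ω.take r))) x (ω.drop r)) := by
  classical
  have sp := fun x y : List Bool =>
    Pr_split r (D + 2) fun ρ v => jstep D (uOf D s val (est ρ)) x v = y
  refine ⟨fun x hx ω => jstep_mem (fun w hw => uOf_leaf _ hw) hx _, fun x _ y _ => ?_,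
    fun x hx y hy => ?_⟩
  · rw [sp, sp]
    exact Ex_congr fun ρ _ => jstep_symm (val := val) (fun w hw => uOf_leaf _ hw) x y
  rw [sp]
  set G : List Bool → Prop := fun ρ => ∀ w : List Bool, w.length < D →
    (1 - 1 / (s : ℚ)) * below D val w ≤ est ρ w ∧ est ρ w ≤ (1 + 1 / (s : ℚ)) * below D val w
    with hG
  have geo : ∀ n : ℕ, ∑ k ∈ range n, (2 : ℝ) ^ k ≤ 2 ^ n := by
    intro n
    induction n with
    | zero => simp
    | succ n ih => rw [Finset.sum_range_succ, pow_succ]; linarith
  have bad : Pr r (fun ρ => ¬ G ρ) ≤ 1 / 2 := by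
    refine (Pr_mono (Q := fun ρ => ∃ k ∈ range D, ∃ w ∈ (allBits k).toFinset,
      ¬ ((1 - 1 / (s : ℚ)) * below D val w ≤ est ρ w ∧
        est ρ w ≤ (1 + 1 / (s : ℚ)) * below D val w)) fun ρ _ hρ => ?_).trans
      ((Pr_exists_le _ _ _).trans ?_)
    · simp only [hG, not_forall] at hρ
      obtain ⟨w, hw, hρ⟩ := hρ
      exact ⟨_, Finset.mem_range.2 hw, w, List.mem_toFinset.2 (mem_allBits.2 rfl), hρ⟩
    · refine (Finset.sum_le_sum (g := fun k => (2 : ℝ) ^ k * (1 / 2) ^ (D + 1))
        fun k hk => (Pr_exists_le _ _ _).trans ?_).trans ?_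
      · refine (Finset.sum_le_sum (g := fun _ => (1 / 2 : ℝ) ^ (D + 1)) fun w hw => h w ?_).trans ?_
        · rw [mem_allBits.1 (List.mem_toFinset.1 hw)]
          exact Finset.mem_range.1 hk
        · rw [Finset.sum_const, nsmul_eq_mul]
          refine mul_le_mul_of_nonneg_right ?_ (by positivity)
          have := List.toFinset_card_le (allBits k)
          rw [length_allBits] at this
          exact_mod_cast this
      · rw [← Finset.sum_mul]
        refine (mul_le_mul_of_nonneg_right (geo D) (by positivity)).trans (le_of_eq ?_)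
        rw [pow_succ, ← mul_assoc, ← mul_pow]
        norm_num
  rw [Pr_not] at bad
  have c0 : (0 : ℝ) ≤ 1 / (4 * ((leaves D val).card : ℝ)) := by positivity
  refine le_trans ?_ (Ex_mono (F := fun ρ => 1 / (4 * ((leaves D val).card : ℝ)) *
    (if G ρ then 1 else 0)) fun ρ _ => ?_)
  · rw [Ex_mul_left]
    have e : Ex r (fun ρ => if G ρ then (1 : ℝ) else 0) = Pr r G := by
      unfold Pr
      congr
    rw [e]
    have e2 : 1 / (8 * ((leaves D val).card : ℝ)) =
        1 / (4 * ((leaves D val).card : ℝ)) * (1 / 2) := by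
      rw [div_mul_div_comm]
      congr 1 <;> ring
    rw [e2]
    exact mul_le_mul_of_nonneg_left (by linarith) c0
  · split_ifs with hρ
    · obtain ⟨h1, h2⟩ := uOf_good hs hρ
      rw [mul_one]
      exact jstep_lower (fun w hw => uOf_leaf _ hw) h1 h2 hx hy
    · rw [mul_zero]
      exact Pr_nonneg _ _

end Crest.Agent.R309
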