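import Crest.Agent.R309.Defs

/-! Row 309: scalar facts about log-concave sequences. -/

set_option autoImplicit false
set_option linter.unusedSectionVars false

namespace Crest.Agent.R309

open Finset

lemma LC.mul {p q : ℤ → ℝ} (hp : LC p) (hq : LC q) : LC (fun x => p x * q x) := by
  refine ⟨fun x => mul_nonneg (hp.1 x) (hq.1 x), fun x u v y h1 h2 h3 => ?_⟩
  have a := hp.2 x u v y h1 h2 h3
  have b := hq.2 x u v y h1 h2 h3
  have c := mul_le_mul a b (mul_nonneg (hq.1 x) (hq.1 y)) (mul_nonneg (hp.1 u) (hp.1 v))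
  calc p x * q x * (p y * q y) = p x * p y * (q x * q y) := by ring
    _ ≤ p u * p v * (q u * q v) := c
    _ = p u * q u * (p v * q v) := by ring

lemma LC.reflect {p : ℤ → ℝ} (hp : LC p) (W : ℤ) : LC (fun x => p (W - x)) := by
  refine ⟨fun x => hp.1 _, fun x u v y h1 h2 h3 => ?_⟩
  have a := hp.2 (W - y) (W - u) (W - v) (W - x) (by omega) (by omega) (by omega)
  rw [mul_comm] at a
  exact a

/-- Restriction to an order-connected set of integers. -/
lemma LC.restrict {p : ℤ → ℝ} (hp : LC p) (A : ℤ → Prop) [DecidablePred A]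
    (hA : ∀ x u y, A x → A y → x ≤ u → u ≤ y → A u) : LC (fun x => if A x then p x else 0) := by
  have h0 : ∀ x, 0 ≤ (if A x then p x else 0) := fun x => by
    split_ifs
    · exact hp.1 x
    · exact le_rfl
  refine ⟨h0, fun x u v y h1 h2 h3 => ?_⟩
  by_cases hx : A x
  · by_cases hy : A y
    · have hu := hA x u y hx hy h1 h2
      have hv := hA x v y hx hy (by omega) (by omega)
      simp only [hx, hy, hu, hv, if_true]
      exact hp.2 x u v y h1 h2 h3
    · simp only [hy, if_false, mul_zero]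
      exact mul_nonneg (h0 u) (h0 v)
  · simp only [hx, if_false, zero_mul]
    exact mul_nonneg (h0 u) (h0 v)

lemma LC.one : LC (fun _ => (1 : ℝ)) :=
  ⟨fun _ => zero_le_one, fun _ _ _ _ _ _ _ => le_rfl⟩

lemma LC.ne_zero_between {p : ℤ → ℝ} (hp : LC p) {x u y : ℤ} (hx : p x ≠ 0) (hy : p y ≠ 0)
    (h1 : x ≤ u) (h2 : u ≤ y) : p u ≠ 0 := by
  intro hu
  have a := hp.2 x u (x + y - u) y h1 h2 (by ring)
  rw [hu, zero_mul] at a
  have b : 0 < p x * p y :=
    mul_pos (lt_of_le_of_ne (hp.1 x) hx.symm) (lt_of_le_of_ne (hp.1 y) hy.symm)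
  linarith

/-- Local log-concavity and no internal zeros give the `PF₂` form.  (If `p x * p y ≠ 0`, then `p > 0`
on `[x, y]`, the ratios `p (k+1) / p k` decrease there; induct on `u - x`, with `u ≤ v` WLOG.) -/
lemma LC.of_local {p : ℤ → ℝ} (h0 : ∀ x, 0 ≤ p x) (h1 : ∀ x, p (x - 1) * p (x + 1) ≤ p x ^ 2)
    (h2 : ∀ x u y, p x ≠ 0 → p y ≠ 0 → x ≤ u → u ≤ y → p u ≠ 0) : LC p := by
  refine ⟨h0, fun x u v y hxu huy hs => ?_⟩
  by_cases hx : p x = 0
  · rw [hx, zero_mul]; exact mul_nonneg (h0 u) (h0 v)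
  by_cases hy : p y = 0
  · rw [hy, mul_zero]; exact mul_nonneg (h0 u) (h0 v)
  have hpos : ∀ z, x ≤ z → z ≤ y → 0 < p z := fun z a b =>
    lt_of_le_of_ne (h0 z) (h2 x z y hx hy a b).symm
  have step : ∀ (a : ℤ) (m : ℕ), x ≤ a → a + m + 1 ≤ y →
      p a * p (a + m + 1) ≤ p (a + 1) * p (a + m) := by
    intro a m ha
    induction m with
    | zero =>
      intro _
      simp [mul_comm]
    | succ m ih =>
      intro hm
      push_cast at hm ⊢
      have i1 := ih (by omega)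
      have i2 := h1 (a + m + 1)
      rw [show a + (m : ℤ) + 1 - 1 = a + m by ring] at i2
      have p1 := hpos (a + m) (by omega) (by omega)
      have p2 := hpos (a + m + 1) (by omega) (by omega)
      rw [show a + ((m : ℤ) + 1) = a + m + 1 by ring]
      have c := mul_le_mul i1 i2 (mul_nonneg (h0 _) (h0 _)) (mul_nonneg (h0 _) (h0 _))
      have d : p a * p (a + m + 1 + 1) * (p (a + m) * p (a + m + 1)) ≤
          p (a + 1) * p (a + m + 1) * (p (a + m) * p (a + m + 1)) := by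
        calc _ = p a * p (a + m + 1) * (p (a + m) * p (a + m + 1 + 1)) := by ring
          _ ≤ _ := c
          _ = _ := by ring
      exact le_of_mul_le_mul_right d (mul_pos p1 p2)
  have main : ∀ k : ℕ, 2 * (k : ℤ) ≤ y - x → p x * p y ≤ p (x + k) * p (y - k) := by
    intro k
    induction k with
    | zero => intro _; simp
    | succ k ih =>
      intro hk
      push_cast at hk ⊢
      refine (ih (by omega)).trans ?_
      obtain ⟨m, hm⟩ : ∃ m : ℕ, (m : ℤ) = y - k - 1 - (x + k) :=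
        ⟨(y - k - 1 - (x + k)).toNat, by omega⟩
      have := step (x + k) m (by omega) (by omega)
      rw [show x + (k : ℤ) + m + 1 = y - k by omega, show x + (k : ℤ) + m = y - (k + 1) by omega,
        show x + (k : ℤ) + 1 = x + (k + 1) by ring] at this
      exact this
  rcases le_total u v with huv | huv
  · obtain ⟨k, hk⟩ : ∃ k : ℕ, (k : ℤ) = u - x := ⟨(u - x).toNat, by omega⟩
    have := main k (by omega)
    rwa [show x + (k : ℤ) = u by omega, show y - (k : ℤ) = v by omega] at this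
  · obtain ⟨k, hk⟩ : ∃ k : ℕ, (k : ℤ) = v - x := ⟨(v - x).toNat, by omega⟩
    have := main k (by omega)
    rwa [show x + (k : ℤ) = v by omega, show y - (k : ℤ) = u by omega, mul_comm (p v)] at this

/-- A symmetric log-concave sequence increases towards its centre `W / 2`. -/
lemma LC.unimodal {p : ℤ → ℝ} (hp : LC p) {W : ℤ} (hs : ∀ x, p x = p (W - x)) {x u : ℤ}
    (h1 : x ≤ u) (h2 : u ≤ W - x) : p x ≤ p u := by
  have a := hp.2 x u (W - u) (W - x) h1 h2 (by ring)
  rw [← hs x, ← hs u] at a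
  exact (mul_self_le_mul_self_iff (hp.1 x) (hp.1 u)).2 a

lemma lc_telescope (q : ℤ → ℝ) (a : ℤ) {b : ℤ} (h : a - 1 ≤ b) :
    ∑ k ∈ Icc a b, (q k - q (k - 1)) = q b - q (a - 1) := by
  induction b, h using Int.le_induction with
  | base => simp
  | succ b hb ih =>
    have e : Icc a (b + 1) = insert (b + 1) (Icc a b) := by
      ext x
      simp only [mem_Icc, mem_insert]
      omega
    rw [e, sum_insert (by simp), ih, add_sub_cancel_right]
    ring

/-- Layer-cake decomposition of a symmetric log-concave sequence into symmetric intervals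
(`c k = p k - p (k - 1)` when `2 k ≤ W`, else `0`). -/
lemma LC.layer {p : ℤ → ℝ} (hp : LC p) {W : ℤ} (hs : ∀ x, p x = p (W - x)) {R : ℕ}
    (hR : ∀ x, p x ≠ 0 → |x| ≤ R) :
    ∃ c : ℤ → ℝ, (∀ k, 0 ≤ c k) ∧ (∀ k, c k ≠ 0 → p k ≠ 0) ∧
      ∀ x, p x = ∑ k ∈ Icc (-(R : ℤ)) R, if k ≤ x ∧ x ≤ W - k then c k else 0 := by
  have hz : ∀ x : ℤ, (x < -(R : ℤ) ∨ (R : ℤ) < x) → p x = 0 := fun x hx => by
    by_contra h
    have := abs_le.1 (hR x h)
    omega
  have hmono : ∀ k, 2 * k ≤ W → p (k - 1) ≤ p k := fun k hk =>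
    hp.unimodal hs (by omega) (by omega)
  refine ⟨fun k => if 2 * k ≤ W then p k - p (k - 1) else 0, fun k => ?_, fun k hk => ?_,
    fun x => ?_⟩
  · dsimp only
    split_ifs with h
    · exact sub_nonneg.2 (hmono k h)
    · exact le_rfl
  · dsimp only at hk
    split_ifs at hk with h
    · intro h0
      have h1 := hmono k h
      rw [h0] at h1
      exact hk (by rw [h0, le_antisymm h1 (hp.1 _), sub_zero])
    · exact absurd rfl hk
  · obtain ⟨m, hm1, hm2, hm3, hm4⟩ : ∃ m : ℤ, m ≤ x ∧ m ≤ W - x ∧ (m = x ∨ m = W - x) ∧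
        p x = p m := by
      rcases le_total x (W - x) with h | h
      · exact ⟨x, le_rfl, h, Or.inl rfl, rfl⟩
      · exact ⟨W - x, h, le_rfl, Or.inr rfl, hs x⟩
    have e1 : ∑ k ∈ Icc (-(R : ℤ)) R, (if k ≤ x ∧ x ≤ W - k then
        (if 2 * k ≤ W then p k - p (k - 1) else 0) else 0) =
        ∑ k ∈ Icc (-(R : ℤ)) (min m R), (p k - p (k - 1)) := by
      rw [← sum_filter]
      refine sum_congr ?_ fun k hk => ?_
      · ext k
        simp only [mem_filter, mem_Icc, le_min_iff]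
        omega
      · simp only [mem_Icc, le_min_iff] at hk
        rw [if_pos (by omega)]
    rw [e1, hm4]
    by_cases h1 : m < -(R : ℤ)
    · rw [Icc_eq_empty (by simp only [le_min_iff]; omega), sum_empty]
      exact hz m (Or.inl h1)
    · rw [lc_telescope p _ (by simp only [le_min_iff]; omega), hz (-(R : ℤ) - 1) (by omega),
        sub_zero]
      rcases le_total m R with h2 | h2
      · rw [min_eq_left h2]
      · rw [min_eq_right h2]
        rcases h2.eq_or_lt with h3 | h3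
        · rw [h3]
        · have h4 := hz m (Or.inr h3)
          have h5 : p R ≤ p m := hp.unimodal hs h2 (by omega)
          rw [h4] at h5 ⊢
          exact le_antisymm (hp.1 _) h5

lemma lc_interval_sum (W k : ℤ) (t : ℝ) :
    0 ≤ ∑ x ∈ Icc k (W - k), (5 * ((x : ℝ) - W / 2) ^ 4 + ((x : ℝ) - W / 2) ^ 2
      - 6 * t * ((x : ℝ) - W / 2) ^ 2 + t ^ 2) := by
  by_cases h : k ≤ W - k
  · let q : ℤ → ℝ := fun x => ((x : ℝ) - W / 2 + 1 / 2) *
      (((x : ℝ) - W / 2 + 1 / 2) ^ 2 - t - 1 / 4) ^ 2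
    have e : ∀ x : ℤ, 5 * ((x : ℝ) - W / 2) ^ 4 + ((x : ℝ) - W / 2) ^ 2
      - 6 * t * ((x : ℝ) - W / 2) ^ 2 + t ^ 2 = q x - q (x - 1) := fun x => by
      simp only [q]
      push_cast
      ring
    simp only [e]
    rw [lc_telescope q k (by omega)]
    have h' : (k : ℝ) ≤ W - k := by exact_mod_cast h
    have e2 : q (W - k) - q (k - 1) = 2 * (((W : ℝ) / 2 - k + 1 / 2) *
      (((W : ℝ) / 2 - k + 1 / 2) ^ 2 - t - 1 / 4) ^ 2) := by
      simp only [q]
      push_cast
      ring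
    rw [e2]
    exact mul_nonneg (by norm_num) (mul_nonneg (by linarith) (sq_nonneg _))
  · rw [Icc_eq_empty h, sum_empty]

/-- Contraction of the quartic potential.  With `y = k - W/2`, `S = ∑ p`, `m2 = ∑ p y²`,
`m4 = ∑ p y⁴`, symmetry kills the odd moments, the left side is `2 m4 S + 6 m2² - 2 m2 S`, the right
side `S (16 m4 - 4 m2) / 3`, so the claim is `9 m2² ≤ S (5 m4 + m2)`.  This follows from
`∀ t, 0 ≤ ∑ p (5 y⁴ + y² - 6 t y² + t²)` (take `t = 3 m2 / S`), which is linear in `p`; by `LC.layer`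
it suffices to treat the indicator of `[k, W - k]`, where with `w = W - 2k`, `s = w (w + 2)` the sum is
`(w + 1) (s / 4 - t)²` (induction on `w` in steps of two). -/
lemma LC.psi_contract {p : ℤ → ℝ} (hp : LC p) {W : ℤ} (hs : ∀ x, p x = p (W - x)) {R : ℕ}
    (hR : ∀ x, p x ≠ 0 → |x| ≤ R) :
    ∑ k ∈ Icc (-(R : ℤ)) R, ∑ k' ∈ Icc (-(R : ℤ)) R, p k * p k' * psi (k - k') ≤
      1 / 3 * (∑ k ∈ Icc (-(R : ℤ)) R, p k) * ∑ k ∈ Icc (-(R : ℤ)) R, p k * psi (2 * k - W) := by
  set I := Icc (-(R : ℤ)) R with hI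
  let y : ℤ → ℝ := fun k => (k : ℝ) - W / 2
  set S := ∑ k ∈ I, p k with hS
  set m1 := ∑ k ∈ I, p k * y k with hm1
  set m2 := ∑ k ∈ I, p k * y k ^ 2 with hm2
  set m3 := ∑ k ∈ I, p k * y k ^ 3 with hm3
  set m4 := ∑ k ∈ I, p k * y k ^ 4 with hm4
  have hmem : ∀ k, p k ≠ 0 → k ∈ I := fun k hk => mem_Icc.2 (abs_le.1 (hR k hk))
  have h1 : m1 = 0 := by
    have : m1 = ∑ k ∈ I, -(p k * y k) := by
      refine sum_bij_ne_zero (fun k _ _ => W - k) (fun k _ hk => ?_) (fun a _ _ b _ _ e => ?_)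
        (fun b _ hb => ?_) (fun k _ _ => ?_)
      · exact hmem _ (hs k ▸ left_ne_zero_of_mul hk)
      · omega
      · have hb' : p b ≠ 0 := left_ne_zero_of_mul (neg_ne_zero.1 hb)
        refine ⟨W - b, hmem _ (hs b ▸ hb'), ?_, by ring⟩
        rw [← hs b]
        have : y (W - b) = -y b := by simp only [y]; push_cast; ring
        rw [this, mul_neg]
        exact hb
      · rw [← hs k]
        simp only [y]
        push_cast
        ring
    rw [sum_neg_distrib, ← hm1] at this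
    linarith
  have hL : ∑ k ∈ I, ∑ k' ∈ I, p k * p k' * psi (k - k') =
      2 * m4 * S - 8 * m3 * m1 + 6 * m2 ^ 2 - 2 * m2 * S + 2 * m1 ^ 2 := by
    have a : ∀ k, ∑ k' ∈ I, p k * p k' * psi (k - k') =
        S * (p k * y k ^ 4) - 4 * m1 * (p k * y k ^ 3) + (6 * m2 - S) * (p k * y k ^ 2)
          + (2 * m1 - 4 * m3) * (p k * y k) + (m4 - m2) * p k := fun k => by
      have b : ∀ k', p k * p k' * psi (k - k') =
          (p k * y k ^ 4 - p k * y k ^ 2) * p k' + (2 * p k * y k - 4 * p k * y k ^ 3) * (p k' * y k')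
            + (6 * p k * y k ^ 2 - p k) * (p k' * y k' ^ 2) - 4 * p k * y k * (p k' * y k' ^ 3)
            + p k * (p k' * y k' ^ 4) := fun k' => by
        simp only [psi, y]
        push_cast
        ring
      simp only [b, sum_add_distrib, sum_sub_distrib, ← mul_sum]
      rw [← hS, ← hm1, ← hm2, ← hm3, ← hm4]
      ring
    simp only [a, sum_add_distrib, sum_sub_distrib, ← mul_sum]
    rw [← hS, ← hm1, ← hm2, ← hm3, ← hm4]
    ring
  have hRr : ∑ k ∈ I, p k * psi (2 * k - W) = 16 * m4 - 4 * m2 := by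
    have b : ∀ k, p k * psi (2 * k - W) = 16 * (p k * y k ^ 4) - 4 * (p k * y k ^ 2) := fun k => by
      simp only [psi, y]
      push_cast
      ring
    simp only [b, sum_sub_distrib, ← mul_sum]
    rw [← hm2, ← hm4]
  obtain ⟨c, hc0, hc1, hc2⟩ := hp.layer hs hR
  have hq : ∀ t : ℝ, 0 ≤ S * (t * t) + (-6 * m2) * t + (5 * m4 + m2) := fun t => by
    have e1 : S * (t * t) + (-6 * m2) * t + (5 * m4 + m2) =
        ∑ x ∈ I, p x * (5 * y x ^ 4 + y x ^ 2 - 6 * t * y x ^ 2 + t ^ 2) := by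
      have b : ∀ x, p x * (5 * y x ^ 4 + y x ^ 2 - 6 * t * y x ^ 2 + t ^ 2) =
          5 * (p x * y x ^ 4) + (1 - 6 * t) * (p x * y x ^ 2) + t ^ 2 * p x := fun x => by ring
      simp only [b, sum_add_distrib, ← mul_sum]
      rw [← hS, ← hm2, ← hm4]
      ring
    have e2 : ∑ x ∈ I, p x * (5 * y x ^ 4 + y x ^ 2 - 6 * t * y x ^ 2 + t ^ 2) =
        ∑ k ∈ I, c k * ∑ x ∈ I.filter (fun x => k ≤ x ∧ x ≤ W - k),
          (5 * y x ^ 4 + y x ^ 2 - 6 * t * y x ^ 2 + t ^ 2) := by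
      calc _ = ∑ x ∈ I, ∑ k ∈ I, (if k ≤ x ∧ x ≤ W - k then
            c k * (5 * y x ^ 4 + y x ^ 2 - 6 * t * y x ^ 2 + t ^ 2) else 0) := by
            refine sum_congr rfl fun x _ => ?_
            rw [hc2 x, sum_mul]
            refine sum_congr rfl fun k _ => ?_
            split_ifs
            · rfl
            · rw [zero_mul]
        _ = _ := by
            rw [sum_comm]
            refine sum_congr rfl fun k _ => ?_
            rw [mul_sum, sum_filter]
    rw [e1, e2]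
    refine sum_nonneg fun k _ => ?_
    by_cases hk : c k = 0
    · rw [hk, zero_mul]
    · have a1 := abs_le.1 (hR k (hc1 k hk))
      have a2 := abs_le.1 (hR (W - k) (hs k ▸ hc1 k hk))
      have e3 : I.filter (fun x => k ≤ x ∧ x ≤ W - k) = Icc k (W - k) := by
        ext x
        simp only [hI, mem_filter, mem_Icc]
        omega
      rw [e3]
      exact mul_nonneg (hc0 k) (lc_interval_sum W k t)
  have hd := discrim_le_zero hq
  unfold discrim at hd
  rw [hL, hRr, h1]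
  nlinarith

lemma lc_max_le_right {p : ℤ → ℝ} (hp : LC p) {α ω : ℤ} {Z : ℝ} {n : ℕ}
    (hZ : ∑ x ∈ Icc α ω, p x ≤ Z) (hr : ∀ x, α ≤ x → x ≤ ω → Z ≤ 2 ^ n * p x)
    {k : ℤ} (h1 : α ≤ k) (h2 : k ≤ ω) : p k * ((ω - k : ℤ) : ℝ) ≤ 2 * (n + 1) * Z := by
  have hZ0 : 0 ≤ Z := (sum_nonneg fun x _ => hp.1 x).trans hZ
  rcases (hp.1 k).eq_or_lt with h0 | h0
  · rw [← h0, zero_mul]
    positivity
  have hkZ : p k ≤ Z :=
    (single_le_sum (f := p) (fun x _ => hp.1 x) (mem_Icc.2 ⟨h1, h2⟩)).trans hZ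
  have hn : (0 : ℤ) < n + 1 := by positivity
  set m : ℤ := (ω - k) / (n + 1) with hm
  have hm0 : 0 ≤ m := Int.ediv_nonneg (by omega) hn.le
  have hm1 : m * (n + 1) ≤ ω - k := Int.ediv_mul_le _ hn.ne'
  have hm2 : ω - k < (m + 1) * (n + 1) := Int.lt_ediv_add_one_mul_self _ hn
  have half : ∀ y : ℤ, 0 ≤ y → y ≤ m → p k / 2 ≤ p (k + y) := by
    intro y hy0 hym
    have geo : ∀ j : ℕ, p (k + j * y) * p k ^ j ≤ p (k + y) ^ j * p k := by
      intro j
      induction j with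
      | zero => simp
      | succ j ih =>
        have hjy : 0 ≤ (j : ℤ) * y := by positivity
        have a := hp.2 k (k + y) (k + j * y) (k + (j + 1 : ℕ) * y) (by omega)
          (by push_cast; nlinarith) (by push_cast; ring)
        calc p (k + (j + 1 : ℕ) * y) * p k ^ (j + 1)
            = (p k * p (k + (j + 1 : ℕ) * y)) * p k ^ j := by ring
          _ ≤ (p (k + y) * p (k + j * y)) * p k ^ j := by gcongr
          _ = p (k + y) * (p (k + j * y) * p k ^ j) := by ring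
          _ ≤ p (k + y) * (p (k + y) ^ j * p k) := mul_le_mul_of_nonneg_left ih (hp.1 _)
          _ = p (k + y) ^ (j + 1) * p k := by ring
    by_contra hlt
    rw [not_le] at hlt
    have g := geo (n + 1)
    have hy1 : 0 ≤ ((n + 1 : ℕ) : ℤ) * y := by positivity
    have hy2 : ((n + 1 : ℕ) : ℤ) * y ≤ ω - k := by push_cast; nlinarith
    have r := hr (k + (n + 1 : ℕ) * y) (by omega) (by omega)
    have b1 : p (k + y) ^ (n + 1) ≤ (p k / 2) ^ (n + 1) := pow_le_pow_left₀ (hp.1 _) hlt.le _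
    have b2 : p k * p k ^ (n + 1) ≤ 2 ^ n * ((p k / 2) ^ (n + 1) * p k) := by
      calc p k * p k ^ (n + 1) ≤ (2 ^ n * p (k + (n + 1 : ℕ) * y)) * p k ^ (n + 1) := by
            gcongr
            exact hkZ.trans r
        _ = 2 ^ n * (p (k + (n + 1 : ℕ) * y) * p k ^ (n + 1)) := by ring
        _ ≤ 2 ^ n * (p (k + y) ^ (n + 1) * p k) := by gcongr
        _ ≤ 2 ^ n * ((p k / 2) ^ (n + 1) * p k) := by gcongr
    have b3 : (2 : ℝ) ^ n * ((p k / 2) ^ (n + 1) * p k) = p k * p k ^ (n + 1) / 2 := by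
      rw [div_pow]
      field_simp
      ring
    have b4 : 0 < p k * p k ^ (n + 1) := by positivity
    linarith
  have hsum : ((m : ℝ) + 1) * (p k / 2) ≤ Z := by
    have hmle : m ≤ ω - k := by nlinarith
    have s1 : ∑ x ∈ Icc k (k + m), p x ≤ ∑ x ∈ Icc α ω, p x :=
      sum_le_sum_of_subset_of_nonneg (Icc_subset_Icc h1 (by omega)) fun x _ _ => hp.1 x
    have s2 : (Icc k (k + m)).card • (p k / 2) ≤ ∑ x ∈ Icc k (k + m), p x :=
      card_nsmul_le_sum _ _ _ fun x hx => by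
        have hx' := mem_Icc.1 hx
        have := half (x - k) (by omega) (by omega)
        rwa [add_sub_cancel] at this
    have s3 : (((Icc k (k + m)).card : ℕ) : ℝ) = (m : ℝ) + 1 := by
      have : (((Icc k (k + m)).card : ℕ) : ℤ) = m + 1 := by
        rw [Int.card_Icc]
        omega
      exact_mod_cast this
    rw [nsmul_eq_mul, s3] at s2
    linarith
  have hm3 : ((ω - k : ℤ) : ℝ) ≤ ((m : ℝ) + 1) * (n + 1) := by exact_mod_cast hm2.le
  calc p k * ((ω - k : ℤ) : ℝ) ≤ p k * (((m : ℝ) + 1) * (n + 1)) := by gcongr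
    _ = 2 * (n + 1) * (((m : ℝ) + 1) * (p k / 2)) := by ring
    _ ≤ 2 * (n + 1) * Z := by gcongr

/-- Anti-concentration.  WLOG `ω - k ≥ (ω - α) / 2` (reflect).  For `y (n + 1) ≤ ω - k` put
`q = p (k + y) / p k`; `PF₂` gives `p (k + j y) ≤ q ^ j p k`, and
`p k ≤ Z ≤ 2 ^ n p (k + (n + 1) y)`, so `q ≥ 1 / 2`.  Hence `Z ≥ ((ω - k) / (n + 1) + 1) p k / 2`. -/
lemma LC.max_le {p : ℤ → ℝ} (hp : LC p) {α ω : ℤ} {Z : ℝ} {n : ℕ}
    (hZ : ∑ x ∈ Icc α ω, p x ≤ Z) (hr : ∀ x, α ≤ x → x ≤ ω → Z ≤ 2 ^ n * p x)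
    {k : ℤ} (h1 : α ≤ k) (h2 : k ≤ ω) : p k * ((ω - α : ℤ) : ℝ) ≤ 4 * (n + 1) * Z := by
  have a := lc_max_le_right hp hZ hr h1 h2
  have hZ' : ∑ x ∈ Icc α ω, p (α + ω - x) ≤ Z := by
    refine le_trans (le_of_eq ?_) hZ
    refine sum_nbij' (fun x => α + ω - x) (fun x => α + ω - x) ?_ ?_ ?_ ?_ ?_
    · intro x hx
      simp only [mem_Icc] at hx ⊢
      omega
    · intro x hx
      simp only [mem_Icc] at hx ⊢
      omega
    · intro x _
      ring
    · intro x _
      ring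
    · intro x _
      rfl
  have b := lc_max_le_right (hp.reflect (α + ω)) (k := α + ω - k) hZ'
    (fun x a b => hr _ (by omega) (by omega)) (by omega) (by omega)
  simp only [sub_sub_cancel] at b
  push_cast at a b ⊢
  nlinarith

/-- `x ↦ t ^ |x|` is log-concave for `0 ≤ t ≤ 1`. -/
lemma LC.pow_natAbs {t : ℝ} (h0 : 0 ≤ t) (h1 : t ≤ 1) : LC (fun x => t ^ x.natAbs) := by
  refine ⟨fun x => pow_nonneg h0 _, fun x u v y a b c => ?_⟩
  rw [← pow_add, ← pow_add]
  exact pow_le_pow_of_le_one h0 h1 (by omega)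

lemma lc_card_offsets_le (P : ℕ) {x y : ℤ} (hxy : x ≤ y) :
    (((range P).filter fun o : ℕ => (x + o) / (P : ℤ) ≠ (y + o) / (P : ℤ)).card : ℤ) ≤ y - x := by
  have hsub : ((range P).filter fun o : ℕ => (x + o) / (P : ℤ) ≠ (y + o) / (P : ℤ)) ⊆
      (Ioc x y).image fun t : ℤ => ((-t) % (P : ℤ)).toNat := by
    intro o ho
    obtain ⟨ho1, ho2⟩ := mem_filter.1 ho
    have hoP : (o : ℤ) < P := by exact_mod_cast mem_range.1 ho1
    have hP : (0 : ℤ) < P := by omega
    have hle : (x + o) / (P : ℤ) ≤ (y + o) / (P : ℤ) := Int.ediv_le_ediv hP (by omega)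
    have hlt : (x + o) / (P : ℤ) + 1 ≤ (y + o) / (P : ℤ) := lt_of_le_of_ne hle ho2
    have a1 : (y + o) / (P : ℤ) * P ≤ y + o := Int.ediv_mul_le _ hP.ne'
    have a2 : x + o < ((x + o) / (P : ℤ) + 1) * P := Int.lt_ediv_add_one_mul_self _ hP
    have a3 : ((x + o) / (P : ℤ) + 1) * P ≤ (y + o) / (P : ℤ) * P :=
      mul_le_mul_of_nonneg_right hlt hP.le
    refine mem_image.2 ⟨(y + o) / (P : ℤ) * P - o, mem_Ioc.2 ⟨by omega, by omega⟩, ?_⟩
    rw [neg_sub, Int.sub_mul_emod_self_right, Int.emod_eq_of_lt (by omega) hoP]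
    rfl
  have h := (card_le_card hsub).trans card_image_le
  rw [Int.card_Ioc] at h
  omega

/-- At most `|x - y|` offsets separate `x` and `y` (for `x ≤ y`: some `t ∈ (x, y]` has `P ∣ t + o`,
and every `t` determines `o`). -/
lemma card_offsets_le (P : ℕ) (x y : ℤ) :
    (((range P).filter fun o : ℕ => (x + o) / (P : ℤ) ≠ (y + o) / (P : ℤ)).card : ℤ) ≤ |x - y| := by
  rcases le_total x y with h | h
  · rw [abs_sub_comm, abs_of_nonneg (sub_nonneg.2 h)]
    exact lc_card_offsets_le P h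
  · rw [abs_of_nonneg (sub_nonneg.2 h)]
    simp only [ne_comm (a := (x + _) / (P : ℤ))]
    exact lc_card_offsets_le P h

section
variable {E : Type} [Fintype E] [DecidableEq E]

lemma Adm.rfl' {R : ℕ} {a : E → ℤ → ℝ} (h : Adm R a) (W : E → ℤ) : Adm R (rfl' a W) :=
  ⟨fun e => (h.1 e).mul ((h.1 e).reflect (W e)), fun e x hx => h.2 e x (left_ne_zero_of_mul hx)⟩

lemma Adm.cut {R : ℕ} {a : E → ℤ → ℝ} (h : Adm R a) (P o : ℕ) (k : E → ℤ) :
    Adm R (cut a P o k) := by
  refine ⟨fun e => (h.1 e).restrict (fun x => (x + o) / (P : ℤ) = k e) ?_, fun e x hx => h.2 e x ?_⟩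
  · intro x u y hx hy h1 h2
    rcases Nat.eq_zero_or_pos P with rfl | hP
    · simpa using hx
    · have hP' : (0 : ℤ) < P := by exact_mod_cast hP
      have a1 : (x + o) / (P : ℤ) ≤ (u + o) / (P : ℤ) := Int.ediv_le_ediv hP' (by omega)
      have a2 : (u + o) / (P : ℤ) ≤ (y + o) / (P : ℤ) := Int.ediv_le_ediv hP' (by omega)
      omega
  · intro h0
    apply hx
    simp [Crest.Agent.R309.cut, h0]

lemma wid_cut (a : E → ℤ → ℝ) {P : ℕ} (hP : 0 < P) (o : ℕ) (k : E → ℤ) : Wid (cut a P o k) P := by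
  intro e x y hx hy
  have hP' : (0 : ℤ) < P := by exact_mod_cast hP
  have ex : (x + o) / (P : ℤ) = k e := by
    by_contra h0
    exact hx (by simp [cut, h0])
  have ey : (y + o) / (P : ℤ) = k e := by
    by_contra h0
    exact hy (by simp [cut, h0])
  have a1 : (x + o) / (P : ℤ) * P ≤ x + o := Int.ediv_mul_le _ hP'.ne'
  have a2 : x + o < ((x + o) / (P : ℤ) + 1) * P := Int.lt_ediv_add_one_mul_self _ hP'
  have b1 : (y + o) / (P : ℤ) * P ≤ y + o := Int.ediv_mul_le _ hP'.ne'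
  have b2 : y + o < ((y + o) / (P : ℤ) + 1) * P := Int.lt_ediv_add_one_mul_self _ hP'
  rw [ex] at a1 a2
  rw [ey] at b1 b2
  rw [add_mul, one_mul] at a2 b2
  rw [abs_le]
  constructor <;> linarith

lemma Adm.wid {R : ℕ} {a : E → ℤ → ℝ} (h : Adm R a) : Wid a (2 * R) := by
  intro e x y hx hy
  have a1 := abs_le.1 (h.2 e x hx)
  have a2 := abs_le.1 (h.2 e y hy)
  rw [abs_le]
  push_cast
  omega

/-- Restriction of the weights to a box. -/
lemma Adm.restrict {R : ℕ} {a : E → ℤ → ℝ} (h : Adm R a) (lo hi : E → ℤ) :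
    Adm R (fun e x => if lo e ≤ x ∧ x ≤ hi e then a e x else 0) := by
  refine ⟨fun e => (h.1 e).restrict (fun x => lo e ≤ x ∧ x ≤ hi e) ?_, fun e x hx => h.2 e x ?_⟩
  · intro x u y hx hy h1 h2
    exact ⟨hx.1.trans h1, h2.trans hy.2⟩
  · intro h0
    apply hx
    simp [h0]

lemma wt_restrict (a : E → ℤ → ℝ) (lo hi z : E → ℤ) :
    wt (fun e x => if lo e ≤ x ∧ x ≤ hi e then a e x else 0) z =
      if InBox lo hi z then wt a z else 0 := by
  split_ifs with h
  · exact prod_congr rfl fun e _ => if_pos (h e)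
  · obtain ⟨e, he⟩ := not_forall.1 h
    exact prod_eq_zero (mem_univ e) (if_neg he)

/-- A point coordinatewise between two points of positive weight has positive weight. -/
lemma Adm.wt_ne_zero_between {R : ℕ} {a : E → ℤ → ℝ} (h : Adm R a) {x y z : E → ℤ}
    (hx : wt a x ≠ 0) (hy : wt a y ≠ 0)
    (hz : ∀ e, (x e ≤ z e ∧ z e ≤ y e) ∨ (y e ≤ z e ∧ z e ≤ x e)) : wt a z ≠ 0 := by
  rw [wt_ne_zero] at hx hy ⊢
  intro e
  rcases hz e with h1 | h1
  · exact (h.1 e).ne_zero_between (hx e) (hy e) h1.1 h1.2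
  · exact (h.1 e).ne_zero_between (hy e) (hx e) h1.1 h1.2

/-- The number of offsets putting `x` and `y` into different windows. -/
lemma card_win_ne_le (P : ℕ) (x y : E → ℤ) (B : ℕ) (h : ∀ e, |x e - y e| ≤ B) :
    ((range P).filter fun o => win P o x ≠ win P o y).card ≤ Fintype.card E * B := by
  have hsub : ((range P).filter fun o => win P o x ≠ win P o y) ⊆ (univ : Finset E).biUnion
      fun e => (range P).filter fun o : ℕ => (x e + o) / (P : ℤ) ≠ (y e + o) / (P : ℤ) := by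
    intro o ho
    obtain ⟨ho1, ho2⟩ := mem_filter.1 ho
    obtain ⟨e, he⟩ := Function.ne_iff.1 ho2
    exact mem_biUnion.2 ⟨e, mem_univ e, mem_filter.2 ⟨ho1, he⟩⟩
  refine (card_le_card hsub).trans ?_
  refine card_biUnion_le_card_mul _ _ _ fun e _ => ?_
  have := (card_offsets_le P (x e) (y e)).trans (h e)
  exact_mod_cast this

end

end Crest.Agent.R309
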