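import Crest.Agent.R309.Tape

/-! Row 309: lazy reversible chains, weak Poincaré inequality ⇒ mixing; warm starts; Doeblin. -/

set_option autoImplicit false

namespace Crest.Agent.R309

open Finset Crest.Agent.Lib.PT

variable {α : Type}

/-- A lazy chain on `Ω`, reversible for the positive weights `π`. -/
structure Rev (Ω : Finset α) (π : α → ℝ) (r : ℕ) (step : α → List Bool → α) : Prop where
  pos : ∀ x ∈ Ω, 0 < π x
  closed : ∀ x ∈ Ω, ∀ ω, step x ω ∈ Ω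
  rev : ∀ x ∈ Ω, ∀ y ∈ Ω, π x * Pr r (fun ω => step x ω = y) = π y * Pr r (fun ω => step y ω = x)
  lazy : ∀ x ∈ Ω, 1 / 2 ≤ Pr r (fun ω => step x ω = x)

/-- Twice the Dirichlet form. -/
noncomputable def En (Ω : Finset α) (π : α → ℝ) (r : ℕ) (step : α → List Bool → α) (f : α → ℝ) : ℝ :=
  ∑ x ∈ Ω, ∑ y ∈ Ω, π x * Pr r (fun ω => step x ω = y) * (f x - f y) ^ 2

/-- Mean for the normalised weights. -/
noncomputable def avg (Ω : Finset α) (π φ : α → ℝ) : ℝ := (∑ x ∈ Ω, π x * φ x) / ∑ x ∈ Ω, π x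

lemma markov_row {Ω : Finset α} (r : ℕ) {X : List Bool → α} (hX : ∀ l, l.length = r → X l ∈ Ω) :
    ∑ x ∈ Ω, Pr r (fun l => X l = x) = 1 := by
  have h := Ex_comp r Ω X hX fun _ => 1
  simp only [mul_one] at h
  rw [← h, Ex_const]

lemma markov_Kop {Ω : Finset α} {r : ℕ} {step : α → List Bool → α}
    (hc : ∀ x ∈ Ω, ∀ ω, step x ω ∈ Ω) (g : α → ℝ) {x : α} (hx : x ∈ Ω) :
    Kop r step g x = ∑ y ∈ Ω, Pr r (fun ω => step x ω = y) * g y :=
  Ex_comp r Ω (step x) (fun l _ => hc x hx l) g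

lemma markov_stat {Ω : Finset α} {π : α → ℝ} {r : ℕ} {step : α → List Bool → α}
    (H : Rev Ω π r step) (g : α → ℝ) :
    ∑ x ∈ Ω, π x * ∑ y ∈ Ω, Pr r (fun ω => step x ω = y) * g y = ∑ x ∈ Ω, π x * g x := by
  simp only [Finset.mul_sum]
  rw [Finset.sum_comm]
  refine Finset.sum_congr rfl fun y hy => ?_
  have h1 : ∀ x ∈ Ω, π x * (Pr r (fun ω => step x ω = y) * g y) =
      π y * g y * Pr r (fun ω => step y ω = x) := fun x hx => by
    rw [← mul_assoc, H.rev x hx y hy]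
    ring
  rw [Finset.sum_congr rfl h1, ← Finset.mul_sum, markov_row r fun l _ => H.closed y hy l, mul_one]

lemma markov_contr {Ω : Finset α} {π : α → ℝ} {r : ℕ} {step : α → List Bool → α}
    (H : Rev Ω π r step) (g : α → ℝ) (m : ℝ) :
    ∑ x ∈ Ω, π x * (Kop r step g x - m) ^ 2 ≤
      ∑ x ∈ Ω, π x * (g x - m) ^ 2 - En Ω π r step g / 2 := by
  have hrow : ∀ x ∈ Ω, ∑ y ∈ Ω, Pr r (fun ω => step x ω = y) = 1 := fun x hx =>
    markov_row r fun l _ => H.closed x hx l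
  have hexp : ∀ x ∈ Ω, ∀ c : ℝ, ∑ y ∈ Ω, Pr r (fun ω => step x ω = y) * (g y - c) ^ 2 =
      ∑ y ∈ Ω, Pr r (fun ω => step x ω = y) * (g y - m) ^ 2 -
        2 * (c - m) * (Kop r step g x - m) + (c - m) ^ 2 := by
    intro x hx c
    have h1 : ∀ y ∈ Ω, Pr r (fun ω => step x ω = y) * (g y - c) ^ 2 =
        Pr r (fun ω => step x ω = y) * (g y - m) ^ 2 -
          2 * (c - m) * (Pr r (fun ω => step x ω = y) * g y) +
          (2 * (c - m) * m + (c - m) ^ 2) * Pr r (fun ω => step x ω = y) := fun y _ => by ring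
    rw [Finset.sum_congr rfl h1, Finset.sum_add_distrib, Finset.sum_sub_distrib, ← Finset.mul_sum,
      ← Finset.mul_sum, hrow x hx, ← markov_Kop H.closed g hx]
    ring
  have h1 : ∀ x ∈ Ω, π x * (Kop r step g x - m) ^ 2 ≤
      π x * (g x - m) ^ 2 - (∑ y ∈ Ω, π x * Pr r (fun ω => step x ω = y) * (g x - g y) ^ 2) / 2 +
        (π x * ∑ y ∈ Ω, Pr r (fun ω => step x ω = y) * (g y - m) ^ 2 - π x * (g x - m) ^ 2) := by
    intro x hx
    have h2 : ∑ y ∈ Ω, π x * Pr r (fun ω => step x ω = y) * (g x - g y) ^ 2 =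
        π x * ∑ y ∈ Ω, Pr r (fun ω => step x ω = y) * (g y - g x) ^ 2 := by
      rw [Finset.mul_sum]
      exact Finset.sum_congr rfl fun y _ => by ring
    have h3 := Finset.single_le_sum (f := fun y => Pr r (fun ω => step x ω = y) *
      (g y - (2 * Kop r step g x - g x)) ^ 2)
      (fun y _ => mul_nonneg (Pr_nonneg _ _) (sq_nonneg _)) hx
    have h4 := mul_le_mul_of_nonneg_right (H.lazy x hx)
      (sq_nonneg (g x - (2 * Kop r step g x - g x)))
    have h5 := h4.trans h3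
    rw [hexp x hx] at h5
    rw [h2, hexp x hx (g x)]
    have h6 : (Kop r step g x - m) ^ 2 ≤ (g x - m) ^ 2 -
        (∑ y ∈ Ω, Pr r (fun ω => step x ω = y) * (g y - m) ^ 2 -
          2 * (g x - m) * (Kop r step g x - m) + (g x - m) ^ 2) / 2 +
        (∑ y ∈ Ω, Pr r (fun ω => step x ω = y) * (g y - m) ^ 2 - (g x - m) ^ 2) := by
      linarith
    have h7 := mul_le_mul_of_nonneg_left h6 (H.pos x hx).le
    linarith
  refine (Finset.sum_le_sum h1).trans (le_of_eq ?_)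
  rw [Finset.sum_add_distrib, Finset.sum_sub_distrib, Finset.sum_sub_distrib,
    markov_stat H fun y => (g y - m) ^ 2, ← Finset.sum_div, sub_self, add_zero, En]

lemma markov_avg {Ω : Finset α} {π φ : α → ℝ} (hπ : ∀ x ∈ Ω, 0 ≤ π x) (hφ : Unit01 φ) :
    0 ≤ avg Ω π φ ∧ avg Ω π φ ≤ 1 := by
  have h0 : 0 ≤ ∑ x ∈ Ω, π x := Finset.sum_nonneg hπ
  refine ⟨div_nonneg (Finset.sum_nonneg fun x hx => mul_nonneg (hπ x hx) (hφ x).1) h0,
    div_le_one_of_le₀ (Finset.sum_le_sum fun x hx => ?_) h0⟩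
  exact mul_le_of_le_one_right (hπ x hx) (hφ x).2

/-- Let `k x y = Pr (step x = y)`, `K g x = ∑ y ∈ Ω, k x y g y` on `Ω` (`Ex_comp`), `N = ∑ π`,
`⟨f, g⟩ = ∑ π f g`.  `K` is self-adjoint and preserves the mean; `En g = 2 ⟨g, (1 - K) g⟩`.
`K' = 2 K - 1` is a reversible stochastic matrix (laziness), so `‖K' g‖² ≤ ‖g‖²` (Jensen), i.e.
`⟨g, K g⟩ ≥ ‖K g‖²`.  Hence `V (K g) ≤ V g - En g / 2` for `V g = ∑ π (g - mean)²`, and
`V g ≤ ∑ π (g - m)² ≤ C En g + δ N`; so `V (K g) - δ N ≤ (1 - 1 / (2 C)) (V g - δ N)`. -/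
theorem Rev.mix {Ω : Finset α} {π : α → ℝ} {r : ℕ} {step : α → List Bool → α}
    (H : Rev Ω π r step) {C δ : ℝ} (hC : 1 ≤ C) (hδ : 0 ≤ δ)
    (hWP : ∀ f, Unit01 f → ∃ m : ℝ,
      ∑ x ∈ Ω, π x * (f x - m) ^ 2 ≤ C * En Ω π r step f + δ * ∑ x ∈ Ω, π x)
    {φ : α → ℝ} (hφ : Unit01 φ) (T : ℕ) :
    ∑ x ∈ Ω, π x * ((Kop r step)^[T] φ x - avg Ω π φ) ^ 2 ≤
      (δ + (1 - 1 / (2 * C)) ^ T) * ∑ x ∈ Ω, π x := by
  rcases Ω.eq_empty_or_nonempty with rfl | hne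
  · simp
  have hπ : ∀ x ∈ Ω, 0 ≤ π x := fun x hx => (H.pos x hx).le
  have hN : 0 < ∑ x ∈ Ω, π x := Finset.sum_pos H.pos hne
  have hmean : ∀ T, ∑ x ∈ Ω, π x * (Kop r step)^[T] φ x = avg Ω π φ * ∑ x ∈ Ω, π x := by
    intro T
    induction T with
    | zero => rw [avg, div_mul_cancel₀ _ hN.ne']; rfl
    | succ T ih =>
      rw [Function.iterate_succ_apply', ← ih, ← markov_stat H ((Kop r step)^[T] φ)]
      exact Finset.sum_congr rfl fun x hx => by rw [markov_Kop H.closed _ hx]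
  have hC0 : 0 < C := by linarith
  have hq : 0 ≤ 1 - 1 / (2 * C) := by
    rw [sub_nonneg, div_le_one (by linarith)]
    linarith
  induction T with
  | zero =>
    have h1 := markov_avg hπ hφ
    have h2 : ∑ x ∈ Ω, π x * ((Kop r step)^[0] φ x - avg Ω π φ) ^ 2 ≤ ∑ x ∈ Ω, π x := by
      refine Finset.sum_le_sum fun x hx => mul_le_of_le_one_right (hπ x hx) ?_
      rw [Function.iterate_zero_apply, sq_le_one_iff_abs_le_one, abs_le]
      constructor <;> linarith [(hφ x).1, (hφ x).2, h1.1, h1.2]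
    have h3 := mul_nonneg hδ hN.le
    rw [pow_zero]
    linarith
  | succ T ih =>
    rw [Function.iterate_succ_apply']
    set g := (Kop r step)^[T] φ with hg
    have h1 := markov_contr H g (avg Ω π φ)
    obtain ⟨m, hm⟩ := hWP g (Kop_iterate_unit01 r step hφ T)
    have h2 : ∑ x ∈ Ω, π x * (g x - avg Ω π φ) ^ 2 ≤ ∑ x ∈ Ω, π x * (g x - m) ^ 2 := by
      have h3 : ∀ x ∈ Ω, π x * (g x - avg Ω π φ) ^ 2 ≤ π x * (g x - m) ^ 2 -
          2 * (avg Ω π φ - m) * (π x * g x - avg Ω π φ * π x) := fun x hx => by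
        have h4 := mul_nonneg (hπ x hx) (sq_nonneg (avg Ω π φ - m))
        linarith
      refine (Finset.sum_le_sum h3).trans (le_of_eq ?_)
      rw [Finset.sum_sub_distrib, ← Finset.mul_sum, Finset.sum_sub_distrib, ← Finset.mul_sum,
        hmean T, sub_self, mul_zero, sub_zero]
    have h3 : (∑ x ∈ Ω, π x * (g x - avg Ω π φ) ^ 2 - δ * ∑ x ∈ Ω, π x) * (1 / (2 * C)) ≤
        En Ω π r step g / 2 := by
      rw [mul_one_div, div_le_div_iff₀ (by linarith) two_pos]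
      linarith
    have h4 := mul_le_mul_of_nonneg_left
      (show ∑ x ∈ Ω, π x * (g x - avg Ω π φ) ^ 2 - δ * ∑ x ∈ Ω, π x ≤
        (1 - 1 / (2 * C)) ^ T * ∑ x ∈ Ω, π x by linarith) hq
    rw [pow_succ]
    linarith

/-- The functional `L` is within `η` of the mean for `π`, on `[0, 1]`-valued test functions. -/
def Near (L : (α → ℝ) → ℝ) (Ω : Finset α) (π : α → ℝ) (η : ℝ) : Prop :=
  ∀ φ, Unit01 φ → |L φ - avg Ω π φ| ≤ η

/-- Warm start: with `c = avg Ω' π' φ ∈ [0, 1]`, `|L (K φ) - avg Ω π (K φ)| ≤ η`, the part of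
`avg Ω π (K φ - c)` outside `G` is at most `η₁` in absolute value, the part in `G` at most
`M * avg Ω' π' |K φ - c| ≤ M v` by Cauchy–Schwarz. -/
theorem Near.step [DecidableEq α] {L : (α → ℝ) → ℝ} {Ω Ω' G : Finset α} {π π' : α → ℝ}
    {η η₁ M v : ℝ} (hN : Near L Ω π η) (hπ : ∀ x ∈ Ω, 0 ≤ π x) (hs : 0 < ∑ x ∈ Ω, π x)
    (hπ' : ∀ x ∈ Ω', 0 ≤ π' x) (hs' : 0 < ∑ x ∈ Ω', π' x) (hG : G ⊆ Ω) (hG' : G ⊆ Ω')
    (hM0 : 0 ≤ M) (hM : ∀ x ∈ G, π x / ∑ y ∈ Ω, π y ≤ M * (π' x / ∑ y ∈ Ω', π' y))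
    (hbad : ∑ x ∈ Ω \ G, π x ≤ η₁ * ∑ x ∈ Ω, π x) (K : (α → ℝ) → α → ℝ)
    (hK : ∀ φ, Unit01 φ → Unit01 (K φ)) (hv : 0 ≤ v)
    (hmix : ∀ φ, Unit01 φ →
      ∑ x ∈ Ω', π' x * (K φ x - avg Ω' π' φ) ^ 2 ≤ v ^ 2 * ∑ x ∈ Ω', π' x) :
    Near (fun φ => L (K φ)) Ω' π' (η + η₁ + M * v) := by
  intro φ hφ
  have h1 := hN (K φ) (hK φ hφ)
  have hc := markov_avg hπ' hφ
  have hmix' := hmix φ hφ
  set c := avg Ω' π' φ with hcdef
  have h2 : ∑ x ∈ Ω', π' x * |K φ x - c| ≤ v * ∑ x ∈ Ω', π' x := by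
    refine le_of_abs_le (abs_le_of_sq_le_sq ?_ (mul_nonneg hv hs'.le))
    refine (Finset.sum_sq_le_sum_mul_sum_of_sq_le_mul Ω' (f := π')
      (g := fun x => π' x * (K φ x - c) ^ 2) hπ'
      (fun x hx => mul_nonneg (hπ' x hx) (sq_nonneg _)) fun x _ => le_of_eq ?_).trans ?_
    · rw [mul_pow, sq_abs]
      ring
    · have h3 := mul_le_mul_of_nonneg_left hmix' hs'.le
      linarith
  have h3 : ∑ x ∈ G, π x * |K φ x - c| ≤ M * v * ∑ x ∈ Ω, π x := by
    have h4 : ∀ x ∈ G, π x * |K φ x - c| ≤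
        (M * (∑ x ∈ Ω, π x) / ∑ x ∈ Ω', π' x) * (π' x * |K φ x - c|) := fun x hx => by
      rw [← mul_assoc]
      refine mul_le_mul_of_nonneg_right ?_ (abs_nonneg _)
      have h5 := hM x hx
      rw [div_le_iff₀ hs] at h5
      refine h5.trans (le_of_eq ?_)
      ring
    refine (Finset.sum_le_sum h4).trans ?_
    rw [← Finset.mul_sum]
    have h5 : ∑ x ∈ G, π' x * |K φ x - c| ≤ ∑ x ∈ Ω', π' x * |K φ x - c| :=
      Finset.sum_le_sum_of_subset_of_nonneg hG' fun x hx _ => mul_nonneg (hπ' x hx) (abs_nonneg _)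
    refine (mul_le_mul_of_nonneg_left (h5.trans h2) (by positivity)).trans (le_of_eq ?_)
    field_simp
  have h4 : ∑ x ∈ Ω \ G, π x * |K φ x - c| ≤ ∑ x ∈ Ω \ G, π x := by
    refine Finset.sum_le_sum fun x hx => mul_le_of_le_one_right (hπ x (Finset.mem_sdiff.1 hx).1) ?_
    rw [abs_le]
    constructor <;> linarith [(hK φ hφ x).1, (hK φ hφ x).2, hc.1, hc.2]
  have h5 : |avg Ω π (K φ) - c| ≤ η₁ + M * v := by
    have h6 : avg Ω π (K φ) - c = (∑ x ∈ Ω, π x * (K φ x - c)) / ∑ x ∈ Ω, π x := by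
      simp only [mul_sub]
      rw [Finset.sum_sub_distrib, ← Finset.sum_mul, avg]
      field_simp
    rw [h6, abs_div, abs_of_pos hs, div_le_iff₀ hs]
    refine (Finset.abs_sum_le_sum_abs _ _).trans ?_
    have h7 : ∑ x ∈ Ω, |π x * (K φ x - c)| = ∑ x ∈ Ω, π x * |K φ x - c| :=
      Finset.sum_congr rfl fun x hx => by rw [abs_mul, abs_of_nonneg (hπ x hx)]
    rw [h7, ← Finset.sum_sdiff hG]
    linarith
  have h6 := abs_sub_le (L (K φ)) (avg Ω π (K φ)) c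
  beta_reduce
  linarith

/-- A random variable with values in `Ω` is at distance zero from its own law. -/
theorem near_law (r : ℕ) (Ω : Finset α) (X : List Bool → α) (hX : ∀ l, l.length = r → X l ∈ Ω) :
    Near (fun φ => Ex r fun l => φ (X l)) Ω (fun x => Pr r fun l => X l = x) 0 ∧
      ∑ x ∈ Ω, Pr r (fun l => X l = x) = 1 := by
  refine ⟨fun φ _ => ?_, markov_row r hX⟩
  beta_reduce
  rw [avg, markov_row r hX, div_one, Ex_comp r Ω X hX, sub_self, abs_zero]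

/-- A symmetric chain on `Ω` with all transition probabilities at least `1 / (8 |Ω|)`. -/
structure Doeb (Ω : Finset α) (r : ℕ) (step : α → List Bool → α) : Prop where
  closed : ∀ x ∈ Ω, ∀ ω, step x ω ∈ Ω
  symm : ∀ x ∈ Ω, ∀ y ∈ Ω, Pr r (fun ω => step x ω = y) = Pr r (fun ω => step y ω = x)
  lower : ∀ x ∈ Ω, ∀ y ∈ Ω, 1 / (8 * (Ω.card : ℝ)) ≤ Pr r (fun ω => step x ω = y)

lemma markov_walk_mem {Ω : Finset α} {step : α → List Bool → α}
    (hc : ∀ x ∈ Ω, ∀ ω, step x ω ∈ Ω) (L : List (List Bool)) {x₀ : α} (h₀ : x₀ ∈ Ω) :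
    L.foldl step x₀ ∈ Ω := by
  induction L generalizing x₀ with
  | nil => exact h₀
  | cons u L ih => exact ih (hc x₀ h₀ u)

/-- One more step of the walk (`Ex_chunks_succ'`, `Ex_comp`). -/
lemma walk_succ {Ω : Finset α} {r : ℕ} {step : α → List Bool → α}
    (hc : ∀ x ∈ Ω, ∀ ω, step x ω ∈ Ω) {x₀ : α} (h₀ : x₀ ∈ Ω) (t : ℕ) (y : α) :
    Pr ((t + 1) * r) (fun l => (chunks (t + 1) r l).foldl step x₀ = y) =
      ∑ x ∈ Ω, Pr (t * r) (fun l => (chunks t r l).foldl step x₀ = x) *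
        Pr r (fun ω => step x ω = y) := by
  classical
  rw [← Ex_comp (t * r) Ω (fun l => (chunks t r l).foldl step x₀)
    (fun l _ => markov_walk_mem hc _ h₀) fun x => Pr r fun ω => step x ω = y]
  have h := Ex_chunks_succ' t r fun L => if L.foldl step x₀ = y then 1 else 0
  simp only [List.foldl_append, List.foldl_cons, List.foldl_nil] at h
  unfold Pr
  convert h

lemma walk_mem {Ω : Finset α} {step : α → List Bool → α}
    (hc : ∀ x ∈ Ω, ∀ ω, step x ω ∈ Ω) {x₀ : α} (h₀ : x₀ ∈ Ω) (L : List (List Bool)) :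
    L.foldl step x₀ ∈ Ω := markov_walk_mem hc L h₀

/-- The oscillation contracts: `k x y - 1 / (8 c) ≥ 0` has column sums `7 / 8`, so
`p_{t+1} y - p_{t+1} z ≤ 7 / 8 (max p_t - min p_t)`. -/
theorem Doeb.osc {Ω : Finset α} {r : ℕ} {step : α → List Bool → α} (H : Doeb Ω r step) {x₀ : α}
    (h₀ : x₀ ∈ Ω) (t : ℕ) {y z : α} (hy : y ∈ Ω) (hz : z ∈ Ω) :
    Pr (t * r) (fun l => (chunks t r l).foldl step x₀ = y) -
      Pr (t * r) (fun l => (chunks t r l).foldl step x₀ = z) ≤ (7 / 8) ^ t := by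
  induction t generalizing y z with
  | zero =>
    have h1 := Pr_le_one (0 * r) fun l => (chunks 0 r l).foldl step x₀ = y
    have h2 := Pr_nonneg (0 * r) fun l => (chunks 0 r l).foldl step x₀ = z
    rw [pow_zero]
    linarith
  | succ t ih =>
    rw [walk_succ H.closed h₀, walk_succ H.closed h₀]
    set p : α → ℝ := fun x => Pr (t * r) (fun l => (chunks t r l).foldl step x₀ = x) with hp
    obtain ⟨w, hw, hmin⟩ := Ω.exists_min_image p ⟨x₀, h₀⟩
    have hc : (0 : ℝ) < Ω.card := by exact_mod_cast Finset.card_pos.2 ⟨x₀, h₀⟩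
    have hcol : ∀ y ∈ Ω, ∑ x ∈ Ω, (Pr r (fun ω => step x ω = y) - 1 / (8 * (Ω.card : ℝ))) =
        7 / 8 := by
      intro y hy
      rw [Finset.sum_sub_distrib, Finset.sum_congr rfl fun x hx => H.symm x hx y hy,
        markov_row r fun l _ => H.closed y hy l, Finset.sum_const, nsmul_eq_mul]
      field_simp
      norm_num
    have h1 : ∑ x ∈ Ω, p x * (Pr r (fun ω => step x ω = y) - 1 / (8 * (Ω.card : ℝ))) ≤
        (p w + (7 / 8) ^ t) * (7 / 8) := by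
      rw [← hcol y hy, Finset.mul_sum]
      refine Finset.sum_le_sum fun x hx =>
        mul_le_mul_of_nonneg_right ?_ (sub_nonneg.2 (H.lower x hx y hy))
      have h2 : p x - p w ≤ (7 / 8) ^ t := ih hx hw
      rw [hcol y hy]
      linarith
    have h2 : p w * (7 / 8) ≤
        ∑ x ∈ Ω, p x * (Pr r (fun ω => step x ω = z) - 1 / (8 * (Ω.card : ℝ))) := by
      rw [← hcol z hz, Finset.mul_sum]
      exact Finset.sum_le_sum fun x hx =>
        mul_le_mul_of_nonneg_right (hmin x hx) (sub_nonneg.2 (H.lower x hx z hz))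
    simp only [mul_sub, Finset.sum_sub_distrib] at h1 h2
    rw [pow_succ]
    linarith

theorem Doeb.close {Ω : Finset α} {r : ℕ} {step : α → List Bool → α} (H : Doeb Ω r step) {x₀ : α}
    (h₀ : x₀ ∈ Ω) (t : ℕ) {y : α} (hy : y ∈ Ω) :
    |Pr (t * r) (fun l => (chunks t r l).foldl step x₀ = y) - 1 / (Ω.card : ℝ)| ≤ (7 / 8) ^ t := by
  have hc : (0 : ℝ) < Ω.card := by exact_mod_cast Finset.card_pos.2 ⟨x₀, h₀⟩
  have h1 : ∑ z ∈ Ω, Pr (t * r) (fun l => (chunks t r l).foldl step x₀ = z) = 1 :=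
    markov_row _ fun l _ => markov_walk_mem H.closed _ h₀
  have h2 := Finset.sum_le_sum fun z (hz : z ∈ Ω) => H.osc h₀ t hy hz
  have h3 := Finset.sum_le_sum fun z (hz : z ∈ Ω) => H.osc h₀ t hz hy
  rw [Finset.sum_sub_distrib, h1, Finset.sum_const, Finset.sum_const, nsmul_eq_mul,
    nsmul_eq_mul] at h2 h3
  have h4 : Pr (t * r) (fun l => (chunks t r l).foldl step x₀ = y) - 1 / (Ω.card : ℝ) =
      (Ω.card * Pr (t * r) (fun l => (chunks t r l).foldl step x₀ = y) - 1) / Ω.card := by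
    field_simp
  rw [h4, abs_div, abs_of_pos hc, div_le_iff₀ hc, abs_le]
  constructor <;> linarith

end Crest.Agent.R309
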