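import Crest.Agent.R309.RamSpec

/-! Row 309: a structured language for the word RAM and its compilation. -/

set_option autoImplicit false

namespace Crest.Agent.R309.Ram

open Crest.WordRAM

/-- Registers, memory, number of random words drawn. -/
structure St where
  regs : Fin 20 → ℕ
  mem : ℕ → ℕ
  drawn : ℕ

/-- The configuration at position `pc`. -/
def St.cfg (s : St) (pc : ℕ) : Cfg 20 := ⟨pc, false, s.regs, s.mem, s.drawn⟩

/-- The instructions we use inside blocks. -/
inductive Op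
  | const (d : Fin 20) (v : ℕ)
  | copy (d a : Fin 20)
  | add (d a b : Fin 20)
  | sub (d a b : Fin 20)
  | quot (d a b : Fin 20)
  | rem (d a b : Fin 20)
  | load (d a : Fin 20)
  | store (a b : Fin 20)
  | rand (d : Fin 20)

/-- The machine instruction. -/
def Op.ins : Op → Instr 20
  | .const d v => .const d v
  | .copy d a => .copy d a
  | .add d a b => .add d a b
  | .sub d a b => .sub d a b
  | .quot d a b => .quot d a b
  | .rem d a b => .rem d a b
  | .load d a => .load d a
  | .store a b => .store a b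
  | .rand d => .rand d

/-- Set a register. -/
def St.set (s : St) (d : Fin 20) (v : ℕ) : St := { s with regs := writeReg s.regs d v }

/-- The effect of an operation. -/
def Op.exe (w : ℕ) (ρ : ℕ → ℕ) (s : St) : Op → St
  | .const d v => s.set d (v % 2 ^ w)
  | .copy d a => s.set d (s.regs a)
  | .add d a b => s.set d ((s.regs a + s.regs b) % 2 ^ w)
  | .sub d a b => s.set d (s.regs a - s.regs b)
  | .quot d a b => s.set d (s.regs a / s.regs b)
  | .rem d a b => s.set d (s.regs a % s.regs b)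
  | .load d a => s.set d (s.mem (s.regs a))
  | .store a b => { s with mem := writeMem s.mem (s.regs b) (s.regs a) }
  | .rand d => { s with regs := writeReg s.regs d (ρ s.drawn % 2 ^ w), drawn := s.drawn + 1 }

/-- Structured commands. -/
inductive Cm
  | blk (l : List Op)
  | seq (c d : Cm)
  | ifz (a : Fin 20) (c d : Cm)
  | wnz (a : Fin 20) (c : Cm)

/-- Big-step semantics with the number of machine steps. -/
inductive Ev (w : ℕ) (ρ : ℕ → ℕ) : Cm → St → St → ℕ → Prop
  | blk (l : List Op) (s : St) : Ev w ρ (.blk l) s (l.foldl (Op.exe w ρ) s) l.length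
  | seq {c d : Cm} {s s' s'' : St} {m n : ℕ} :
      Ev w ρ c s s' m → Ev w ρ d s' s'' n → Ev w ρ (.seq c d) s s'' (m + n)
  | ifz {a : Fin 20} {c d : Cm} {s s' : St} {n : ℕ} :
      s.regs a = 0 → Ev w ρ c s s' n → Ev w ρ (.ifz a c d) s s' (n + 1)
  | ifn {a : Fin 20} {c d : Cm} {s s' : St} {n : ℕ} :
      s.regs a ≠ 0 → Ev w ρ d s s' n → Ev w ρ (.ifz a c d) s s' (n + 2)
  | wz {a : Fin 20} {c : Cm} {s : St} : s.regs a = 0 → Ev w ρ (.wnz a c) s s 1
  | wn {a : Fin 20} {c : Cm} {s s' s'' : St} {m n : ℕ} :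
      s.regs a ≠ 0 → Ev w ρ c s s' m → Ev w ρ (.wnz a c) s' s'' n →
      Ev w ρ (.wnz a c) s s'' (m + n + 2)

/-- Length of the code. -/
def Cm.len : Cm → ℕ
  | .blk l => l.length
  | .seq c d => c.len + d.len
  | .ifz _ c d => c.len + d.len + 2
  | .wnz _ c => c.len + 2

/-- The code, placed at position `b`. -/
def Cm.code : Cm → ℕ → List (Instr 20)
  | .blk l, _ => l.map Op.ins
  | .seq c d, b => c.code b ++ d.code (b + c.len)
  | .ifz a c d, b => .jumpIfZero a (b + d.len + 2) :: (d.code (b + 1) ++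
      .jump (b + d.len + 2 + c.len) :: c.code (b + d.len + 2))
  | .wnz a c, b => .jumpIfZero a (b + c.len + 2) :: (c.code (b + 1) ++ [.jump b])

lemma Cm.length_code (c : Cm) (b : ℕ) : (c.code b).length = c.len := by
  induction c generalizing b with
  | blk l => simp [Cm.code, Cm.len]
  | seq c d ihc ihd => simp [Cm.code, Cm.len, ihc, ihd]
  | ifz a c d ihc ihd => simp [Cm.code, Cm.len, ihc, ihd]; omega
  | wnz a c ih => simp [Cm.code, Cm.len, ih]

/-- `l` occurs in `code` at position `b`. -/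
def At (code : List (Instr 20)) (b : ℕ) (l : List (Instr 20)) : Prop :=
  ∃ u v, code = u ++ l ++ v ∧ u.length = b

lemma At.left {code : List (Instr 20)} {b : ℕ} {l m : List (Instr 20)} (h : At code b (l ++ m)) :
    At code b l := by
  obtain ⟨u, v, rfl, hu⟩ := h
  exact ⟨u, m ++ v, by simp, hu⟩

lemma At.right {code : List (Instr 20)} {b : ℕ} {l m : List (Instr 20)} (h : At code b (l ++ m)) :
    At code (b + l.length) m := by
  obtain ⟨u, v, rfl, hu⟩ := h
  exact ⟨u ++ l, v, by simp, by simp [hu]⟩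

lemma At.head {code : List (Instr 20)} {b : ℕ} {i : Instr 20} {m : List (Instr 20)}
    (h : At code b (i :: m)) : code[b]? = some i := by
  obtain ⟨u, v, rfl, rfl⟩ := h
  simp

lemma At.tail {code : List (Instr 20)} {b : ℕ} {i : Instr 20} {m : List (Instr 20)}
    (h : At code b (i :: m)) : At code (b + 1) m := At.right (l := [i]) h

variable {code : List (Instr 20)} {w : ℕ} {ρ : ℕ → ℕ}

lemma step_op {b : ℕ} {o : Op} (h : code[b]? = some o.ins) (s : St) :
    step ⟨20, code⟩ w ρ (s.cfg b) = (o.exe w ρ s).cfg (b + 1) := by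
  cases o <;> simp [step, St.cfg, h, Op.ins, Op.exe, St.set]

lemma step_jz {b t : ℕ} {a : Fin 20} (h : code[b]? = some (.jumpIfZero a t)) (s : St) :
    step ⟨20, code⟩ w ρ (s.cfg b) = s.cfg (if s.regs a = 0 then t else b + 1) := by
  simp [step, St.cfg, h]

lemma step_jump {b t : ℕ} (h : code[b]? = some (.jump t)) (s : St) :
    step ⟨20, code⟩ w ρ (s.cfg b) = s.cfg t := by
  simp [step, St.cfg, h]

lemma step_halt {b : ℕ} (h : code[b]? = some .halt) (s : St) :
    step ⟨20, code⟩ w ρ (s.cfg b) = ⟨b, true, s.regs, s.mem, s.drawn⟩ := by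
  simp [step, St.cfg, h]

theorem Ev.sim {c : Cm} {s s' : St} {n : ℕ} (h : Ev w ρ c s s' n) :
    ∀ b, At code b (c.code b) →
      (step ⟨20, code⟩ w ρ)^[n] (s.cfg b) = s'.cfg (b + c.len) := by
  induction h with
  | blk l s =>
    induction l generalizing s with
    | nil => intro b _; simp [Cm.len]
    | cons o l ih =>
      intro b hb
      simp only [Cm.code, List.map_cons] at hb
      rw [List.length_cons, Function.iterate_succ_apply, step_op hb.head, ih _ _ hb.tail]
      simp only [Cm.len, List.foldl_cons, List.length_cons]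
      congr 1; omega
  | @seq c d s s' s'' m n _ _ ih1 ih2 =>
    intro b hb
    have h2 := hb.right
    rw [Cm.length_code] at h2
    rw [add_comm m n, Function.iterate_add_apply, ih1 b hb.left, ih2 _ h2, Cm.len, add_assoc]
  | @ifz a c d s s' n h0 _ ih =>
    intro b hb
    have h2 := hb.tail.right.tail
    rw [Cm.length_code] at h2
    rw [Function.iterate_succ_apply, step_jz hb.head, if_pos h0,
      ih _ (by rwa [show b + d.len + 2 = b + 1 + d.len + 1 by omega] at h2 ⊢)]
    congr 1; simp [Cm.len]; omega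
  | @ifn a c d s s' n h0 _ ih =>
    intro b hb
    have h2 := hb.tail.right.head
    rw [Cm.length_code] at h2
    rw [show n + 2 = (n + 1) + 1 by omega, Function.iterate_succ_apply', Function.iterate_succ_apply,
      step_jz hb.head, if_neg h0, ih _ hb.tail.left, step_jump h2]
    congr 1; simp [Cm.len]; omega
  | @wz a c s h0 =>
    intro b hb
    simp only [Function.iterate_one]
    rw [step_jz hb.head, if_pos h0]
    congr 1
  | @wn a c s s' s'' m n h0 _ _ ih1 ih2 =>
    intro b hb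
    have h2 := hb.tail.right.head
    rw [Cm.length_code] at h2
    rw [show m + n + 2 = n + ((m + 1) + 1) by omega, Function.iterate_add_apply,
      Function.iterate_succ_apply', Function.iterate_succ_apply, step_jz hb.head, if_neg h0,
      ih1 _ hb.tail.left, step_jump h2, ih2 b hb]

/-- `c` runs from `s` in at most `n` steps to a state satisfying `Q`. -/
def Run (w : ℕ) (ρ : ℕ → ℕ) (c : Cm) (s : St) (n : ℕ) (Q : St → Prop) : Prop :=
  ∃ s' m, m ≤ n ∧ Ev w ρ c s s' m ∧ Q s'

lemma Run.mono {c : Cm} {s : St} {n n' : ℕ} {Q Q' : St → Prop} (h : Run w ρ c s n Q) (hn : n ≤ n')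
    (hQ : ∀ s, Q s → Q' s) : Run w ρ c s n' Q' := by
  obtain ⟨s', m, h1, h2, h3⟩ := h
  exact ⟨s', m, h1.trans hn, h2, hQ _ h3⟩

lemma Run.blk {l : List Op} {s : St} {n : ℕ} {Q : St → Prop} (hn : l.length ≤ n)
    (h : Q (l.foldl (Op.exe w ρ) s)) : Run w ρ (.blk l) s n Q := ⟨_, _, hn, Ev.blk l s, h⟩

lemma Run.seq {c d : Cm} {s : St} {m n k : ℕ} {Q R : St → Prop} (h : Run w ρ c s m Q)
    (h' : ∀ s', Q s' → Run w ρ d s' n R) (hk : m + n ≤ k) : Run w ρ (.seq c d) s k R := by
  obtain ⟨s', m', h1, h2, h3⟩ := h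
  obtain ⟨s'', n', h4, h5, h6⟩ := h' s' h3
  exact ⟨s'', m' + n', by omega, h2.seq h5, h6⟩

lemma Run.ifz {a : Fin 20} {c d : Cm} {s : St} {n k : ℕ} {Q : St → Prop} (h0 : s.regs a = 0)
    (h : Run w ρ c s n Q) (hk : n + 2 ≤ k) : Run w ρ (.ifz a c d) s k Q := by
  obtain ⟨s', m', h1, h2, h3⟩ := h
  exact ⟨s', _, by omega, h2.ifz h0, h3⟩

lemma Run.ifn {a : Fin 20} {c d : Cm} {s : St} {n k : ℕ} {Q : St → Prop} (h0 : s.regs a ≠ 0)
    (h : Run w ρ d s n Q) (hk : n + 2 ≤ k) : Run w ρ (.ifz a c d) s k Q := by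
  obtain ⟨s', m', h1, h2, h3⟩ := h
  exact ⟨s', _, by omega, h2.ifn h0, h3⟩

lemma Run.wz {a : Fin 20} {c : Cm} {s : St} {k : ℕ} {Q : St → Prop} (h0 : s.regs a = 0)
    (h : Q s) (hk : 1 ≤ k) : Run w ρ (.wnz a c) s k Q := ⟨s, 1, hk, Ev.wz h0, h⟩

lemma Run.wn {a : Fin 20} {c : Cm} {s : St} {m n k : ℕ} {Q R : St → Prop} (h0 : s.regs a ≠ 0)
    (h : Run w ρ c s m Q) (h' : ∀ s', Q s' → Run w ρ (.wnz a c) s' n R) (hk : m + n + 2 ≤ k) :
    Run w ρ (.wnz a c) s k R := by
  obtain ⟨s', m', h1, h2, h3⟩ := h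
  obtain ⟨s'', n', h4, h5, h6⟩ := h' s' h3
  exact ⟨s'', _, by omega, h2.wn h0 h5, h6⟩

lemma Run.seq_inv {c d : Cm} {s : St} {k : ℕ} {R : St → Prop} (h : Run w ρ (.seq c d) s k R) :
    ∃ s' m n, m + n ≤ k ∧ Ev w ρ c s s' m ∧ Run w ρ d s' n R := by
  obtain ⟨s'', m', h1, h2, h3⟩ := h
  cases h2 with
  | seq a b => exact ⟨_, _, _, h1, a, _, _, le_rfl, b, h3⟩

end Crest.Agent.R309.Ram
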