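import Crest.Agent.R309.RamCompA

/-! Row 309: trees on the heap, compilation of `Prog`.

Registers: `0` accumulator, `1` heap pointer, `2` stack (a list on the heap), `3` scratch, `4` the
constant one. -/

set_option autoImplicit false

namespace Crest.Agent.R309.Ram

open Crest.WordRAM Crest.Agent.Lib.PT

/-- The word `p` represents the tree `d`, using addresses below `h`. -/
def Rep (mem : ℕ → ℕ) (h : ℕ) : D → ℕ → Prop
  | .nil, p => p = 0
  | .cons a b, p => 0 < p ∧ p + 1 < h ∧ Rep mem h a (mem p) ∧ Rep mem h b (mem (p + 1))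

lemma Rep.mono {mem mem' : ℕ → ℕ} {h h' : ℕ} (hm : ∀ a < h, mem' a = mem a) (hh : h ≤ h') {d : D}
    {p : ℕ} (H : Rep mem h d p) : Rep mem' h' d p := by
  induction d generalizing p with
  | nil => exact H
  | cons a b iha ihb =>
    obtain ⟨h1, h2, h3, h4⟩ := H
    refine ⟨h1, by omega, ?_, ?_⟩
    · rw [hm p (by omega)]; exact iha h3
    · rw [hm _ h2]; exact ihb h4

variable {w : ℕ} {ρ : ℕ → ℕ}

/-- Allocate the cell `(x, y)` and put its address into `d`. -/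
def alloc (d x y : Fin 20) : Cm :=
  .blk [.store x 1, .add 1 1 4, .store y 1, .sub d 1 4, .add 1 1 4]

/-- The heap only grows (by at most `n`), old cells are kept. -/
structure Gw (s s' : St) (n : ℕ) : Prop where
  le : s.regs 1 ≤ s'.regs 1
  ge : s'.regs 1 ≤ s.regs 1 + n
  mem : ∀ a < s.regs 1, s'.mem a = s.mem a

lemma Gw.rep {s s' : St} {n : ℕ} (h : Gw s s' n) {d : D} {p : ℕ} (H : Rep s.mem (s.regs 1) d p) :
    Rep s'.mem (s'.regs 1) d p := H.mono h.mem h.le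

lemma Gw.trans {s s' s'' : St} {m n k : ℕ} (h : Gw s s' m) (h' : Gw s' s'' n) (hk : m + n ≤ k) :
    Gw s s'' k :=
  ⟨h.le.trans h'.le, by have := h.ge; have := h'.ge; omega,
    fun a ha => by rw [h'.mem a (ha.trans_le h.le), h.mem a ha]⟩

lemma Gw.mono {s s' : St} {m k : ℕ} (h : Gw s s' m) (hk : m ≤ k) : Gw s s' k :=
  ⟨h.le, by have := h.ge; omega, h.mem⟩

lemma Gw.of_eq {s s' : St} (n : ℕ) (h1 : s'.regs 1 = s.regs 1) (h2 : s'.mem = s.mem) : Gw s s' n :=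
  ⟨h1.ge, by omega, fun _ _ => by rw [h2]⟩

lemma run_alloc {d x y : Fin 20} (hd : d ≠ 1) (hd4 : d ≠ 4) (hy : y ≠ 1) {s : St}
    (h4 : s.regs 4 = 1) (hw : s.regs 1 + 2 < 2 ^ w) :
    Run w ρ (alloc d x y) s 5 fun s' => Gw s s' 2 ∧ s'.regs 1 = s.regs 1 + 2 ∧
      s'.regs d = s.regs 1 ∧ (∀ j, j ≠ 1 → j ≠ d → s'.regs j = s.regs j) ∧
      s'.mem (s.regs 1) = s.regs x ∧ s'.mem (s.regs 1 + 1) = s.regs y ∧ s'.drawn = s.drawn := by
  have e1 : (s.regs 1 + 1) % 2 ^ w = s.regs 1 + 1 := Nat.mod_eq_of_lt (by omega)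
  have e2 : (s.regs 1 + 1 + 1) % 2 ^ w = s.regs 1 + 2 := Nat.mod_eq_of_lt (by omega)
  refine Run.blk le_rfl ?_
  simp only [List.foldl, Op.exe, St.set, writeReg, writeMem, h4, e1, e2, hd, hd4, hd.symm,
    hd4.symm, hy, if_true, if_false, show (4 : Fin 20) ≠ 1 by decide]
  refine ⟨⟨?_, ?_, fun a ha => ?_⟩, ?_, ?_, fun j h1 h2 => ?_, ?_, ?_, ?_⟩ <;>
    simp_all [writeReg, writeMem]
  · rw [if_neg (by omega), if_neg (by omega)]

lemma rep_alloc {s s' : St} (h0 : 0 < s.regs 1) (hg : Gw s s' 2) (h1 : s'.regs 1 = s.regs 1 + 2)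
    {x y : ℕ} (hx : s'.mem (s.regs 1) = x) (hy : s'.mem (s.regs 1 + 1) = y) {a b : D}
    (ha : Rep s.mem (s.regs 1) a x) (hb : Rep s.mem (s.regs 1) b y) :
    Rep s'.mem (s'.regs 1) (.cons a b) (s.regs 1) :=
  ⟨h0, by omega, by rw [hx]; exact hg.rep ha, by rw [hy]; exact hg.rep hb⟩

/-- Evaluate the code `c` on the accumulator, keeping the old value in register `3`. -/
def test (c : Cm) : Cm :=
  .seq (alloc 2 0 2) (.seq c (.blk [.load 3 2, .add 2 2 4, .load 2 2]))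

/-- The compiler. -/
def cp : Prog → Cm
  | .nil => .blk [.const 0 0]
  | .id => .blk []
  | .car => .ifz 0 (.blk []) (.blk [.load 0 0])
  | .cdr => .ifz 0 (.blk []) (.blk [.add 0 0 4, .load 0 0])
  | .cons p q => .seq (test (cp p)) (.seq (alloc 2 0 2) (.seq (.blk [.copy 0 3])
      (.seq (cp q) (.seq (.blk [.load 3 2, .add 2 2 4, .load 2 2]) (alloc 0 3 0)))))
  | .comp p q => .seq (cp q) (cp p)
  | .ite c p q => .seq (test (cp c))
      (.ifz 0 (.seq (.blk [.copy 0 3]) (cp p)) (.seq (.blk [.copy 0 3]) (cp q)))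
  | .loop c b => .seq (test (cp c))
      (.seq (.wnz 0 (.seq (.blk [.copy 0 3]) (.seq (cp b) (test (cp c))))) (.blk [.copy 0 3]))

/-- The constant of the simulation. -/
def kp : Prog → ℕ
  | .nil => 5
  | .id => 5
  | .car => 5
  | .cdr => 5
  | .cons p q => kp p + kp q + 30
  | .comp p q => kp p + kp q
  | .ite c p q => kp c + kp p + kp q + 30
  | .loop c b => kp c + kp b + 30

/-- What compiled code preserves. -/
structure Fr (s s' : St) (n : ℕ) : Prop where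
  gw : Gw s s' n
  drawn : s'.drawn = s.drawn
  sp : s'.regs 2 = s.regs 2
  regs : ∀ j, 4 ≤ j → s'.regs j = s.regs j

lemma Fr.trans {s s' s'' : St} {m n k : ℕ} (h : Fr s s' m) (h' : Fr s' s'' n) (hk : m + n ≤ k) :
    Fr s s'' k :=
  ⟨h.gw.trans h'.gw hk, h'.drawn.trans h.drawn, h'.sp.trans h.sp,
    fun j hj => (h'.regs j hj).trans (h.regs j hj)⟩

lemma Fr.mono {s s' : St} {m k : ℕ} (h : Fr s s' m) (hk : m ≤ k) : Fr s s' k :=
  ⟨h.gw.mono hk, h.drawn, h.sp, h.regs⟩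

/-- The precondition of compiled code. -/
structure Ok (w : ℕ) (s : St) (n : ℕ) : Prop where
  one : s.regs 4 = 1
  pos : 0 < s.regs 1
  lt : s.regs 1 + n < 2 ^ w

lemma Ok.fr {s s' : St} {n m k : ℕ} (h : Ok w s n) (hf : Fr s s' m) (hk : m + k ≤ n) : Ok w s' k :=
  ⟨(hf.regs 4 le_rfl).trans h.one, h.pos.trans_le hf.gw.le, by
    have := hf.gw.ge; have := h.lt; omega⟩

/-- The specification of compiled code. -/
def Comp (w : ℕ) (ρ : ℕ → ℕ) (c : Cm) (x y : D) (n : ℕ) : Prop :=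
  ∀ s, Ok w s n → Rep s.mem (s.regs 1) x (s.regs 0) →
    Run w ρ c s n fun s' => Fr s s' n ∧ Rep s'.mem (s'.regs 1) y (s'.regs 0)

lemma Comp.mono {c : Cm} {x y : D} {n k : ℕ} (h : Comp w ρ c x y n) (hk : n ≤ k) :
    Comp w ρ c x y k := fun s hs hx =>
  (h s ⟨hs.one, hs.pos, by have := hs.lt; omega⟩ hx).mono hk fun _ h => ⟨h.1.mono hk, h.2⟩

lemma run_copy (s : St) : Run w ρ (.blk [.copy 0 3]) s 1 fun s' =>
    Fr s s' 0 ∧ s'.regs 0 = s.regs 3 ∧ s'.regs 1 = s.regs 1 ∧ s'.mem = s.mem := by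
  refine Run.blk le_rfl ⟨⟨Gw.of_eq _ ?_ rfl, rfl, ?_, fun j hj => ?_⟩, ?_, ?_, rfl⟩ <;>
    simp [Op.exe, St.set, writeReg]
  intro h; subst h; exact absurd hj (by decide)

/-- Push the accumulator, run `c`, pop into register `3`. -/
lemma run_push {c : Cm} {s : St} {n : ℕ} {Q : St → Prop} (hs : Ok w s (n + 2))
    (hc : ∀ s₁, Ok w s₁ n → Gw s s₁ 2 → s₁.regs 0 = s.regs 0 → s₁.regs 3 = s.regs 3 →
      Run w ρ c s₁ n fun s₂ => Fr s₁ s₂ n ∧ ∀ s₃ : St, s₃.regs 0 = s₂.regs 0 →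
        s₃.regs 1 = s₂.regs 1 → s₃.mem = s₂.mem → Q s₃) :
    Run w ρ (test c) s (n + 8) fun s' => Fr s s' (n + 2) ∧ s'.regs 3 = s.regs 0 ∧ Q s' := by
  have hlt := hs.lt
  refine Run.seq (n := n + 3) (run_alloc (by decide) (by decide) (by decide) hs.one (by omega))
    (fun s₁ ⟨g1, a1, a2, a3, a4, a5, a6⟩ => ?_) (by omega)
  have ok1 : Ok w s₁ n := ⟨(a3 4 (by decide) (by decide)).trans hs.one, by omega, by omega⟩
  refine Run.seq (n := 3) (hc s₁ ok1 g1 (a3 0 (by decide) (by decide))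
    (a3 3 (by decide) (by decide))) (fun s₂ ⟨f2, hQ⟩ => ?_) le_rfl
  have b1 : s₂.regs 2 = s.regs 1 := f2.sp.trans a2
  have b2 : s₂.regs 4 = 1 := (f2.regs 4 le_rfl).trans ok1.one
  have b3 : s₂.mem (s.regs 1) = s.regs 0 := (f2.gw.mem _ (by omega)).trans a4
  have b4 : s₂.mem (s.regs 1 + 1) = s.regs 2 := (f2.gw.mem _ (by omega)).trans a5
  have e1 : (s.regs 1 + 1) % 2 ^ w = s.regs 1 + 1 := Nat.mod_eq_of_lt (by omega)
  refine Run.blk le_rfl ⟨⟨(g1.trans f2.gw (k := n + 2) (by omega)).trans (Gw.of_eq 0 ?_ rfl) le_rfl,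
    f2.drawn.trans a6, ?_, fun j hj => ?_⟩, ?_, hQ _ ?_ ?_ rfl⟩
  · simp [Op.exe, St.set, writeReg]
  · simp [Op.exe, St.set, writeReg, b1, b2, e1, b4]
  · have h2 : j ≠ 2 := by rintro rfl; exact absurd hj (by decide)
    have h3 : j ≠ 3 := by rintro rfl; exact absurd hj (by decide)
    have h1 : j ≠ 1 := by rintro rfl; exact absurd hj (by decide)
    simp only [List.foldl, Op.exe, St.set, writeReg, h2, h3, if_false]
    rw [f2.regs j hj, a3 j h1 h2]
  · simp [Op.exe, St.set, writeReg, b1, b3]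
  · simp [Op.exe, St.set, writeReg]
  · simp [Op.exe, St.set, writeReg]

lemma Comp.test {c : Cm} {x y : D} {n : ℕ} (h : Comp w ρ c x y n) {s : St} (hs : Ok w s (n + 2))
    (hx : Rep s.mem (s.regs 1) x (s.regs 0)) :
    Run w ρ (test c) s (n + 8) fun s' => Fr s s' (n + 2) ∧ Rep s'.mem (s'.regs 1) x (s'.regs 3) ∧
      Rep s'.mem (s'.regs 1) y (s'.regs 0) := by
  refine (run_push (Q := fun s' => Rep s'.mem (s'.regs 1) y (s'.regs 0)) hs
    fun s₁ ok g1 e0 _ => ?_).mono le_rfl fun s' ⟨f, e, r⟩ => ⟨f, e ▸ f.gw.rep hx, r⟩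
  refine (h s₁ ok (e0 ▸ g1.rep hx)).mono le_rfl fun s₂ ⟨f, r⟩ => ⟨f, fun s₃ e0 e1 e2 => ?_⟩
  rw [e0, e1, e2]; exact r

lemma Comp.after_copy {c : Cm} {x y : D} {n : ℕ} (h : Comp w ρ c x y n) {s : St} (hs : Ok w s n)
    (hx : Rep s.mem (s.regs 1) x (s.regs 3)) :
    Run w ρ (.seq (.blk [.copy 0 3]) c) s (n + 1) fun s' =>
      Fr s s' n ∧ Rep s'.mem (s'.regs 1) y (s'.regs 0) := by
  refine Run.seq (n := n) (run_copy s) (fun s₁ ⟨f, e0, e1, e2⟩ => ?_) (by omega)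
  refine (h s₁ (hs.fr f (by omega)) (by rw [e0, e1, e2]; exact hx)).mono le_rfl
    fun s₂ ⟨f2, r⟩ => ⟨f.trans f2 (by omega), r⟩

lemma fr_refl (s : St) (n : ℕ) : Fr s s n := ⟨Gw.of_eq _ rfl rfl, rfl, rfl, fun _ _ => rfl⟩

lemma fr_set0 (s : St) (v n : ℕ) : Fr s (s.set 0 v) n := by
  refine ⟨Gw.of_eq _ ?_ rfl, rfl, ?_, fun j hj => ?_⟩ <;> simp [St.set, writeReg]
  intro h; subst h; exact absurd hj (by decide)

theorem comp_cp {p : Prog} {x y : D} {n : ℕ} (h : Eval p x y n) :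
    Comp w ρ (cp p) x y (kp p * n) := by
  induction h with
  | nil x =>
    intro s _ _
    have := x.size_pos
    refine Run.blk (by simp [kp]; omega) ⟨fr_set0 _ _ _, ?_⟩
    simp [Op.exe, St.set, writeReg, Rep]
  | id x => intro s _ hx; exact Run.blk (by simp) ⟨fr_refl _ _, hx⟩
  | car x =>
    intro s _ hx
    have := x.size_pos
    cases x with
    | nil => exact Run.ifz (n := 0) hx (Run.blk le_rfl ⟨fr_refl _ _, hx⟩) (by simp [kp])
    | cons a b =>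
      refine Run.ifn (n := 1) hx.1.ne' (Run.blk le_rfl ⟨fr_set0 _ _ _, ?_⟩) (by simp only [kp]; omega)
      simpa [Op.exe, St.set, writeReg] using hx.2.2.1
  | cdr x =>
    intro s hs hx
    have := x.size_pos
    cases x with
    | nil => exact Run.ifz (n := 0) hx (Run.blk le_rfl ⟨fr_refl _ _, hx⟩) (by simp [kp])
    | cons a b =>
      have e1 : (s.regs 0 + 1) % 2 ^ w = s.regs 0 + 1 :=
        Nat.mod_eq_of_lt (by have := hx.2.1; have := hs.lt; omega)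
      refine Run.ifn (n := 2) hx.1.ne' (Run.blk le_rfl
        ⟨(fr_set0 _ _ 0).trans (fr_set0 _ _ 0) (by omega), ?_⟩) (by simp only [kp]; omega)
      simpa [Op.exe, St.set, writeReg, hs.one, e1] using hx.2.2.2
  | @cons p q x a b m n h1 h2 ih1 ih2 =>
    intro s hs hx
    have hm := h1.pos
    have hn := h2.pos
    have hlt := hs.lt
    have hk : kp p * m + kp q * n + 30 ≤ kp (.cons p q) * (m + n + 1) := by
      simp only [kp]; nlinarith
    generalize kp (.cons p q) * (m + n + 1) = N at *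
    generalize kp p * m = M₁ at *
    generalize kp q * n = M₂ at *
    refine Run.seq (n := M₂ + 15) (ih1.test ⟨hs.one, hs.pos, by omega⟩ hx)
      (fun s₁ ⟨f1, rx, ra⟩ => ?_) (by omega)
    have ok1 : Ok w s₁ (M₂ + 2 + 2) := hs.fr f1 (by omega)
    have key := run_push (ρ := ρ) (c := .seq (.blk [.copy 0 3]) (cp q)) (n := M₂ + 1) (s := s₁)
      (Q := fun s' => Rep s'.mem (s'.regs 1) b (s'.regs 0))
      ⟨ok1.one, ok1.pos, by have := ok1.lt; omega⟩ fun s₂ ok g e0 e3 =>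
        (ih2.after_copy ⟨ok.one, ok.pos, by have := ok.lt; omega⟩ (e3 ▸ g.rep rx)).mono le_rfl
          fun s₃ ⟨f, r⟩ => ⟨f.mono (by omega), fun s₄ e0 e1 e2 => by rw [e0, e1, e2]; exact r⟩
    obtain ⟨s₂, m1, n1, l1, ev1, key⟩ := key.seq_inv
    obtain ⟨s₃, m2, n2, l2, ev2, key⟩ := key.seq_inv
    obtain ⟨s₄, m3, l3, ev3, f4, e3, rb⟩ := key
    cases ev2 with
    | @seq _ _ _ s₅ _ m4 n4 ev4 ev5 =>
      have ok4 : Ok w s₄ 2 := hs.fr (f1.trans f4 le_rfl) (by omega)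
      obtain ⟨s₆, m6, l6, ev6, g6, a1, a2, a3, a4, a5, a6⟩ :=
        run_alloc (ρ := ρ) (d := 0) (x := 3) (y := 0) (by decide) (by decide) (by decide) ok4.one
          ok4.lt
      refine ⟨s₆, _, ?_, ev1.seq (ev4.seq (ev5.seq (ev3.seq ev6))), ?_, ?_⟩
      · omega
      · refine (f1.trans f4 le_rfl).trans (n := 2) ⟨g6, a6, a3 2 (by decide) (by decide),
          fun j hj => a3 j ?_ ?_⟩ (by omega) <;> (rintro rfl; exact absurd hj (by decide))
      · rw [a2]; exact rep_alloc ok4.pos g6 a1 a4 a5 (e3 ▸ f4.gw.rep ra) rb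
  | @comp p q x y z m n h1 h2 ih1 ih2 =>
    intro s hs hx
    have hlt := hs.lt
    have hk : kp q * m + kp p * n ≤ kp (.comp p q) * (m + n) := by simp only [kp]; nlinarith
    refine Run.seq (ih1 s ⟨hs.one, hs.pos, by omega⟩ hx) (fun s₁ ⟨f1, r1⟩ => ?_) hk
    exact (ih2 s₁ (hs.fr f1 hk) r1).mono le_rfl fun s₂ ⟨f2, r2⟩ => ⟨f1.trans f2 hk, r2⟩
  | @iteNil c p q x y m n h1 h2 ih1 ih2 =>
    intro s hs hx
    have hm := h1.pos
    have hlt := hs.lt
    have hk : kp c * m + kp p * n + 30 ≤ kp (.ite c p q) * (m + n) := by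
      simp only [kp]; nlinarith
    refine Run.seq (n := kp p * n + 3) (ih1.test ⟨hs.one, hs.pos, by omega⟩ hx)
      (fun s₁ ⟨f1, rx, r0⟩ => ?_) (by omega)
    exact Run.ifz r0 ((ih2.after_copy (hs.fr f1 (by omega)) rx).mono le_rfl
      fun s₂ ⟨f2, r2⟩ => ⟨f1.trans f2 (by omega), r2⟩) le_rfl
  | @iteCons c p q x a b y m n h1 h2 ih1 ih2 =>
    intro s hs hx
    have hm := h1.pos
    have hlt := hs.lt
    have hk : kp c * m + kp q * n + 30 ≤ kp (.ite c p q) * (m + n) := by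
      simp only [kp]; nlinarith
    refine Run.seq (n := kp q * n + 3) (ih1.test ⟨hs.one, hs.pos, by omega⟩ hx)
      (fun s₁ ⟨f1, rx, r0⟩ => ?_) (by omega)
    exact Run.ifn r0.1.ne' ((ih2.after_copy (hs.fr f1 (by omega)) rx).mono le_rfl
      fun s₂ ⟨f2, r2⟩ => ⟨f1.trans f2 (by omega), r2⟩) le_rfl
  | @loopNil c b x m h1 ih1 =>
    intro s hs hx
    have hm := h1.pos
    have hlt := hs.lt
    have hk : kp c * m + 30 ≤ kp (.loop c b) * m := by simp only [kp]; nlinarith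
    refine Run.seq (n := 2) (ih1.test ⟨hs.one, hs.pos, by omega⟩ hx)
      (fun s₁ ⟨f1, rx, r0⟩ => ?_) (by omega)
    refine Run.seq (m := 1) (n := 1) (Q := fun s' => s' = s₁) (Run.wz r0 rfl le_rfl)
      (fun s₂ e => ?_) le_rfl
    subst e
    exact (run_copy s₂).mono le_rfl fun s₃ ⟨f, e0, e1, e2⟩ =>
      ⟨f1.trans f (by omega), by rw [e0, e1, e2]; exact rx⟩
  | @loopCons c b x u v y z m n k h1 h2 h3 ih1 ih2 ih3 =>
    intro s hs hx
    have hm := h1.pos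
    have hlt := hs.lt
    have hk : kp c * m + kp b * n + kp (.loop c b) * k + 30 ≤ kp (.loop c b) * (m + n + k) := by
      simp only [kp]; nlinarith
    generalize kp (.loop c b) * (m + n + k) = N at *
    generalize kp (.loop c b) * k = M₃ at *
    generalize kp c * m = M₁ at *
    generalize kp b * n = M₂ at *
    refine Run.seq (n := M₂ + M₃ + 3) (ih1.test ⟨hs.one, hs.pos, by omega⟩ hx)
      (fun s₁ ⟨f1, rx, r0⟩ => ?_) (by omega)
    obtain ⟨s₂, m2, l2, ev2, f2, r2⟩ := ih2.after_copy (ρ := ρ) (hs.fr f1 (by omega)) rx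
    have key := ih3 s₂ (hs.fr (f1.trans f2 le_rfl) (by omega)) r2
    obtain ⟨s₃, m3, n3, l3, ev3, key⟩ := key.seq_inv
    obtain ⟨s₄, m4, n4, l4, ev4, s₅, m5, l5, ev5, f5, r5⟩ := key.seq_inv
    cases ev2 with
    | @seq _ _ _ s₆ _ m6 n6 ev6 ev7 =>
      exact ⟨s₅, _, by omega, ((ev6.seq (ev7.seq ev3)).wn r0.1.ne' ev4).seq ev5,
        (f1.trans f2 le_rfl).trans f5 (by omega), r5⟩

theorem comp_of_evalLe {p : Prog} {x y : D} {n : ℕ} (h : EvalLe p x y n) :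
    Comp w ρ (cp p) x y (kp p * n) := by
  obtain ⟨m, hm, h⟩ := h
  exact (comp_cp h).mono (Nat.mul_le_mul_left _ hm)

end Crest.Agent.R309.Ram
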