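import Crest.Agent.R309.RamCompB

/-! Row 309: reading the input, drawing bits, writing the output on the word RAM.

Registers: `5` the constant two, `6`, `7` the trees for `false`, `true`, `8` the input tree, `11`
outer loop variable, `12` a word, `13` a list of bits, `14` a bit. -/

set_option autoImplicit false

namespace Crest.Agent.R309.Ram

open Crest.WordRAM Crest.Agent.Lib.PT

variable {w : ℕ} {ρ : ℕ → ℕ}

/-- Only the registers in `L` change, the heap grows by at most `n`. -/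
structure Fw (L : List (Fin 20)) (s s' : St) (n : ℕ) : Prop where
  gw : Gw s s' n
  regs : ∀ j, j ∉ L → s'.regs j = s.regs j

lemma Fw.trans {L L' L'' : List (Fin 20)} {s s' s'' : St} {m n k : ℕ} (h : Fw L s s' m)
    (h' : Fw L' s' s'' n) (hk : m + n ≤ k) (hl : ∀ j, j ∉ L'' → j ∉ L ∧ j ∉ L' := by decide) :
    Fw L'' s s'' k :=
  ⟨h.gw.trans h'.gw hk, fun j hj => (h'.regs j (hl j hj).2).trans (h.regs j (hl j hj).1)⟩

lemma Fw.refl (L : List (Fin 20)) (s : St) (n : ℕ) : Fw L s s n :=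
  ⟨Gw.of_eq _ rfl rfl, fun _ _ => rfl⟩

lemma Fr.fw {s s' : St} {n : ℕ} (h : Fr s s' n) : Fw [0, 1, 2, 3] s s' n :=
  ⟨h.gw, fun j hj => h.regs j (by revert j; decide)⟩

lemma Fw.rep {L : List (Fin 20)} {s s' : St} {n : ℕ} (h : Fw L s s' n) {d : D} {j : Fin 20}
    (H : Rep s.mem (s.regs 1) d (s.regs j)) (hj : j ∉ L := by decide) :
    Rep s'.mem (s'.regs 1) d (s'.regs j) := by
  rw [h.regs j hj]; exact h.gw.rep H

/-- The operation writes only to a register in `L` other than the heap pointer. -/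
def Op.ok (L : List (Fin 20)) : Op → Bool
  | .const d _ => decide (d ∈ L ∧ d ≠ 1)
  | .copy d _ => decide (d ∈ L ∧ d ≠ 1)
  | .add d _ _ => decide (d ∈ L ∧ d ≠ 1)
  | .sub d _ _ => decide (d ∈ L ∧ d ≠ 1)
  | .quot d _ _ => decide (d ∈ L ∧ d ≠ 1)
  | .rem d _ _ => decide (d ∈ L ∧ d ≠ 1)
  | .load d _ => decide (d ∈ L ∧ d ≠ 1)
  | .store _ _ => false
  | .rand d => decide (d ∈ L ∧ d ≠ 1)

lemma Op.ok_exe {L : List (Fin 20)} {o : Op} (h : o.ok L = true) (s : St) :
    (o.exe w ρ s).mem = s.mem ∧ ∀ j, (j ∉ L ∨ j = 1) → (o.exe w ρ s).regs j = s.regs j := by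
  cases o <;> simp only [Op.ok, decide_eq_true_eq, Bool.false_eq_true] at h <;>
    refine ⟨rfl, fun j hj => ?_⟩ <;> simp only [Op.exe, St.set, writeReg] <;> rw [if_neg] <;>
    rintro rfl <;> tauto

lemma run_blk (L : List (Fin 20)) (l : List Op) (s : St) (hl : l.all (Op.ok L) = true := by decide) :
    Run w ρ (.blk l) s l.length fun s' => s' = l.foldl (Op.exe w ρ) s ∧ Fw L s s' 0 ∧
      s'.regs 1 = s.regs 1 ∧ s'.mem = s.mem := by
  have key : (l.foldl (Op.exe w ρ) s).mem = s.mem ∧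
      ∀ j, (j ∉ L ∨ j = 1) → (l.foldl (Op.exe w ρ) s).regs j = s.regs j := by
    induction l generalizing s with
    | nil => exact ⟨rfl, fun _ _ => rfl⟩
    | cons o l ih =>
      simp only [List.all_cons, Bool.and_eq_true] at hl
      obtain ⟨a, b⟩ := ih (o.exe w ρ s) hl.2
      obtain ⟨c, d⟩ := Op.ok_exe (w := w) (ρ := ρ) hl.1 s
      exact ⟨a.trans c, fun j hj => (b j hj).trans (d j hj)⟩
  exact Run.blk le_rfl ⟨rfl, ⟨Gw.of_eq _ (key.2 1 (Or.inr rfl)) key.1, fun j hj => key.2 j (Or.inl hj)⟩,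
    key.2 1 (Or.inr rfl), key.1⟩

lemma Ok.fw {L : List (Fin 20)} {s s' : St} {n m k : ℕ} (h : Ok w s n) (hf : Fw L s s' m)
    (hk : m + k ≤ n) (hl : 4 ∉ L := by decide) : Ok w s' k :=
  ⟨(hf.regs 4 hl).trans h.one, h.pos.trans_le hf.gw.le, by
    have := hf.gw.ge; have := h.lt; omega⟩

lemma Ok.mono {s : St} {n k : ℕ} (h : Ok w s n) (hk : k ≤ n) : Ok w s k :=
  ⟨h.one, h.pos, by have := h.lt; omega⟩

lemma run_cons {d x y : Fin 20} {s : St} (hs : Ok w s 2) {a b : D}
    (ha : Rep s.mem (s.regs 1) a (s.regs x)) (hb : Rep s.mem (s.regs 1) b (s.regs y))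
    (hd : d ≠ 1 ∧ d ≠ 4 ∧ y ≠ 1 := by decide) :
    Run w ρ (alloc d x y) s 5 fun s' => Fw [1, d] s s' 2 ∧ s'.drawn = s.drawn ∧
      Rep s'.mem (s'.regs 1) (.cons a b) (s'.regs d) := by
  refine (run_alloc hd.1 hd.2.1 hd.2.2 hs.one hs.lt).mono le_rfl
    fun s' ⟨g, a1, a2, a3, a4, a5, a6⟩ => ⟨⟨g, fun j hj => a3 j ?_ ?_⟩, a6, ?_⟩
  · rintro rfl; simp at hj
  · rintro rfl; simp at hj
  · rw [a2]; exact rep_alloc hs.pos g a1 a4 a5 ha hb

/-- The global invariant. -/
structure G (w : ℕ) (s : St) (n : ℕ) : Prop where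
  ok : Ok w s n
  two : s.regs 5 = 2
  ff : Rep s.mem (s.regs 1) (enc false) (s.regs 6)
  tt : Rep s.mem (s.regs 1) (enc true) (s.regs 7)

lemma G.fw {L : List (Fin 20)} {s s' : St} {n m k : ℕ} (h : G w s n) (hf : Fw L s s' m)
    (hk : m + k ≤ n) (hl : 4 ∉ L ∧ 5 ∉ L ∧ 6 ∉ L ∧ 7 ∉ L := by decide) : G w s' k :=
  ⟨h.ok.fw hf hk hl.1, (hf.regs 5 hl.2.1).trans h.two, hf.rep h.ff hl.2.2.1, hf.rep h.tt hl.2.2.2⟩

/-- Cons the bit in register `14` onto the list in register `13`. -/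
def pushBit : Cm := .ifz 14 (alloc 13 6 13) (alloc 13 7 13)

lemma run_pushBit {s : St} (hs : G w s 2) {b : Bool} (hb : s.regs 14 = b.toNat) {l : List Bool}
    (hl : Rep s.mem (s.regs 1) (enc l) (s.regs 13)) :
    Run w ρ pushBit s 7 fun s' => Fw [1, 13] s s' 2 ∧ s'.drawn = s.drawn ∧
      Rep s'.mem (s'.regs 1) (enc (b :: l)) (s'.regs 13) := by
  cases b with
  | false => exact Run.ifz hb (run_cons hs.ok hs.ff hl) le_rfl
  | true => exact Run.ifn (by simp [hb]) (run_cons hs.ok hs.tt hl) le_rfl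

/-- The bits of the word in register `12`. -/
def bitLoop : Cm := .wnz 12 (.seq (.blk [.rem 14 12 5, .quot 12 12 5]) pushBit)

lemma run_bitLoop (a : ℕ) : ∀ (l : List Bool) (s : St), G w s (2 * a.bits.length) → s.regs 12 = a →
    Rep s.mem (s.regs 1) (enc l) (s.regs 13) →
    Run w ρ bitLoop s (11 * a.bits.length + 1) fun s' =>
      Fw [1, 12, 13, 14] s s' (2 * a.bits.length) ∧ s'.drawn = s.drawn ∧
      Rep s'.mem (s'.regs 1) (enc (a.bits.reverse ++ l)) (s'.regs 13) := by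
  induction a using Nat.binaryRec' with
  | zero => intro l s _ h0 hl; exact Run.wz h0 ⟨Fw.refl _ _ _, rfl, by simpa using hl⟩ (by simp)
  | bit b n h ih =>
    intro l s hs h0 hl
    rw [Nat.bits_append_bit _ _ h] at hs ⊢
    simp only [List.length_cons] at hs ⊢
    have hne : s.regs 12 ≠ 0 := by
      rw [h0, Nat.bit_val]; cases b <;> simp at h ⊢; exact h
    refine Run.wn (m := 9) (n := 11 * n.bits.length + 1) (Q := fun s₂ => Fw [1, 12, 13, 14] s s₂ 2 ∧
      s₂.drawn = s.drawn ∧ s₂.regs 12 = n ∧ Rep s₂.mem (s₂.regs 1) (enc (b :: l)) (s₂.regs 13)) hne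
      ?_ (fun s₂ ⟨f2, d2, e2, r2⟩ => ?_) (by omega)
    · refine Run.seq (n := 7) (run_blk [12, 14] _ s) (fun s₁ ⟨e, f1, _, _⟩ => ?_) le_rfl
      have e14 : s₁.regs 14 = b.toNat := by
        simp only [e, List.foldl, Op.exe, St.set, writeReg, hs.two, h0, Nat.bit_val]
        cases b <;> simp
      have e12 : s₁.regs 12 = n := by
        simp only [e, List.foldl, Op.exe, St.set, writeReg, hs.two, h0, Nat.bit_val]
        cases b <;> simp; omega
      have ed : s₁.drawn = s.drawn := by rw [e]; rfl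
      exact (run_pushBit (hs.fw f1 (by omega)) e14 (f1.rep hl)).mono le_rfl
        fun s₂ ⟨f2, d2, r2⟩ => ⟨f1.trans f2 le_rfl, d2.trans ed,
          (f2.regs 12 (by decide)).trans e12, r2⟩
    · refine (ih (b :: l) s₂ (hs.fw f2 (by omega)) e2 r2).mono le_rfl
        fun s₃ ⟨f3, d3, r3⟩ => ⟨f2.trans f3 (by omega), d3.trans d2, by simpa using r3⟩

/-- The raw form of a list of words: most significant bit first. -/
def raw (x : List ℕ) : List (List Bool) := x.map fun a => a.bits.reverse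

lemma sz_raw (x : List ℕ) : sz (raw x) = sz x := by
  induction x with
  | nil => rfl
  | cons a x ih =>
    have : sz a.bits = sz a := rfl
    simp only [raw, List.map_cons, sz_cons, sz_reverse] at ih ⊢
    omega

/-- Build the input tree. -/
def inLoop : Cm := .wnz 11 (.seq (.blk [.sub 11 11 4, .load 12 11, .const 13 0])
  (.seq bitLoop (alloc 8 13 8)))

lemma run_inLoop (u : List ℕ) : ∀ (r : List (List Bool)) (s : St), G w s (sz u) →
    s.regs 11 = u.length → u.length ≤ s.regs 1 → (∀ i, (h : i < u.length) → s.mem i = u[i]) →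
    Rep s.mem (s.regs 1) (enc r) (s.regs 8) →
    Run w ρ inLoop s (6 * sz u) fun s' =>
      Fw [1, 8, 11, 12, 13, 14] s s' (sz u) ∧ s'.drawn = s.drawn ∧
      Rep s'.mem (s'.regs 1) (enc (raw u ++ r)) (s'.regs 8) := by
  induction u using List.reverseRecOn with
  | nil => intro r s _ h0 _ _ hr; exact Run.wz h0 ⟨Fw.refl _ _ _, rfl, hr⟩ (by simp)
  | append_singleton u a ih =>
    intro r s hs h0 h1 hm hr
    have hsz : sz (u ++ [a]) = sz u + (6 * a.bits.length + 2) := by
      have h1 := sz_append u [a]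
      have h2 : sz a = 6 * a.bits.length + 1 := sz_boolList a.bits
      simp only [sz_cons, sz_nil] at h1
      omega
    rw [hsz] at hs ⊢
    simp only [List.length_append, List.length_singleton] at h0 h1
    refine Run.wn (m := 11 * a.bits.length + 9) (n := 6 * sz u)
      (Q := fun s₂ => Fw [1, 8, 11, 12, 13, 14] s s₂ (2 * a.bits.length + 2) ∧
        s₂.drawn = s.drawn ∧ s₂.regs 11 = u.length ∧
        Rep s₂.mem (s₂.regs 1) (enc (a.bits.reverse :: r)) (s₂.regs 8)) (by omega)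
      ?_ (fun s₂ ⟨f2, d2, e2, r2⟩ => ?_) (by omega)
    · refine Run.seq (n := 11 * a.bits.length + 6) (run_blk [11, 12, 13] _ s)
        (fun s₁ ⟨e, f1, _, _⟩ => ?_) (by simp; omega)
      have e11 : s₁.regs 11 = u.length := by simp [e, Op.exe, St.set, writeReg, hs.ok.one, h0]
      have e12 : s₁.regs 12 = a := by
        have := hm u.length (by simp)
        simpa [e, Op.exe, St.set, writeReg, hs.ok.one, h0] using this
      have e13 : s₁.regs 13 = 0 := by simp [e, Op.exe, St.set, writeReg]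
      have ed : s₁.drawn = s.drawn := by rw [e]; rfl
      refine Run.seq (n := 5) (run_bitLoop a [] s₁ (hs.fw f1 (by omega)) e12 e13)
        (fun s₃ ⟨f3, d3, r3⟩ => ?_) le_rfl
      have f13 : Fw [1, 11, 12, 13, 14] s s₃ (2 * a.bits.length) := f1.trans f3 (by omega)
      refine (run_cons (hs.fw f13 (by omega)).ok r3 (f13.rep hr)).mono le_rfl
        fun s₄ ⟨f4, d4, r4⟩ => ⟨f13.trans f4 le_rfl, d4.trans (d3.trans ed), ?_, ?_⟩
      · rw [f4.regs 11 (by decide), f3.regs 11 (by decide), e11]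
      · simpa [enc_cons] using r4
    · refine (ih (a.bits.reverse :: r) s₂ (hs.fw f2 (by omega)) e2
        (by have := f2.gw.le; omega) (fun i hi => ?_) r2).mono le_rfl
        fun s₃ ⟨f3, d3, r3⟩ => ⟨f2.trans f3 (by omega), d3.trans d2, by simpa [raw] using r3⟩
      rw [f2.gw.mem i (by omega), hm i (by simp; omega), List.getElem_append_left hi]

/-- Draw one bit per cell of the list in register `11`. -/
def drawLoop : Cm :=
  .wnz 11 (.seq (.blk [.rand 14, .rem 14 14 5, .add 11 11 4, .load 11 11]) pushBit)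

lemma bitsAt_succ (w : ℕ) (ρ : ℕ → ℕ) (i k : ℕ) :
    bitsAt w ρ i (k + 1) = decide (ρ i % 2 ^ w % 2 = 1) :: bitsAt w ρ (i + 1) k := by
  simp [bitsAt, List.range_succ_eq_map, Function.comp_def, add_assoc, add_comm 1]

lemma run_drawLoop (k : ℕ) : ∀ (l : List Bool) (s : St), G w s (2 * k) →
    Rep s.mem (s.regs 1) (enc (List.replicate k ())) (s.regs 11) →
    Rep s.mem (s.regs 1) (enc l) (s.regs 13) →
    Run w ρ drawLoop s (13 * k + 1) fun s' =>
      Fw [1, 11, 13, 14] s s' (2 * k) ∧ s'.drawn = s.drawn + k ∧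
      Rep s'.mem (s'.regs 1) (enc ((bitsAt w ρ s.drawn k).reverse ++ l)) (s'.regs 13) := by
  induction k with
  | zero =>
    intro l s _ h0 hl
    exact Run.wz h0 ⟨Fw.refl _ _ _, rfl, by simpa [bitsAt] using hl⟩ (by simp)
  | succ k ih =>
    intro l s hs h0 hl
    obtain ⟨p1, p2, -, p4⟩ : Rep s.mem (s.regs 1) (.cons .nil (enc (List.replicate k ())))
      (s.regs 11) := h0
    have e1 : (s.regs 11 + 1) % 2 ^ w = s.regs 11 + 1 :=
      Nat.mod_eq_of_lt (by have := hs.ok.lt; omega)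
    refine Run.wn (m := 11) (n := 13 * k + 1) (Q := fun s₂ => Fw [1, 11, 13, 14] s s₂ 2 ∧
      s₂.drawn = s.drawn + 1 ∧ Rep s₂.mem (s₂.regs 1) (enc (List.replicate k ())) (s₂.regs 11) ∧
      Rep s₂.mem (s₂.regs 1) (enc (decide (ρ s.drawn % 2 ^ w % 2 = 1) :: l)) (s₂.regs 13)) p1.ne'
      ?_ (fun s₂ ⟨f2, d2, e2, r2⟩ => ?_) (by omega)
    · refine Run.seq (n := 7) (run_blk [11, 14] _ s) (fun s₁ ⟨e, f1, _, _⟩ => ?_) le_rfl
      have e14 : s₁.regs 14 = (decide (ρ s.drawn % 2 ^ w % 2 = 1)).toNat := by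
        have : s₁.regs 14 = ρ s.drawn % 2 ^ w % 2 := by
          simp [e, Op.exe, St.set, writeReg, hs.two]
        rw [this]
        rcases Nat.mod_two_eq_zero_or_one (ρ s.drawn % 2 ^ w) with h | h <;> simp [h]
      have e11 : s₁.regs 11 = s.mem (s.regs 11 + 1) := by
        simp [e, Op.exe, St.set, writeReg, hs.ok.one, e1]
      have ed : s₁.drawn = s.drawn + 1 := by rw [e]; rfl
      exact (run_pushBit (hs.fw f1 (by omega)) e14 (f1.rep hl)).mono le_rfl
        fun s₂ ⟨f2, d2, r2⟩ => ⟨f1.trans f2 le_rfl, d2.trans ed,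
          f2.rep (by rw [e11]; exact f1.gw.rep p4), r2⟩
    · refine (ih _ s₂ (hs.fw f2 (by omega)) e2 r2).mono le_rfl
        fun s₃ ⟨f3, d3, r3⟩ => ⟨f2.trans f3 (by omega), by omega, ?_⟩
      rw [bitsAt_succ, ← d2]
      simpa using r3

/-- Horner evaluation of the bit list in register `13`. -/
def hornLoop : Cm := .wnz 13 (.seq (.blk [.load 14 13, .load 14 14, .add 13 13 4, .load 13 13,
  .add 12 12 12]) (.ifz 14 (.blk []) (.blk [.add 12 12 4])))

lemma le_foldl_bit (l : List Bool) (v : ℕ) : v ≤ l.foldl (fun v b => Nat.bit b v) v := by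
  induction l generalizing v with
  | nil => exact le_rfl
  | cons b l ih => exact le_trans (by simp only [Nat.bit_val]; omega) (ih _)

lemma run_hornLoop (l : List Bool) : ∀ (s : St), Ok w s 0 →
    Rep s.mem (s.regs 1) (enc l) (s.regs 13) →
    l.foldl (fun v b => Nat.bit b v) (s.regs 12) < 2 ^ w →
    Run w ρ hornLoop s (10 * l.length + 1) fun s' =>
      Fw [12, 13, 14] s s' 0 ∧ s'.mem = s.mem ∧
      s'.regs 12 = l.foldl (fun v b => Nat.bit b v) (s.regs 12) := by
  induction l with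
  | nil => intro s _ h0 _; exact Run.wz h0 ⟨Fw.refl _ _ _, rfl, rfl⟩ (by simp)
  | cons b l ih =>
    intro s hs h0 hlt
    obtain ⟨p1, p2, p3, p4⟩ : Rep s.mem (s.regs 1) (.cons (enc b) (enc l)) (s.regs 13) := h0
    have e1 : (s.regs 13 + 1) % 2 ^ w = s.regs 13 + 1 := Nat.mod_eq_of_lt (by have := hs.lt; omega)
    have hv : Nat.bit b (s.regs 12) < 2 ^ w := (le_foldl_bit l _).trans_lt hlt
    rw [Nat.bit_val] at hv
    have e2 : (s.regs 12 + s.regs 12) % 2 ^ w = s.regs 12 + s.regs 12 := Nat.mod_eq_of_lt (by omega)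
    refine Run.wn (m := 8) (n := 10 * l.length + 1) (Q := fun s₂ => Fw [12, 13, 14] s s₂ 0 ∧
      s₂.mem = s.mem ∧ s₂.regs 12 = Nat.bit b (s.regs 12) ∧ s₂.regs 13 = s.mem (s.regs 13 + 1)) p1.ne'
      ?_ (fun s₂ ⟨f2, m2, e2, e3⟩ => ?_) (by simp; omega)
    · refine Run.seq (n := 3) (run_blk [12, 13, 14] _ s) (fun s₁ ⟨e, f1, _, m1⟩ => ?_) le_rfl
      have e14 : s₁.regs 14 = s.mem (s.mem (s.regs 13)) := by simp [e, Op.exe, St.set, writeReg]
      have e13 : s₁.regs 13 = s.mem (s.regs 13 + 1) := by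
        simp [e, Op.exe, St.set, writeReg, hs.one, e1]
      have e12 : s₁.regs 12 = s.regs 12 + s.regs 12 := by simp [e, Op.exe, St.set, writeReg, e2]
      cases b with
      | false =>
        refine Run.ifz (n := 0) (e14.trans p3.2.2.1) (Run.blk le_rfl ⟨f1, m1, ?_, e13⟩) (by omega)
        simp [e12, Nat.bit_val]; omega
      | true =>
        refine Run.ifn (n := 1) (by rw [e14]; exact p3.2.2.1.1.ne') ?_ le_rfl
        refine (run_blk [12] _ s₁).mono le_rfl fun s₂ ⟨e', f2, _, m2⟩ =>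
          ⟨f1.trans f2 le_rfl, m2.trans m1, ?_, (f2.regs 13 (by decide)).trans e13⟩
        have e4 : s₁.regs 4 = 1 := (f1.regs 4 (by decide)).trans hs.one
        simp only [Bool.toNat_true] at hv
        simp only [e', List.foldl, Op.exe, St.set, writeReg, if_true, e12, e4, Nat.bit_val,
          Bool.toNat_true]
        rw [Nat.mod_eq_of_lt (by omega)]; omega
    · refine (ih s₂ (hs.fw f2 le_rfl) (by rw [e3]; exact f2.gw.rep p4) (by rw [e2]; exact hlt)).mono
        le_rfl fun s₃ ⟨f3, m3, e4⟩ => ⟨f2.trans f3 le_rfl, m3.trans m2, by rw [e4, e2]; rfl⟩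

lemma foldl_bit_raw (a : ℕ) : a.bits.reverse.foldl (fun v b => Nat.bit b v) 0 = a := by
  rw [List.foldl_reverse]; exact ofBits_bits a

/-- Write the words of the list in register `11` to the heap. -/
def outLoop : Cm := .wnz 11 (.seq (.blk [.load 13 11, .add 11 11 4, .load 11 11, .const 12 0])
  (.seq hornLoop (.blk [.store 12 1, .add 1 1 4])))

lemma run_outLoop (y : List ℕ) : ∀ (s : St), Ok w s y.length → (∀ a ∈ y, a < 2 ^ w) →
    Rep s.mem (s.regs 1) (enc (raw y)) (s.regs 11) →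
    Run w ρ outLoop s (5 * sz y) fun s' =>
      Fw [1, 11, 12, 13, 14] s s' y.length ∧ s'.regs 1 = s.regs 1 + y.length ∧
      (List.range y.length).map (fun i => s'.mem (s.regs 1 + i)) = y := by
  induction y with
  | nil => intro s _ _ h0; exact Run.wz h0 ⟨Fw.refl _ _ _, rfl, rfl⟩ (by simp)
  | cons a y ih =>
    intro s hs hy h0
    obtain ⟨p1, p2, p3, p4⟩ : Rep s.mem (s.regs 1) (.cons (enc a.bits.reverse) (enc (raw y)))
      (s.regs 11) := h0
    have hlt := hs.lt
    simp only [List.length_cons] at hlt ⊢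
    have e1 : (s.regs 11 + 1) % 2 ^ w = s.regs 11 + 1 := Nat.mod_eq_of_lt (by omega)
    have e2 : (s.regs 1 + 1) % 2 ^ w = s.regs 1 + 1 := Nat.mod_eq_of_lt (by omega)
    have h2 : sz a = 6 * a.bits.length + 1 := sz_boolList a.bits
    refine Run.wn (m := 10 * a.bits.length + 7) (n := 5 * sz y)
      (Q := fun s₂ => Fw [1, 11, 12, 13, 14] s s₂ 1 ∧ s₂.regs 1 = s.regs 1 + 1 ∧
        s₂.mem (s.regs 1) = a ∧ s₂.regs 11 = s.mem (s.regs 11 + 1)) p1.ne'
      ?_ (fun s₂ ⟨f2, a1, a2, a3⟩ => ?_) (by simp; omega)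
    · refine Run.seq (n := 10 * a.bits.length + 3) (run_blk [11, 12, 13] _ s)
        (fun s₁ ⟨e, f1, h1, m1⟩ => ?_) (by simp; omega)
      have e13 : s₁.regs 13 = s.mem (s.regs 11) := by simp [e, Op.exe, St.set, writeReg]
      have e11 : s₁.regs 11 = s.mem (s.regs 11 + 1) := by
        simp [e, Op.exe, St.set, writeReg, hs.one, e1]
      have e12 : s₁.regs 12 = 0 := by simp [e, Op.exe, St.set, writeReg]
      refine Run.seq (n := 2) (run_hornLoop a.bits.reverse s₁ (hs.fw f1 (by omega))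
        (by rw [e13]; exact f1.gw.rep p3) (by rw [e12, foldl_bit_raw]; exact hy a (by simp)))
        (fun s₃ ⟨f3, m3, e3⟩ => ?_) (by simp)
      rw [e12, foldl_bit_raw] at e3
      have b1 : s₃.regs 1 = s.regs 1 := (f3.regs 1 (by decide)).trans h1
      have b4 : s₃.regs 4 = 1 :=
        (f3.regs 4 (by decide)).trans ((f1.regs 4 (by decide)).trans hs.one)
      have f13 : Fw [11, 12, 13, 14] s s₃ 0 := f1.trans f3 le_rfl
      refine Run.blk le_rfl ⟨f13.trans (L' := [1]) (n := 1)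
        ⟨⟨?_, ?_, fun c hc => ?_⟩, fun j hj => ?_⟩ le_rfl,
        ?_, ?_, ?_⟩
      · simp [Op.exe, St.set, writeReg, b1, b4, e2]
      · simp [Op.exe, St.set, writeReg, b1, b4, e2]
      · simp [Op.exe, St.set, writeMem, hc.ne]
      · simp only [List.mem_singleton] at hj
        simp [Op.exe, St.set, writeReg, hj]
      · simp [Op.exe, St.set, writeReg, b1, b4, e2]
      · simp [Op.exe, St.set, writeMem, b1, e3]
      · simp [Op.exe, St.set, writeReg, f3.regs 11 (by decide), e11]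
    · refine (ih s₂ (hs.fw f2 (by simp; omega)) (fun c hc => hy c (by simp [hc]))
        (by rw [a3]; exact f2.gw.rep p4)).mono le_rfl
        fun s₃ ⟨f3, b1, b2⟩ => ⟨f2.trans f3 (by omega), by omega, ?_⟩
      rw [List.range_succ_eq_map, List.map_cons, List.map_map, add_zero,
        f3.gw.mem _ (by omega), a2]
      congr 1
      rw [← b2, a1]
      simp [Function.comp_def, add_assoc, add_comm 1]

end Crest.Agent.R309.Ram
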