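import Crest.Agent.R309.RamCompC

/-! Row 309: the setup, the round, and the whole program.

Further registers: `9` the unary list, `10` the saved heap pointer, `15` the success flag, `16` the
start of the output, `19` zero. -/

set_option autoImplicit false

namespace Crest.Agent.R309.Ram

open Crest.WordRAM Crest.Agent.Lib.PT

variable {w : ℕ} {ρ : ℕ → ℕ}

/-- The setup phase. -/
def setup (p : Prog) : Cm :=
  .seq (.blk [.const 4 1, .const 5 2, .copy 11 0, .add 1 0 4]) (.seq (alloc 3 19 19)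
    (.seq (alloc 6 19 3) (.seq (alloc 7 3 19) (.seq inLoop (.seq (.blk [.copy 0 8])
      (.seq (cp p) (.blk [.copy 9 0, .copy 10 1])))))))

/-- The invariant at the loop head. -/
structure Inv (x : List ℕ) (len H : ℕ) (s : St) : Prop where
  one : s.regs 4 = 1
  two : s.regs 5 = 2
  pos : 0 < s.regs 10
  le : s.regs 10 ≤ H
  ff : Rep s.mem (s.regs 10) (enc false) (s.regs 6)
  tt : Rep s.mem (s.regs 10) (enc true) (s.regs 7)
  inp : Rep s.mem (s.regs 10) (enc (raw x)) (s.regs 8)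
  un : Rep s.mem (s.regs 10) (enc (List.replicate len ())) (s.regs 9)

/-- The initial state. -/
def st0 (w : ℕ) (x : List ℕ) : St :=
  ⟨fun j => if j.val = 0 then x.length % 2 ^ w else 0, fun i => x[i]?.getD 0 % 2 ^ w, 0⟩

lemma run_setup {p : Prog} {x : List ℕ} {len N : ℕ}
    (hp : EvalLe p (enc (raw x)) (enc (List.replicate len ())) N) (hw : (kp p + 30) * N < 2 ^ w)
    (hx : ∀ a ∈ x, a < 2 ^ w) :
    Run w ρ (setup p) (st0 w x) ((kp p + 30) * N) fun s =>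
      s.drawn = 0 ∧ Inv x len ((kp p + 30) * N) s := by
  have hN : sz x ≤ N := by rw [← sz_raw]; exact hp.size_in_le
  have hl := length_lt_sz x
  rw [add_mul] at hw ⊢
  have hc := comp_of_evalLe (w := w) (ρ := ρ) hp
  generalize kp p * N = M at *
  have e0 : x.length % 2 ^ w = x.length := Nat.mod_eq_of_lt (by omega)
  have e1 : 1 % 2 ^ w = 1 := Nat.mod_eq_of_lt (by omega)
  have e2 : 2 % 2 ^ w = 2 := Nat.mod_eq_of_lt (by omega)
  have e3 : (x.length + 1) % 2 ^ w = x.length + 1 := Nat.mod_eq_of_lt (by omega)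
  refine Run.seq (m := 4) (n := M + 6 * sz x + 18) (Q := fun s => s.regs 4 = 1 ∧ s.regs 5 = 2 ∧
    s.regs 11 = x.length ∧ s.regs 1 = x.length + 1 ∧ s.regs 19 = 0 ∧ s.regs 8 = 0 ∧
    s.mem = (st0 w x).mem ∧ s.drawn = 0) (Run.blk le_rfl ?_)
    (fun s₁ ⟨a4, a5, a11, a1, a19, a8, am, ad⟩ => ?_) (by omega)
  · simp [Op.exe, St.set, writeReg, st0, e0, e1, e2, e3]
  have ok1 : Ok w s₁ (M + sz x + 6) := ⟨a4, by omega, by omega⟩
  have z1 : Rep s₁.mem (s₁.regs 1) .nil (s₁.regs 19) := a19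
  refine Run.seq (n := M + 6 * sz x + 13) (run_cons (ok1.mono (by omega)) z1 z1)
    (fun s₂ ⟨f2, d2, r2⟩ => ?_) (by omega)
  refine Run.seq (n := M + 6 * sz x + 8) (run_cons (ok1.fw f2 (by omega)) (f2.rep z1) r2)
    (fun s₃ ⟨f3, d3, r3⟩ => ?_) (by omega)
  have f13 : Fw [1, 3, 6] s₁ s₃ 4 := f2.trans f3 le_rfl
  refine Run.seq (n := M + 6 * sz x + 3) (run_cons (ok1.fw f13 (by omega)) (f3.rep r2) (f13.rep z1))
    (fun s₄ ⟨f4, d4, r4⟩ => ?_) (by omega)
  have f14 : Fw [1, 3, 6, 7] s₁ s₄ 6 := f13.trans f4 le_rfl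
  have g4 : G w s₄ (M + sz x) :=
    ⟨ok1.fw f14 (by omega), (f14.regs 5 (by decide)).trans a5, f4.rep r3, r4⟩
  refine Run.seq (n := M + 3) (run_inLoop x [] s₄ (g4.fw (Fw.refl [] _ 0) (by omega))
    ((f14.regs 11 (by decide)).trans a11) (by have := f14.gw.le; omega) (fun i hi => ?_)
    ((f14.regs 8 (by decide)).trans a8)) (fun s₅ ⟨f5, d5, r5⟩ => ?_) (by omega)
  · rw [f14.gw.mem i (by omega), am]
    simp [st0, hi, Nat.mod_eq_of_lt (hx _ (List.getElem_mem hi))]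
  rw [List.append_nil] at r5
  refine Run.seq (n := M + 2) (run_blk [0] _ s₅) (fun s₆ ⟨e6, f6, _, _⟩ => ?_) (by simp; omega)
  have b0 : s₆.regs 0 = s₅.regs 8 := by simp [e6, Op.exe, St.set, writeReg]
  have d6 : s₆.drawn = s₅.drawn := by rw [e6]; rfl
  have g6 : G w s₆ M := (g4.fw f5 (k := M) (by omega)).fw f6 (by omega)
  refine Run.seq (n := 2) (hc s₆ g6.ok (by rw [b0]; exact f6.gw.rep r5))
    (fun s₇ ⟨f7, r7⟩ => ?_) le_rfl
  have g7 : G w s₇ 0 := g6.fw f7.fw le_rfl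
  refine (run_blk [9, 10] _ s₇).mono le_rfl fun s₈ ⟨e8, f8, h8, m8⟩ => ?_
  have b9 : s₈.regs 9 = s₇.regs 0 := by simp [e8, Op.exe, St.set, writeReg]
  have b10 : s₈.regs 10 = s₈.regs 1 := by simp [e8, Op.exe, St.set, writeReg]
  have d8 : s₈.drawn = s₇.drawn := by rw [e8]; rfl
  have g8 : G w s₈ 0 := g7.fw f8 le_rfl
  refine ⟨by have := f7.drawn; omega, g8.ok.one, g8.two, b10 ▸ g8.ok.pos, ?_, b10 ▸ g8.ff,
    b10 ▸ g8.tt, b10 ▸ f8.rep (f7.fw.rep (f6.rep r5)), ?_⟩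
  · have := f14.gw.ge; have := f5.gw.ge; have := f6.gw.ge; have := f7.gw.ge; omega
  · rw [b10, b9]; exact f8.gw.rep r7

/-- One round. -/
def body (p : Prog) : Cm :=
  .seq (.blk [.copy 1 10, .copy 11 9, .const 13 0]) (.seq drawLoop (.seq (alloc 0 8 13) (.seq (cp p)
    (.ifz 0 (.blk [.const 15 0]) (.seq (.blk [.add 0 0 4, .load 11 0, .copy 16 1])
      (.seq outLoop (.blk [.sub 0 1 16, .copy 1 16, .copy 15 4])))))))

lemma Inv.fw {x : List ℕ} {len H n : ℕ} {L : List (Fin 20)} {s s' : St} (h : Inv x len H s)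
    (h1 : s.regs 10 ≤ s.regs 1) (hf : Fw L s s' n)
    (hl : 4 ∉ L ∧ 5 ∉ L ∧ 6 ∉ L ∧ 7 ∉ L ∧ 8 ∉ L ∧ 9 ∉ L ∧ 10 ∉ L := by decide) :
    Inv x len H s' := by
  obtain ⟨l4, l5, l6, l7, l8, l9, l10⟩ := hl
  have hm : ∀ a < s.regs 10, s'.mem a = s.mem a := fun a ha => hf.gw.mem a (by omega)
  refine ⟨(hf.regs 4 l4).trans h.one, (hf.regs 5 l5).trans h.two, ?_, ?_, ?_, ?_, ?_, ?_⟩ <;>
    rw [hf.regs 10 l10]
  · exact h.pos
  · exact h.le
  · rw [hf.regs 6 l6]; exact h.ff.mono hm le_rfl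
  · rw [hf.regs 7 l7]; exact h.tt.mono hm le_rfl
  · rw [hf.regs 8 l8]; exact h.inp.mono hm le_rfl
  · rw [hf.regs 9 l9]; exact h.un.mono hm le_rfl

lemma run_body {p : Prog} {x : List ℕ} {len H N : ℕ} {s : St} {o : Option (List ℕ)}
    (hs : Inv x len H s)
    (hp : EvalLe p (enc (raw x, (bitsAt w ρ s.drawn len).reverse)) (enc (o.map raw)) N)
    (hw : H + (kp p + 10) * N < 2 ^ w) (ho : ∀ y, o = some y → ∀ a ∈ y, a < 2 ^ w) :
    Run w ρ (body p) s ((kp p + 30) * N) fun s' =>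
      (∀ y, o = some y → s'.regs 15 ≠ 0 ∧
        (List.range (s'.regs 0)).map (fun i => s'.mem (s'.regs 1 + i)) = y) ∧
      (o = none → s'.regs 15 = 0 ∧ s'.drawn = s.drawn + len ∧ Inv x len H s') := by
  have hN : 6 * len + 1 ≤ N := by
    have : sz (raw x, (bitsAt w ρ s.drawn len).reverse) ≤ N := hp.size_in_le
    simp only [sz_pair, sz_boolList, bitsAt, List.length_reverse, List.length_map,
      List.length_range] at this
    omega
  have hO : sz (o.map raw) ≤ N := hp.size_out_le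
  rw [add_mul] at hw ⊢
  have hc := comp_of_evalLe (w := w) (ρ := ρ) hp
  generalize kp p * N = M at *
  have hH := hs.le
  refine Run.seq (m := 3) (n := M + 27 * N) (Q := fun s₁ => Inv x len H s₁ ∧
    s₁.regs 1 = s₁.regs 10 ∧ s₁.regs 11 = s₁.regs 9 ∧ s₁.regs 13 = 0 ∧ s₁.drawn = s.drawn)
    (Run.blk le_rfl ⟨⟨?_, ?_, ?_, ?_, ?_, ?_, ?_, ?_⟩, ?_, ?_, ?_, rfl⟩)
    (fun s₁ ⟨i1, a1, a11, a13, d1⟩ => ?_) (by omega)
  · simpa [Op.exe, St.set, writeReg] using hs.one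
  · simpa [Op.exe, St.set, writeReg] using hs.two
  · simpa [Op.exe, St.set, writeReg] using hs.pos
  · simpa [Op.exe, St.set, writeReg] using hs.le
  · simpa [Op.exe, St.set, writeReg] using hs.ff
  · simpa [Op.exe, St.set, writeReg] using hs.tt
  · simpa [Op.exe, St.set, writeReg] using hs.inp
  · simpa [Op.exe, St.set, writeReg] using hs.un
  · simp [Op.exe, St.set, writeReg]
  · simp [Op.exe, St.set, writeReg]
  · simp [Op.exe, St.set, writeReg]
  have hH1 := i1.le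
  have g1 : G w s₁ (M + 4 * N) :=
    ⟨⟨i1.one, a1 ▸ i1.pos, by omega⟩, i1.two, a1 ▸ i1.ff, a1 ▸ i1.tt⟩
  refine Run.seq (n := M + 23 * N) (run_drawLoop len [] s₁ (g1.fw (Fw.refl [] _ 0) (by omega))
    (by rw [a1, a11]; exact i1.un) a13) (fun s₂ ⟨f2, d2, r2⟩ => ?_) (by omega)
  rw [List.append_nil, d1] at r2
  refine Run.seq (n := M + 18 * N) (run_cons (g1.fw f2 (by omega)).ok
    (f2.rep (a1 ▸ i1.inp)) r2) (fun s₃ ⟨f3, d3, r3⟩ => ?_) (by omega)
  have f13 : Fw [0, 1, 11, 13, 14] s₁ s₃ (2 * len + 2) := f2.trans f3 le_rfl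
  refine Run.seq (n := 18 * N) (hc s₃ (g1.fw f13 (by omega)).ok r3) (fun s₄ ⟨f4, r4⟩ => ?_) le_rfl
  have f14 : Fw [0, 1, 2, 3, 11, 13, 14] s₁ s₄ (M + 3 * N) := f13.trans f4.fw (by omega)
  have ok4 : Ok w s₄ N := (g1.fw f14 (by omega)).ok
  cases o with
  | none =>
    refine Run.ifz (n := 1) r4 ?_ (by omega)
    refine (run_blk [15] _ s₄).mono le_rfl fun s₅ ⟨e5, f5, _, _⟩ => ⟨fun y hy => by simp at hy,
      fun _ => ⟨by simp [e5, Op.exe, St.set, writeReg], ?_,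
        i1.fw a1.ge (f14.trans (L'' := [0, 1, 2, 3, 11, 13, 14, 15]) f5 le_rfl)⟩⟩
    have : s₅.drawn = s₄.drawn := by rw [e5]; rfl
    have := f4.drawn
    omega
  | some y =>
    obtain ⟨p1, p2, -, p4⟩ : Rep s₄.mem (s₄.regs 1) (.cons .nil (enc (raw y))) (s₄.regs 0) := r4
    simp only [Option.map_some, sz_some, sz_raw] at hO
    have hy := length_lt_sz y
    have hlt := ok4.lt
    have e1 : (s₄.regs 0 + 1) % 2 ^ w = s₄.regs 0 + 1 := Nat.mod_eq_of_lt (by omega)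
    refine Run.ifn (n := 5 * sz y + 6) p1.ne' ?_ (by omega)
    refine Run.seq (n := 5 * sz y + 3) (run_blk [0, 11, 16] _ s₄) (fun s₅ ⟨e5, f5, h5, _⟩ => ?_)
      (by simp; omega)
    have b11 : s₅.regs 11 = s₄.mem (s₄.regs 0 + 1) := by
      simp [e5, Op.exe, St.set, writeReg, ok4.one, e1]
    have b16 : s₅.regs 16 = s₅.regs 1 := by simp [e5, Op.exe, St.set, writeReg]
    have ok5 : Ok w s₅ y.length := ok4.fw f5 (by omega)
    refine Run.seq (n := 3) (run_outLoop y s₅ ok5 (ho y rfl) (by rw [b11]; exact f5.gw.rep p4))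
      (fun s₆ ⟨f6, h6, o6⟩ => ?_) le_rfl
    have c16 : s₆.regs 16 = s₅.regs 1 := (f6.regs 16 (by decide)).trans b16
    have c4 : s₆.regs 4 = 1 := (f6.regs 4 (by decide)).trans ok5.one
    refine Run.blk le_rfl ⟨fun y' hy' => ?_, fun h => by simp at h⟩
    obtain rfl : y = y' := by simpa using hy'
    simpa [Op.exe, St.set, writeReg, c4, c16, h6] using o6

/-- The whole program. -/
def whole (p₀ p : Prog) : List (Instr 20) :=
  (setup p₀).code 0 ++ ((body p).code (setup p₀).len ++ [.jumpIfZero 15 (setup p₀).len, .halt])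

theorem roundSpec_whole (p₀ p : Prog) {x : List ℕ} {w len N₀ B : ℕ} {Rd : List Bool → Option (List ℕ)}
    {N : List Bool → ℕ} (h₀ : EvalLe p₀ (enc (raw x)) (enc (List.replicate len ())) N₀)
    (h : ∀ ω : List Bool, ω.length = len →
      EvalLe p (enc (raw x, ω.reverse)) (enc ((Rd ω).map raw)) (N ω))
    (hB₀ : N₀ ≤ B) (hB : ∀ ω : List Bool, ω.length = len → N ω ≤ B)
    (hw : (kp p₀ + kp p + 40) * B < 2 ^ w) (hx : ∀ a ∈ x, a < 2 ^ w)
    (ho : ∀ ω : List Bool, ω.length = len → ∀ y, Rd ω = some y → ∀ a ∈ y, a < 2 ^ w) :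
    ∃ Head : ℕ → Cfg 20 → Prop, RoundSpec ⟨20, whole p₀ p⟩ w x len Rd
      ((kp p₀ + kp p + 40) * N₀) (fun ω => (kp p₀ + kp p + 40) * N ω) Head := by
  have a0 : At (whole p₀ p) 0 (whole p₀ p) := ⟨[], [], by simp, rfl⟩
  have a1 := a0.right
  rw [Cm.length_code, zero_add] at a1
  have a2 := a1.right
  rw [Cm.length_code] at a2
  have hb0 : (kp p₀ + 30) * N₀ ≤ (kp p₀ + 30) * B := Nat.mul_le_mul_left _ hB₀
  refine ⟨fun i c => ∃ s : St, c = s.cfg (setup p₀).len ∧ s.drawn = i ∧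
    Inv x len ((kp p₀ + 30) * N₀) s, fun ρ => ?_, ?_, ?_⟩
  · obtain ⟨s, m, hm, ev, d, i⟩ := run_setup (w := w) (ρ := ρ) h₀ (by nlinarith) hx
    refine ⟨m, hm.trans (Nat.mul_le_mul_right _ (by omega)), s, ?_, d, i⟩
    have := ev.sim 0 a0.left
    rw [zero_add] at this
    exact this
  · rintro i c ⟨s, rfl, -, -⟩; rfl
  · rintro ρ i c ⟨s, rfl, rfl, hs⟩
    have hl : (bitsAt w ρ s.drawn len).length = len := by simp [bitsAt]
    have hN := hB _ hl
    have hN1 : 1 ≤ N (bitsAt w ρ s.drawn len) :=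
      le_trans (D.size_pos _) (h _ hl).size_in_le
    have hb1 : (kp p + 10) * N (bitsAt w ρ s.drawn len) ≤ (kp p + 10) * B :=
      Nat.mul_le_mul_left _ hN
    obtain ⟨s', m, hm, ev, q1, q2⟩ := run_body (ρ := ρ) hs (h _ hl) (by nlinarith) (ho _ hl)
    have e := ev.sim _ a1.left
    cases hR : Rd (bitsAt w ρ s.drawn len) with
    | none =>
      obtain ⟨r1, r2, r3⟩ := q2 hR
      refine ⟨m + 1, by omega, by nlinarith, fun y hy => by simp at hy,
        fun _ => ⟨s', ?_, r2, r3⟩⟩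
      rw [Function.iterate_succ_apply', e, step_jz a2.head, if_pos r1]
    | some y =>
      obtain ⟨r1, r2⟩ := q1 y hR
      refine ⟨m + 2, by omega, by nlinarith, fun y' hy' => ?_, fun h => by simp at h⟩
      obtain rfl : y = y' := by simpa using hy'
      rw [Function.iterate_succ_apply', Function.iterate_succ_apply', e, step_jz a2.head, if_neg r1,
        step_halt a2.tail.head]
      exact ⟨rfl, r2⟩

end Crest.Agent.R309.Ram
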