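import Crest.Agent.R309.Tape
import Crest.Prelude.Def_WordRAMProb

/-! Row 309: a word-RAM program that repeats a randomized round until it succeeds. -/

set_option autoImplicit false

namespace Crest.Agent.R309

open Crest.WordRAM

/-- The low bits of the `len` random words starting at position `i` of the stream. -/
def bitsAt (w : ℕ) (ρ : ℕ → ℕ) (i len : ℕ) : List Bool :=
  (List.range len).map fun k => decide (ρ (i + k) % 2 ^ w % 2 = 1)

/-- After a setup of at most `t₀` steps the run is at the loop head; from the loop head, having used
`i` random words, it runs at most `t ω` steps (`ω` = the next `len` random bits) and then either has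
halted with output `y` (if `Rd ω = some y`) or is back at the loop head. -/
structure RoundSpec (P : Program) (w : ℕ) (x : List ℕ) (len : ℕ) (Rd : List Bool → Option (List ℕ))
    (t₀ : ℕ) (t : List Bool → ℕ) (Head : ℕ → Cfg P.numRegs → Prop) : Prop where
  init : ∀ ρ, ∃ n, n ≤ t₀ ∧ Head 0 (run P w ρ x n)
  head : ∀ i c, Head i c → c.halted = false
  round : ∀ ρ i c, Head i c → ∃ n, 1 ≤ n ∧ n ≤ t (bitsAt w ρ i len) ∧
    (∀ y, Rd (bitsAt w ρ i len) = some y →
      ((step P w ρ)^[n] c).halted = true ∧ ((step P w ρ)^[n] c).output = y) ∧
    (Rd (bitsAt w ρ i len) = none → Head (i + len) ((step P w ρ)^[n] c))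

end Crest.Agent.R309
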