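import Crest.Agent.R309.Boost

/-! Row 309: reading the codes of margins and bounds. -/

set_option autoImplicit false

namespace Crest.Agent.R309

open Crest.Agent.Lib.PT Crest.Tables Crest.Enc

lemma reads_margins {ι α : Type} [Enc α] {u : ι → α} {m n : ι → ℕ} {rs : ∀ i, Fin (m i) → ℕ}
    {cs : ∀ i, Fin (n i) → ℕ} {r : ι → List Bool}
    (h : Reads u fun i => marginsCode (rs i) (cs i) ++ r i) :
    Reads u (fun i => List.ofFn (rs i)) ∧ Reads u (fun i => List.ofFn (cs i)) ∧ Reads u r := by
  have h1 := Reads.split SD.natCode (x := m) (r := fun i => natCode (n i) ++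
    (((List.ofFn (rs i)).map natCode).flatten ++ (((List.ofFn (cs i)).map natCode).flatten ++ r i)))
    (h.congr fun i => by simp only [marginsCode, List.append_assoc])
  have h2 := Reads.split SD.natCode h1.2
  have h3 := Reads.split_many SD.natCode natCode_ne_nil h1.1 (fun i => List.length_ofFn) h2.2
  have h4 := Reads.split_many SD.natCode natCode_ne_nil h2.1 (fun i => List.length_ofFn) h3.2
  exact ⟨h3.1, h4.1, h4.2⟩

lemma flatten_rows {m n : ℕ} (X : Fin m → Fin n → ℕ) :
    (List.ofFn fun i => ((List.ofFn (X i)).map natCode).flatten).flatten =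
      ((flat X).map natCode).flatten := by
  rw [flat, List.map_flatten, List.flatten_flatten, List.map_ofFn, List.map_ofFn]
  rfl

lemma lt_two_pow_codes {l : List ℕ} {a : ℕ} (h : a ∈ l) :
    a < 2 ^ ((l.map natCode).flatten).length := by
  have h1 : (natCode a).length ≤ ((l.map natCode).flatten).length :=
    (List.sublist_flatten_of_mem (List.mem_map_of_mem h)).length_le
  rw [length_natCode] at h1
  exact (Nat.lt_size_self a).trans_le (Nat.pow_le_pow_right (by norm_num) (by omega))

end Crest.Agent.R309
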