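import Crest.Agent.R309.Couple

/-! Row 309: routing a good pair through near-flows by unit moves. -/

set_option autoImplicit false

namespace Crest.Agent.R309

open Finset

variable {V E : Type} [Fintype V] [DecidableEq V] [Fintype E] [DecidableEq E]

/-- The number of edges of `O` at `v`. -/
def Gr.deg (G : Gr V E) (O : Finset E) (v : V) : ℕ :=
  (O.filter fun e => G.tl e = v ∨ G.hd e = v).card

lemma route_deg_erase (G : Gr V E) {O : Finset E} {e : E} (he : e ∈ O) (v : V) :
    G.deg O v = G.deg (O.erase e) v + if G.tl e = v ∨ G.hd e = v then 1 else 0 := by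
  unfold Gr.deg
  conv_lhs => rw [← Finset.insert_erase he]
  rw [Finset.filter_insert]
  split_ifs with h
  · rw [Finset.card_insert_of_notMem (by simp)]
  · rfl

lemma route_exists_edge (G : Gr V E) (O : Finset E) (hO : O.Nonempty)
    (h1 : (univ.filter fun v => G.deg O v = 1).card ≤ 2) :
    ∃ e ∈ O, (univ.filter fun v => G.deg (O.erase e) v = 1).card ≤ 2 := by
  by_cases hv : ∃ v, G.deg O v = 1
  · obtain ⟨v, hv⟩ := hv
    obtain ⟨e, he⟩ : (O.filter fun e => G.tl e = v ∨ G.hd e = v).Nonempty := by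
      rw [← Finset.card_pos]
      unfold Gr.deg at hv
      omega
    rw [Finset.mem_filter] at he
    refine ⟨e, he.1, ?_⟩
    have hsub : (univ.filter fun u => G.deg (O.erase e) u = 1) ⊆
        insert (if G.tl e = v then G.hd e else G.tl e)
          ((univ.filter fun u => G.deg O u = 1).erase v) := by
      intro u hu
      rw [Finset.mem_filter] at hu
      have h2 := route_deg_erase G he.1 u
      have h3 := route_deg_erase G he.1 v
      rw [if_pos he.2] at h3
      have huv : u ≠ v := by
        rintro rfl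
        omega
      rw [Finset.mem_insert, Finset.mem_erase, Finset.mem_filter]
      by_cases h4 : G.tl e = u ∨ G.hd e = u
      · left
        have h5 := he.2
        split_ifs with h6
        · rcases h4 with h4 | h4
          · exact absurd (h4.symm.trans h6) huv
          · exact h4.symm
        · rcases h4 with h4 | h4
          · exact h4.symm
          · exact absurd (h4.symm.trans (h5.resolve_left h6)) huv
      · right
        rw [if_neg h4] at h2
        exact ⟨huv, mem_univ _, by omega⟩
    have h5 := Finset.card_le_card hsub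
    have h6 := Finset.card_insert_le (if G.tl e = v then G.hd e else G.tl e)
      ((univ.filter fun u => G.deg O u = 1).erase v)
    have h7 := Finset.card_erase_of_mem (s := univ.filter fun u => G.deg O u = 1) (a := v)
      (by simpa using hv)
    have h8 : 0 < (univ.filter fun u => G.deg O u = 1).card :=
      Finset.card_pos.2 ⟨v, by simpa using hv⟩
    omega
  · obtain ⟨e, he⟩ := hO
    refine ⟨e, he, ?_⟩
    have hsub : (univ.filter fun u => G.deg (O.erase e) u = 1) ⊆ {G.tl e, G.hd e} := by
      intro u hu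
      rw [Finset.mem_filter] at hu
      have h2 := route_deg_erase G he u
      by_contra h4
      rw [if_neg (by
        rintro (h | h) <;> exact h4 (by simp [h]))] at h2
      exact hv ⟨u, by omega⟩
    exact (Finset.card_le_card hsub).trans Finset.card_le_two

/-- Greedy ordering (strong induction on `O`): if some `v` has degree one remove its edge `{v, u}`
first (the degree-one vertices of the rest lie in `(old ones \ {v}) ∪ {u}`), otherwise remove any
edge (the degree-one vertices of the rest are among its two ends). -/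
lemma exists_order (G : Gr V E) (O : Finset E) (h2 : ∀ v, G.deg O v ≤ 2)
    (h1 : (univ.filter fun v => G.deg O v = 1).card ≤ 2) :
    ∃ L : List E, L.Nodup ∧ L.toFinset = O ∧
      ∀ k, (univ.filter fun v => G.deg (L.drop k).toFinset v = 1).card ≤ 2 := by
  clear h2
  induction O using Finset.strongInduction with
  | H O ih =>
    rcases O.eq_empty_or_nonempty with rfl | hO
    · exact ⟨[], List.nodup_nil, rfl, fun k => by simpa using h1⟩
    · obtain ⟨e, he, h3⟩ := route_exists_edge G O hO h1
      obtain ⟨L, hL, hLO, hk⟩ := ih (O.erase e) (Finset.erase_ssubset he) h3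
      have hE : (e :: L).toFinset = O := by
        rw [List.toFinset_cons, hLO, Finset.insert_erase he]
      refine ⟨e :: L, List.nodup_cons.2 ⟨fun h => ?_, hL⟩, hE, fun k => ?_⟩
      · have : e ∈ O.erase e := by rw [← hLO]; exact List.mem_toFinset.2 h
        simp at this
      · cases k with
        | zero => rwa [List.drop_zero, hE]
        | succ k => exact hk k

lemma Good.abs_le {G : Gr V E} (hl : ∀ e, G.tl e ≠ G.hd e) {D : E → ℤ} (h : Good G D) (e : E) :
    |D e| ≤ 1 := by
  have := h (G.tl e) e e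
  rwa [Finset.pair_eq_singleton, G.gf_single_tl e (hl e)] at this

lemma route_inc_of_at {G : Gr V E} (hl : ∀ e, G.tl e ≠ G.hd e) {v : V} {e : E}
    (h : G.tl e = v ∨ G.hd e = v) : G.inc v e = 1 ∨ G.inc v e = -1 := by
  rcases h with h | h
  · left
    have : G.hd e ≠ v := fun h' => hl e (h.trans h'.symm)
    simp [Gr.inc, rt, h, this]
  · right
    have : G.tl e ≠ v := fun h' => hl e (h'.trans h.symm)
    simp [Gr.inc, rt, h, this]

lemma route_inc_of_not_at {G : Gr V E} {v : V} {e : E} (h : ¬ (G.tl e = v ∨ G.hd e = v)) :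
    G.inc v e = 0 := by
  rw [not_or] at h
  simp [Gr.inc, rt, h.1, h.2]

lemma route_sign {G : Gr V E} (hl : ∀ e, G.tl e ≠ G.hd e) {D : E → ℤ} (h : Good G D) {v : V}
    {e : E} (h1 : G.tl e = v ∨ G.hd e = v) (h2 : D e ≠ 0) :
    G.inc v e * D e = 1 ∨ G.inc v e * D e = -1 := by
  have h3 := abs_le.1 (h.abs_le hl e)
  rcases route_inc_of_at hl h1 with h4 | h4 <;> rw [h4] <;> omega

lemma route_deg_le {G : Gr V E} (hl : ∀ e, G.tl e ≠ G.hd e) {D : E → ℤ} (h : Good G D)
    {A : Finset E} (hA : ∀ e ∈ A, D e ≠ 0) (v : V) : G.deg A v ≤ 2 := by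
  unfold Gr.deg
  refine le_trans (Finset.card_le_card_of_injOn (t := ({1, -1} : Finset ℤ))
    (fun e => G.inc v e * D e) ?_ ?_) Finset.card_le_two
  · intro e he
    rw [Finset.mem_coe, Finset.mem_filter] at he
    simpa using route_sign hl h he.2 (hA e he.1)
  · intro e he e' he' hee
    rw [Finset.mem_coe, Finset.mem_filter] at he he'
    by_contra hne
    have h1 := abs_le.1 (h v e e')
    rw [Gr.gf, Finset.sum_pair hne] at h1
    have h2 := route_sign hl h he.2 (hA e he.1)
    simp only at hee
    omega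

lemma route_div_restrict (G : Gr V E) (D : E → ℤ) (A : Finset E) (v : V) :
    G.div (fun e => if e ∈ A then D e else 0) v =
      ∑ e ∈ A.filter (fun e => G.tl e = v ∨ G.hd e = v), G.inc v e * D e := by
  rw [Finset.sum_filter, Gr.div, ← Finset.sum_subset (Finset.subset_univ A)]
  · refine Finset.sum_congr rfl fun e he => ?_
    rw [if_pos he]
    split_ifs with h
    · rfl
    · rw [route_inc_of_not_at h, zero_mul]
  · intro e _ he
    rw [if_neg he, mul_zero]

/-- the divergence of a restriction, by degree -/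
lemma route_div_cases {G : Gr V E} (hl : ∀ e, G.tl e ≠ G.hd e) {D : E → ℤ} (h : Good G D)
    {A : Finset E} (hA : ∀ e ∈ A, D e ≠ 0) (v : V) :
    (G.deg A v = 1 ∧ (G.div (fun e => if e ∈ A then D e else 0) v = 1 ∨
        G.div (fun e => if e ∈ A then D e else 0) v = -1)) ∨
      (G.deg A v ≠ 1 ∧ G.div (fun e => if e ∈ A then D e else 0) v = 0) := by
  have h2 := route_deg_le hl h hA v
  rw [route_div_restrict]
  unfold Gr.deg at h2 ⊢
  have hs : ∀ e ∈ A.filter (fun e => G.tl e = v ∨ G.hd e = v),
      G.inc v e * D e = 1 ∨ G.inc v e * D e = -1 := fun e he =>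
    route_sign hl h (Finset.mem_filter.1 he).2 (hA e (Finset.mem_filter.1 he).1)
  generalize A.filter (fun e => G.tl e = v ∨ G.hd e = v) = F at h2 hs
  rcases (by omega : F.card = 0 ∨ F.card = 1 ∨ F.card = 2) with h3 | h3 | h3
  · right
    rw [Finset.card_eq_zero] at h3
    simp [h3]
  · left
    obtain ⟨e, rfl⟩ := Finset.card_eq_one.1 h3
    rw [Finset.sum_singleton]
    exact ⟨h3, hs e (by simp)⟩
  · right
    obtain ⟨e, e', hne, rfl⟩ := Finset.card_eq_two.1 h3
    have h4 := abs_le.1 (h v e e')
    rw [Gr.gf] at h4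
    rw [Finset.sum_pair hne] at h4 ⊢
    have h5 := hs e (by simp)
    have h6 := hs e' (by simp)
    refine ⟨by omega, by omega⟩

/-- Two distinct edges of the support at `v` have opposite signs `inc v e * D e = ± 1`; so the degree
is at most two, and a vertex of degree one has nonzero divergence. -/
lemma Good.deg_le {G : Gr V E} (hl : ∀ e, G.tl e ≠ G.hd e) {D : E → ℤ} (h : Good G D)
    (hD : IsRt (G.div D)) :
    (∀ v, G.deg (univ.filter fun e => D e ≠ 0) v ≤ 2) ∧
      (univ.filter fun v => G.deg (univ.filter fun e => D e ≠ 0) v = 1).card ≤ 2 := by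
  have hA : ∀ e ∈ univ.filter (fun e => D e ≠ 0), D e ≠ 0 := fun e he => (Finset.mem_filter.1 he).2
  refine ⟨route_deg_le hl h hA, ?_⟩
  obtain ⟨i, j, hij⟩ := hD
  have hres : (fun e => if e ∈ univ.filter (fun e => D e ≠ 0) then D e else 0) = D := by
    funext e
    by_cases he : D e = 0 <;> simp [he]
  refine le_trans (Finset.card_le_card (t := {i, j}) fun v hv => ?_) Finset.card_le_two
  have h1 := route_div_cases hl h hA v
  rw [hres, hij] at h1
  have h2 := (Finset.mem_filter.1 hv).2
  by_contra h3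
  rw [Finset.mem_insert, Finset.mem_singleton, not_or] at h3
  have h4 : rt i j v = 0 := by simp [rt, Ne.symm h3.1, Ne.symm h3.2]
  omega

lemma route_isRt [Nonempty V] {δ : V → ℤ} (B : Finset V) (hB : B.card ≤ 2)
    (h : ∀ v, (v ∈ B ∧ (δ v = 1 ∨ δ v = -1)) ∨ δ v = 0) (hs : ∑ v, δ v = 0) : IsRt δ := by
  by_cases h0 : δ = 0
  · rw [h0]; exact isRt_zero
  obtain ⟨v₀, hv₀⟩ := Function.ne_iff.1 h0
  have hi : ∃ i, 0 < δ i := by
    by_contra hc
    push Not at hc
    exact hv₀ ((Finset.sum_eq_zero_iff_of_nonpos fun v _ => hc v).1 hs v₀ (mem_univ _))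
  have hj : ∃ j, δ j < 0 := by
    by_contra hc
    push Not at hc
    exact hv₀ ((Finset.sum_eq_zero_iff_of_nonneg fun v _ => hc v).1 hs v₀ (mem_univ _))
  obtain ⟨i, hi⟩ := hi
  obtain ⟨j, hj⟩ := hj
  have hij : i ≠ j := by
    rintro rfl
    omega
  have hi' : i ∈ B ∧ δ i = 1 := by
    rcases h i with h1 | h1
    · exact ⟨h1.1, by omega⟩
    · omega
  have hj' : j ∈ B ∧ δ j = -1 := by
    rcases h j with h1 | h1
    · exact ⟨h1.1, by omega⟩
    · omega
  have hBe : ({i, j} : Finset V) = B := Finset.eq_of_subset_of_card_le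
    (by
      intro v hv
      rcases Finset.mem_insert.1 hv with rfl | hv
      · exact hi'.1
      · rw [Finset.mem_singleton.1 hv]; exact hj'.1)
    (by rw [Finset.card_pair hij]; exact hB)
  refine ⟨i, j, funext fun v => ?_⟩
  by_cases h1 : i = v
  · subst h1
    simp [rt, hi'.2, hij.symm]
  by_cases h2 : j = v
  · subst h2
    simp [rt, hj'.2, hij]
  have h3 : v ∉ B := by
    rw [← hBe]
    simp [Ne.symm h1, Ne.symm h2]
  rcases h v with h4 | h4
  · exact absurd h4.1 h3
  · simp [rt, h1, h2, h4]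

/-- The divergence of the restriction is `0` at vertices of `A`-degree `0` or `2`, `± 1` at vertices
of `A`-degree `1`, and sums to zero. -/
lemma Good.isRt_restrict [Nonempty V] {G : Gr V E} (hl : ∀ e, G.tl e ≠ G.hd e) {D : E → ℤ}
    (h : Good G D) (A : Finset E) (hA : ∀ e ∈ A, D e ≠ 0)
    (h1 : (univ.filter fun v => G.deg A v = 1).card ≤ 2) :
    IsRt (G.div fun e => if e ∈ A then D e else 0) := by
  refine route_isRt _ h1 (fun v => ?_) (G.sum_div _)
  rcases route_div_cases hl h hA v with h2 | h2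
  · exact Or.inl ⟨by simpa using h2.1, h2.2⟩
  · exact Or.inr h2.2

lemma route_sum_inj {α β : Type} [DecidableEq β] (s : Finset α) (t : Finset β) (φ : α → β)
    (hφ : Set.InjOn φ s) (hm : ∀ a ∈ s, φ a ∈ t) (T : β → ℝ) (hT : ∀ b ∈ t, 0 ≤ T b) :
    ∑ a ∈ s, T (φ a) ≤ ∑ b ∈ t, T b := by
  rw [← Finset.sum_image hφ]
  exact Finset.sum_le_sum_of_subset_of_nonneg (Finset.image_subset_iff.2 hm) fun b hb _ => hT b hb

/-- keep `N` on `A` and reflect it off `A` -/
def routeFlip (W : E → ℤ) (A : Finset E) (N : E → ℤ) : E → ℤ :=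
  fun e => if e ∈ A then N e else W e - N e

lemma routeFlip_injective (W : E → ℤ) (A : Finset E) : Function.Injective (routeFlip W A) := by
  intro N N' h
  funext e
  have := congrFun h e
  unfold routeFlip at this
  split_ifs at this <;> omega

lemma routeFlip_eq (W : E → ℤ) (A : Finset E) (N : E → ℤ) :
    routeFlip W A N = (W - N) + fun e => if e ∈ A then (N - (W - N)) e else 0 := by
  funext e
  simp only [routeFlip, Pi.add_apply, Pi.sub_apply]
  split_ifs <;> omega

lemma routeFlip_insert (W : E → ℤ) {A : Finset E} {e : E} (he : e ∉ A) (N : E → ℤ) :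
    routeFlip W (insert e A) N = routeFlip W A N + Pi.single e ((N - (W - N)) e) := by
  funext e'
  simp only [routeFlip, Pi.add_apply, Pi.sub_apply, Finset.mem_insert]
  by_cases h : e' = e
  · subst h
    simp [he]
  · simp [h]

lemma wt_routeFlip {b : E → ℤ → ℝ} {W : E → ℤ} (hs : Sym b W) (A : Finset E) (N : E → ℤ) :
    wt b (routeFlip W A N) = wt b N := by
  refine Finset.prod_congr rfl fun e _ => ?_
  unfold routeFlip
  split_ifs
  · rfl
  · exact (hs e _).symm

/-- one term of the Dirichlet form -/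
noncomputable def routeT (G : Gr V E) (R : ℕ) (d : V → ℤ) (π f : (E → ℤ) → ℝ) (e : E)
    (S : E → ℤ) : ℝ :=
  if S + Pi.single e 1 ∈ box E R ∧ IsRt (G.div S - d) ∧ IsRt (G.div (S + Pi.single e 1) - d) then
    min (π S) (π (S + Pi.single e 1)) * (f S - f (S + Pi.single e 1)) ^ 2 else 0

lemma route_UDir_eq (G : Gr V E) (R : ℕ) (d : V → ℤ) (π f : (E → ℤ) → ℝ) :
    UDir G R d π f = ∑ e, ∑ S ∈ box E R, routeT G R d π f e S := rfl

lemma routeT_nonneg (G : Gr V E) (R : ℕ) (d : V → ℤ) {π : (E → ℤ) → ℝ} (hπ : ∀ S, 0 ≤ π S)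
    (f : (E → ℤ) → ℝ) (e : E) (S : E → ℤ) : 0 ≤ routeT G R d π f e S := by
  unfold routeT
  split_ifs
  · exact mul_nonneg (le_min (hπ _) (hπ _)) (sq_nonneg _)
  · exact le_rfl

lemma route_UDir_nonneg (G : Gr V E) (R : ℕ) (d : V → ℤ) {π : (E → ℤ) → ℝ} (hπ : ∀ S, 0 ≤ π S)
    (f : (E → ℤ) → ℝ) : 0 ≤ UDir G R d π f :=
  Finset.sum_nonneg fun e _ => Finset.sum_nonneg fun S _ => routeT_nonneg G R d hπ f e S

/-- one unit move of the route -/
lemma route_step (G : Gr V E) {R : ℕ} {b : E → ℤ → ℝ} (hb : Adm R b) {d : V → ℤ}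
    (f : (E → ℤ) → ℝ) {S S' : E → ℤ} {e : E} {c : ℤ} (hc : c = 1 ∨ c = -1)
    (hSS : S = S' + Pi.single e c) {w : ℝ} (hw : w ≠ 0) (h1 : wt b S = w) (h2 : wt b S' = w)
    (r1 : IsRt (G.div S - d)) (r2 : IsRt (G.div S' - d)) :
    w * (f S - f S') ^ 2 ≤ routeT G R d (wt b) f e S + routeT G R d (wt b) f e S' := by
  have n1 := routeT_nonneg G R d hb.wt_nonneg f e S
  have n2 := routeT_nonneg G R d hb.wt_nonneg f e S'
  rcases hc with rfl | rfl
  · have : routeT G R d (wt b) f e S' = w * (f S - f S') ^ 2 := by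
      unfold routeT
      rw [← hSS, if_pos ⟨hb.mem_box (h1 ▸ hw), r2, r1⟩, h1, h2, min_self]
      ring
    linarith
  · have e1 : S + Pi.single e 1 = S' := by
      rw [hSS, add_assoc, ← Pi.single_add]
      simp
    have : routeT G R d (wt b) f e S = w * (f S - f S') ^ 2 := by
      unfold routeT
      rw [e1, if_pos ⟨hb.mem_box (h2 ▸ hw), r1, r2⟩, h1, h2, min_self]
    linarith

/-- Routing for one `W`.  Let `O = {e | W e odd}`; for a good `N`, `D = N - (W - N) = 2N - W` has
support `O`.  If some `N` of the class is good take the order `L` of `O` from `exists_order` (it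
depends on `W` only).  `S k` = `N` with the first `k` edges of `L` flipped (`x ↦ W e - x`)
`= (W - N) + D` restricted to `L.drop k`, so `div (S k) - d` is a root (`Good.isRt_restrict`),
`wt b (S k) = wt b N` (symmetry of each factor; so `S k ∈ box` if the weight is nonzero), and
`S (k+1) = S k ± single (L k) 1`.  Cauchy–Schwarz along the path (length `≤ card E`); for fixed `k`
the map `N ↦ S k` is injective, so each unit edge `{S, S + single e 1}` with `e = L k` is used by at
most two `N`. -/
lemma route_one (G : Gr V E) (hl : ∀ e, G.tl e ≠ G.hd e) {R : ℕ} {b : E → ℤ → ℝ} (hb : Adm R b)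
    {d ρ : V → ℤ} (hρ : IsRt ρ) {W : E → ℤ} (hs : Sym b W) (hW : G.div W = d + d + ρ)
    (f : (E → ℤ) → ℝ) :
    ∑ N ∈ cls G R (d + ρ), wt b N * (if Good G (N - (W - N)) then (f N - f (W - N)) ^ 2 else 0) ≤
      2 * Fintype.card E * UDir G R d (wt b) f := by
  have hU := route_UDir_nonneg G R d hb.wt_nonneg f
  set Gd := (cls G R (d + ρ)).filter fun N => Good G (N - (W - N)) ∧ wt b N ≠ 0 with hGd
  have hLHS : ∑ N ∈ cls G R (d + ρ),
      wt b N * (if Good G (N - (W - N)) then (f N - f (W - N)) ^ 2 else 0) =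
      ∑ N ∈ Gd, wt b N * (f N - f (W - N)) ^ 2 := by
    rw [hGd, Finset.sum_filter]
    refine Finset.sum_congr rfl fun N _ => ?_
    by_cases h1 : Good G (N - (W - N)) <;> by_cases h2 : wt b N = 0 <;> simp [h1, h2]
  rw [hLHS]
  rcases Gd.eq_empty_or_nonempty with h0 | ⟨N₀, hN₀⟩
  · rw [h0, Finset.sum_empty]
    positivity
  haveI : Nonempty V := by
    obtain ⟨i, _, _⟩ := hρ
    exact ⟨i⟩
  have hmem : ∀ N ∈ Gd, G.div N = d + ρ ∧ Good G (N - (W - N)) ∧ wt b N ≠ 0 := fun N hN =>
    ⟨(mem_cls.1 (Finset.mem_filter.1 hN).1).2, (Finset.mem_filter.1 hN).2⟩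
  have hsupp : ∀ N ∈ Gd, ∀ e, (N - (W - N)) e ≠ 0 ↔ W e % 2 = 1 := by
    intro N hN e
    have := abs_le.1 ((hmem N hN).2.1.abs_le hl e)
    simp only [Pi.sub_apply] at this ⊢
    omega
  have hdiv : ∀ N ∈ Gd, G.div (W - N) = d := by
    intro N hN
    rw [G.div_sub, hW, (hmem N hN).1]
    abel
  have hO : (univ.filter fun e => (N₀ - (W - N₀)) e ≠ 0) = univ.filter fun e => W e % 2 = 1 :=
    Finset.filter_congr fun e _ => hsupp N₀ hN₀ e
  have hdeg := (hmem N₀ hN₀).2.1.deg_le hl (by
    rw [G.div_sub, hdiv N₀ hN₀, (hmem N₀ hN₀).1, add_sub_cancel_left]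
    exact hρ)
  rw [hO] at hdeg
  obtain ⟨L, hL, hLO, hk⟩ := exists_order G _ hdeg.1 hdeg.2
  have hLmem : ∀ e, e ∈ L ↔ W e % 2 = 1 := by
    intro e
    rw [← List.mem_toFinset, hLO]
    simp
  have hroot : ∀ N ∈ Gd, ∀ k, IsRt (G.div (routeFlip W (L.drop k).toFinset N) - d) := by
    intro N hN k
    rw [routeFlip_eq, G.div_add, hdiv N hN, add_sub_cancel_left]
    refine (hmem N hN).2.1.isRt_restrict hl _ (fun e he => ?_) (hk k)
    rw [hsupp N hN, ← hLmem]
    exact List.mem_of_mem_drop (List.mem_toFinset.1 he)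
  have hpath : ∀ N ∈ Gd, wt b N * (f N - f (W - N)) ^ 2 ≤ Fintype.card E *
      ∑ k : Fin L.length, (routeT G R d (wt b) f (L.get k) (routeFlip W (L.drop k).toFinset N) +
        routeT G R d (wt b) f (L.get k) (routeFlip W (L.drop (k + 1)).toFinset N)) := by
    intro N hN
    have hw := hb.wt_nonneg N
    have e0 : routeFlip W (L.drop 0).toFinset N = N := by
      funext e
      unfold routeFlip
      split_ifs with he
      · rfl
      · rw [List.drop_zero, List.mem_toFinset, hLmem, ← hsupp N hN, not_not] at he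
        simp only [Pi.sub_apply] at he
        omega
    have e1 : routeFlip W (L.drop L.length).toFinset N = W - N := by
      funext e
      simp [routeFlip]
    have htel := Finset.sum_range_sub' (fun k => f (routeFlip W (L.drop k).toFinset N)) L.length
    simp only [e0, e1] at htel
    have hcs := sq_sum_le_card_mul_sum_sq (s := range L.length)
      (f := fun k => f (routeFlip W (L.drop k).toFinset N) -
        f (routeFlip W (L.drop (k + 1)).toFinset N))
    rw [htel, Finset.card_range, Finset.sum_range] at hcs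
    have hlen : (L.length : ℝ) ≤ Fintype.card E := by exact_mod_cast hL.length_le_card
    calc wt b N * (f N - f (W - N)) ^ 2
        ≤ wt b N * (Fintype.card E * ∑ k : Fin L.length,
            (f (routeFlip W (L.drop k).toFinset N) -
              f (routeFlip W (L.drop (k + 1)).toFinset N)) ^ 2) := by
          refine mul_le_mul_of_nonneg_left (hcs.trans ?_) hw
          exact mul_le_mul_of_nonneg_right hlen (Finset.sum_nonneg fun _ _ => sq_nonneg _)
      _ = Fintype.card E * ∑ k : Fin L.length, wt b N *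
            (f (routeFlip W (L.drop k).toFinset N) -
              f (routeFlip W (L.drop (k + 1)).toFinset N)) ^ 2 := by
          rw [← Finset.mul_sum]; ring
      _ ≤ _ := by
          refine mul_le_mul_of_nonneg_left (Finset.sum_le_sum fun k _ => ?_) (Nat.cast_nonneg _)
          have hd : L.drop k = (L.get k) :: L.drop (k + 1) := List.drop_eq_getElem_cons k.2
          have hnd : ((L.get k) :: L.drop (k + 1)).Nodup := hd ▸ hL.sublist (List.drop_sublist _ _)
          have hc : (N - (W - N)) (L.get k) = 1 ∨ (N - (W - N)) (L.get k) = -1 := by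
            have h1 := abs_le.1 ((hmem N hN).2.1.abs_le hl (L.get k))
            have h2 := (hsupp N hN (L.get k)).2 ((hLmem _).1 (List.get_mem L k))
            omega
          refine route_step G hb f hc ?_ (hmem N hN).2.2 (wt_routeFlip hs _ _)
            (wt_routeFlip hs _ _) (hroot N hN _) (hroot N hN _)
          rw [← routeFlip_insert W (by
            rw [List.mem_toFinset]; exact (List.nodup_cons.1 hnd).1), ← List.toFinset_cons, ← hd]
  have hcong : ∀ (A : Finset E) (e : E), ∑ N ∈ Gd, routeT G R d (wt b) f e (routeFlip W A N) ≤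
      ∑ S ∈ box E R, routeT G R d (wt b) f e S := fun A e =>
    route_sum_inj Gd (box E R) (routeFlip W A) (routeFlip_injective W A).injOn
      (fun N hN => hb.mem_box (by rw [wt_routeFlip hs]; exact (hmem N hN).2.2)) _
      fun S _ => routeT_nonneg G R d hb.wt_nonneg f e S
  have hsum : ∑ k : Fin L.length, ∑ S ∈ box E R, routeT G R d (wt b) f (L.get k) S ≤
      UDir G R d (wt b) f :=
    route_sum_inj univ univ (fun k : Fin L.length => (L.get k))
      (List.nodup_iff_injective_get.1 hL).injOn (fun _ _ => mem_univ _)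
      (fun e => ∑ S ∈ box E R, routeT G R d (wt b) f e S)
      fun e _ => Finset.sum_nonneg fun S _ => routeT_nonneg G R d hb.wt_nonneg f e S
  calc ∑ N ∈ Gd, wt b N * (f N - f (W - N)) ^ 2
      ≤ ∑ N ∈ Gd, Fintype.card E * ∑ k : Fin L.length,
          (routeT G R d (wt b) f (L.get k) (routeFlip W (L.drop k).toFinset N) +
            routeT G R d (wt b) f (L.get k) (routeFlip W (L.drop (k + 1)).toFinset N)) :=
        Finset.sum_le_sum hpath
    _ = Fintype.card E * ∑ k : Fin L.length,
          (∑ N ∈ Gd, routeT G R d (wt b) f (L.get k) (routeFlip W (L.drop k).toFinset N) +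
            ∑ N ∈ Gd, routeT G R d (wt b) f (L.get k) (routeFlip W (L.drop (k + 1)).toFinset N)) := by
        rw [← Finset.mul_sum, Finset.sum_comm]
        simp only [Finset.sum_add_distrib]
    _ ≤ Fintype.card E * ∑ k : Fin L.length,
          (∑ S ∈ box E R, routeT G R d (wt b) f (L.get k) S +
            ∑ S ∈ box E R, routeT G R d (wt b) f (L.get k) S) :=
        mul_le_mul_of_nonneg_left
          (Finset.sum_le_sum fun k _ => add_le_add (hcong _ _) (hcong _ _)) (Nat.cast_nonneg _)
    _ ≤ Fintype.card E * (UDir G R d (wt b) f + UDir G R d (wt b) f) := by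
        rw [Finset.sum_add_distrib]
        exact mul_le_mul_of_nonneg_left (add_le_add hsum hsum) (Nat.cast_nonneg _)
    _ = _ := by ring

lemma route_UDir_le_mul (G : Gr V E) (R : ℕ) (d : V → ℤ) {π π' : (E → ℤ) → ℝ} {c : ℝ} (hc : 0 ≤ c)
    (h : ∀ S, IsRt (G.div S - d) → π S ≤ c * π' S) (f : (E → ℤ) → ℝ) :
    UDir G R d π f ≤ c * UDir G R d π' f := by
  rw [route_UDir_eq, route_UDir_eq, Finset.mul_sum]
  refine Finset.sum_le_sum fun e _ => ?_
  rw [Finset.mul_sum]
  refine Finset.sum_le_sum fun S _ => ?_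
  unfold routeT
  split_ifs with h1
  · rw [← mul_assoc, mul_min_of_nonneg _ _ hc]
    exact mul_le_mul_of_nonneg_right (min_le_min (h _ h1.2.1) (h _ h1.2.2)) (sq_nonneg _)
  · simp

lemma route_sum_UDir (G : Gr V E) {R : ℕ} (d ρ : V → ℤ) {a : E → ℤ → ℝ} (ha : Adm R a)
    (f : (E → ℤ) → ℝ) :
    ∑ W ∈ cls G (2 * R) (d + d + ρ), UDir G R d (wt (rfl' a W)) f ≤
      UDir G R d (om G R d ρ a) f := by
  have key : ∀ S ∈ box E R, ∑ W ∈ cls G (2 * R) (d + d + ρ), wt (rfl' a W) S = om G R d ρ a S := by
    intro S hS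
    simp only [wt_rfl']
    rw [← Finset.mul_sum, sum_wt_sub G ha _ hS, om]
  simp only [route_UDir_eq]
  rw [Finset.sum_comm]
  refine Finset.sum_le_sum fun e _ => ?_
  rw [Finset.sum_comm]
  refine Finset.sum_le_sum fun S hS => ?_
  unfold routeT
  split_ifs with h1
  · rw [← Finset.sum_mul]
    refine mul_le_mul_of_nonneg_right (le_min ?_ ?_) (sq_nonneg _)
    · rw [← key S hS]
      exact Finset.sum_le_sum fun W _ => min_le_left _ _
    · rw [← key _ h1.1]
      exact Finset.sum_le_sum fun W _ => min_le_right _ _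
  · simp

/-- Congestion bound.  Level `0`: `GS_zero'`, `route_one`, and
`∑ W, min (a^W S) (a^W S') ≤ min (om a S) (om a S')` by `sum_wt_sub`.  Step: for a near-flow `S`,
`om (a^W) S ≤ 2 Z^W d * a^W S` (`Sym.Zc_reflect`, `Sym.Z_le_two` with `ρ' = div S - d`). -/
theorem GS_route (G : Gr V E) (hl : ∀ e, G.tl e ≠ G.hd e) {R : ℕ} (d : V → ℤ) {ρ : V → ℤ}
    (hρ : IsRt ρ) (l : ℕ) {a : E → ℤ → ℝ} (ha : Adm R a) (f : (E → ℤ) → ℝ) :
    GS G R d ρ l a (fun N X => if Good G (N - X) then (f N - f X) ^ 2 else 0) ≤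
      2 ^ (l + 1) * Fintype.card E * UDir G R d (om G R d ρ a) f := by
  induction l generalizing a with
  | zero =>
    rw [GS_zero' G d ρ ha, zero_add, pow_one]
    refine le_trans (Finset.sum_le_sum fun W hW =>
      route_one G hl (ha.rfl' W) hρ (sym_rfl' a W) (mem_cls.1 hW).2 f) ?_
    rw [← Finset.mul_sum]
    exact mul_le_mul_of_nonneg_left (route_sum_UDir G d ρ ha f) (by positivity)
  | succ l ih =>
    rw [GS_succ]
    have step : ∀ W ∈ cls G (2 * R) (d + d + ρ),
        GS G R d ρ l (rfl' a W) (fun N X => if Good G (N - X) then (f N - f X) ^ 2 else 0) /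
          Zc G R (rfl' a W) d ≤
        2 ^ (l + 1 + 1) * Fintype.card E * UDir G R d (wt (rfl' a W)) f := by
      intro W hW
      have hb := ha.rfl' W
      have hWd := (mem_cls.1 hW).2
      have hZ := hb.Zc_nonneg G d
      have hU := route_UDir_nonneg G R d hb.wt_nonneg f
      have h1 : UDir G R d (om G R d ρ (rfl' a W)) f ≤
          2 * Zc G R (rfl' a W) d * UDir G R d (wt (rfl' a W)) f := by
        refine route_UDir_le_mul G R d (by positivity) (fun S hS => ?_) f
        have h2 := Sym.Z_le_two G hb (sym_rfl' a W) hρ hS hWd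
        rw [add_sub_cancel] at h2
        rw [om, ← hWd, ← Sym.Zc_reflect G hb (sym_rfl' a W), mul_comm]
        exact mul_le_mul_of_nonneg_right h2 (hb.wt_nonneg S)
      refine div_le_of_le_mul₀ hZ (by positivity) ((ih hb).trans ?_)
      calc 2 ^ (l + 1) * Fintype.card E * UDir G R d (om G R d ρ (rfl' a W)) f
          ≤ 2 ^ (l + 1) * Fintype.card E *
            (2 * Zc G R (rfl' a W) d * UDir G R d (wt (rfl' a W)) f) :=
            mul_le_mul_of_nonneg_left h1 (by positivity)
        _ = _ := by ring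
    refine le_trans (Finset.sum_le_sum step) ?_
    rw [← Finset.mul_sum]
    exact mul_le_mul_of_nonneg_left (route_sum_UDir G d ρ ha f) (by positivity)

end Crest.Agent.R309
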