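import Crest.Agent.R309.Chain

/-! Row 309: the samples of a stage are close to its stationary law. -/

set_option autoImplicit false

namespace Crest.Agent.R309

open Finset Crest.Agent.Lib.PT

lemma sample_near_mono {α : Type} {L : (α → ℝ) → ℝ} {Ω : Finset α} {π : α → ℝ} {η η' : ℝ}
    (h : Near L Ω π η) (hη : η ≤ η') : Near L Ω π η' := fun φ hφ => (h φ hφ).trans hη

lemma sample_pow_le {s : ℕ} (hs : 100 ≤ s) : (s : ℝ) ^ 63 ≤ 2 ^ (s ^ 2) := by
  have h1 : s ≤ 2 ^ s := Nat.lt_two_pow_self.le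
  have h2 : s ^ 63 ≤ 2 ^ (s ^ 2) := by
    calc s ^ 63 ≤ (2 ^ s) ^ 63 := Nat.pow_le_pow_left h1 63
      _ = 2 ^ (s * 63) := by rw [← pow_mul]
      _ ≤ 2 ^ (s ^ 2) := Nat.pow_le_pow_right (by norm_num) (by nlinarith)
  exact_mod_cast h2

lemma sample_num {s : ℕ} (hs : 100 ≤ s) :
    5 * (s : ℝ) ^ 2 / 2 ^ (s ^ 2) + 256 * (s : ℝ) ^ 2 * (3 / (s : ℝ) ^ 65) ≤ 1 / (s : ℝ) ^ 60 := by
  have h100 : (100 : ℝ) ≤ s := by exact_mod_cast hs
  have hp : (0 : ℝ) < s := by linarith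
  have h1 : 5 * (s : ℝ) ^ 2 / 2 ^ (s ^ 2) ≤ 5 * (s : ℝ) ^ 2 / (s : ℝ) ^ 63 := by
    gcongr
    exact sample_pow_le hs
  have h2 : 5 * (s : ℝ) ^ 2 / (s : ℝ) ^ 63 = (5 / s) * (1 / (s : ℝ) ^ 60) := by field_simp
  have h3 : 256 * (s : ℝ) ^ 2 * (3 / (s : ℝ) ^ 65) = (768 / s ^ 3) * (1 / (s : ℝ) ^ 60) := by
    field_simp
    norm_num
  have h4 : (5 : ℝ) / s ≤ 1 / 2 := by
    rw [div_le_div_iff₀ hp (by norm_num)]
    linarith
  have h5 : (768 : ℝ) / s ^ 3 ≤ 1 / 2 := by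
    rw [div_le_div_iff₀ (by positivity) (by norm_num)]
    have : (100 : ℝ) ^ 3 ≤ (s : ℝ) ^ 3 := by gcongr
    linarith
  have h6 : (0 : ℝ) ≤ 1 / (s : ℝ) ^ 60 := by positivity
  rw [h3]
  rw [h2] at h1
  nlinarith

namespace Inst

variable {I : Inst} {s : ℕ}

/-- The tape is split into the initial part and one block per stage (`Ex_split`,
`Ex_chunks_succ'`, `Ex_foldl`). -/
lemma Sz.Ex_sample_nil (H : I.Sz s) (φ : List ℤ → ℝ) :
    Ex (rI s + 0 * (pT s * r1 s)) (fun ω => φ (I.sample s [] ω)) =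
      Ex (rI s) fun ω => φ (I.init s ω) := by
  simp [sample]

lemma Sz.sample_append (H : I.Sz s) (θs : List Th) (θ : Th) {u v : List Bool}
    (hu : u.length = rI s + θs.length * (pT s * r1 s)) (hv : v.length = pT s * r1 s) :
    I.sample s (θs ++ [θ]) (u ++ v) = I.run s θ (I.sample s θs u) v := by
  have hl : (u.drop (rI s)).length = θs.length * (pT s * r1 s) := by
    rw [List.length_drop, hu]; omega
  have e1 : I.init s (u ++ v) = I.init s u := by
    rw [← H.init_take (u ++ v), ← H.init_take u, List.take_append_of_le_length (by omega)]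
  have e2 : (u ++ v).drop (rI s) = u.drop (rI s) ++ v :=
    List.drop_append_of_le_length (by omega)
  have e3 : chunks (θs.length + 1) (pT s * r1 s) (u.drop (rI s) ++ v) =
      chunks θs.length (pT s * r1 s) (u.drop (rI s)) ++ [v] := by
    rw [chunks_succ', ← chunks_take le_rfl (u.drop (rI s) ++ v), ← hl, List.take_left,
      List.drop_left, ← hv, List.take_length]
  unfold sample
  rw [e1, e2, List.length_append, List.length_singleton, e3,
    List.zip_append (by rw [length_chunks]), List.foldl_append]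
  rfl

lemma Sz.Ex_sample_concat (H : I.Sz s) (θs : List Th) (θ : Th) (φ : List ℤ → ℝ) :
    Ex (rI s + (θs.length + 1) * (pT s * r1 s)) (fun ω => φ (I.sample s (θs ++ [θ]) ω)) =
      Ex (rI s + θs.length * (pT s * r1 s))
        fun ω => (Kop (r1 s) (I.step s θ))^[pT s] φ (I.sample s θs ω) := by
  rw [add_one_mul, ← add_assoc, Ex_append]
  refine Ex_congr fun u hu => ?_
  rw [← Ex_foldl]
  refine Ex_congr fun v hv => ?_
  rw [H.sample_append θs θ hu hv]
  rfl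

lemma Sz.sample_take (H : I.Sz s) (θs : List Th) (ω : List Bool) :
    I.sample s θs (ω.take (rI s + θs.length * (pT s * r1 s))) = I.sample s θs ω := by
  have e1 : I.init s (ω.take (rI s + θs.length * (pT s * r1 s))) = I.init s ω := by
    rw [← H.init_take (ω.take _), ← H.init_take ω, List.take_take,
      min_eq_left (Nat.le_add_right _ _)]
  unfold sample
  rw [e1, List.drop_take, Nat.add_sub_cancel_left, chunks_take le_rfl]

lemma sample_nv_pos : 0 < I.nv := Nat.succ_pos _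

lemma Sz.sample_Zt_pos (H : I.Sz s) (hc : 0 < I.cnt) {M : ℕ} (hM : M ≤ pM0 s) :
    0 < I.Zt s M 0 0 :=
  lt_of_lt_of_le (by exact_mod_cast hc) (H.cnt_le_Zt hM)

/-- The first stage: `near_law` for `init`, `Near.step` with `G` the defect-free states,
`M = 8 s²` (`init_law`, `sum_pit`, `Zt_M0`, `atw_M0`), `η₁ = 0`, and `Sz.mix`. -/
lemma Sz.near_first (H : I.Sz s) (hc : 0 < I.cnt) {θ : Th} (hθ : I.GoodTh s 0 θ) :
    Near (fun φ => Ex (rI s) fun ω => (Kop (r1 s) (I.step s θ))^[pT s] φ (I.init s ω))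
      (I.OmL s θ.1) (I.pit s θ) (1 / (s : ℝ) ^ 60) := by
  have hM : θ.1 = pM0 s := hθ.1
  have h100 : (100 : ℝ) ≤ s := by exact_mod_cast H.big
  have hp : (0 : ℝ) < s := by linarith
  set G := (I.OmL s θ.1).filter (fun S => I.isCls S 0 0 = true) with hG
  have hX : ∀ l : List Bool, l.length = rI s → I.init s l ∈ G := fun l _ => by
    rw [hG, mem_filter, H.mem_OmL hM.le, hM]
    exact H.init_valid l
  obtain ⟨hN, hsum⟩ := near_law (rI s) G (I.init s) hX
  obtain ⟨h1, h2⟩ := H.sum_pit hM.le hθ.2.1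
  have hZ : I.Zt s θ.1 0 0 = I.tot := by rw [hM]; exact H.Zt_M0 sample_nv_pos sample_nv_pos
  have htot : (0 : ℝ) < I.tot := by exact_mod_cast tot_pos
  have hs' : 0 < ∑ S ∈ I.OmL s θ.1, I.pit s θ S := lt_of_lt_of_le (hZ ▸ htot) h1
  have key := hN.step (Ω' := I.OmL s θ.1) (G := G) (π' := I.pit s θ) (η₁ := 0)
    (M := 8 * (s : ℝ) ^ 2) (v := 3 / (s : ℝ) ^ 65) (fun x _ => Pr_nonneg _ _)
    (by rw [hsum]; exact one_pos) (fun x _ => (pit_pos θ x).le) hs' subset_rfl (filter_subset _ _)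
    (by positivity) ?_ (by simp) (fun φ => (Kop (r1 s) (I.step s θ))^[pT s] φ)
    (fun φ hφ => Kop_iterate_unit01 _ _ hφ _) (by positivity) (fun φ hφ => H.mix hc hθ hφ)
  · refine sample_near_mono key ?_
    have := sample_num H.big
    have a1 : (0 : ℝ) ≤ 5 * (s : ℝ) ^ 2 / 2 ^ (s ^ 2) := by positivity
    have a2 : (0 : ℝ) ≤ (s : ℝ) ^ 2 * (3 / (s : ℝ) ^ 65) := by positivity
    nlinarith
  · intro x hx
    rw [hG, mem_filter, H.mem_OmL hM.le] at hx
    have e : I.pit s θ x = 1 := by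
      rw [pit_eq, uu_of_isCls_zero hx.2, hM, H.atw_M0 (hM ▸ hx.1)]
      simp
    rw [hsum, div_one, e]
    refine (H.init_law x).trans ?_
    rw [hZ] at h2
    rw [mul_one_div, div_le_div_iff₀ htot hs']
    linarith

lemma sample_atw_le {M M' : ℕ} {S : List ℤ} (h : I.hh s M' S ≤ I.hh s M S + 1) :
    I.atw s M S ≤ 2 * I.atw s M' S := by
  unfold atw
  rw [mul_one_div, div_le_div_iff₀ (by positivity) (by positivity), one_mul, ← pow_succ']
  exact pow_le_pow_right₀ (by norm_num) h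

lemma sample_cls {M : ℕ} {S : List ℤ} (h : I.valid M S = true) :
    I.isCls S 0 0 = true ∨ ∃ i < I.nv, ∃ j < I.nv, i ≠ j ∧ I.isCls S i j = true := by
  unfold valid at h
  simp only [Bool.and_eq_true, decide_eq_true_eq] at h
  obtain ⟨i, hi, j, hj, hij⟩ := h.2
  by_cases e : i = j
  · subst e
    left
    rwa [isCls_self] at hij
  · exact Or.inr ⟨i, hi, j, hj, e, hij⟩

open Classical in
lemma Sz.sample_bad (H : I.Sz s) (hc : 0 < I.cnt) {θ : Th} (hM0 : 0 < θ.1) (hM : θ.1 ≤ pM0 s)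
    (hu : I.GoodU s θ.1 θ.2.1) :
    ∑ S ∈ I.OmL s θ.1 \ (I.OmL s θ.1).filter (I.Typ s θ.1), I.pit s θ S ≤
      5 * (s : ℝ) ^ 2 / 2 ^ (s ^ 2) * ∑ S ∈ I.OmL s θ.1, I.pit s θ S := by
  have h100 : (100 : ℝ) ≤ s := by exact_mod_cast H.big
  have hZ := H.sample_Zt_pos hc hM
  rw [← filter_not, sum_filter]
  refine (H.sum_OmL_le hM (F := fun S => if ¬ I.Typ s θ.1 S then I.pit s θ S else 0)
    (fun S => by split_ifs; exacts [le_rfl, (pit_pos θ S).le])).trans ?_
  set c : ℝ := 1 / 2 ^ (s ^ 2) with hcdef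
  have hc0 : 0 < c := by positivity
  have a0 : ∑ S ∈ (I.OmL s θ.1).filter (fun S => I.isCls S 0 0 = true),
      (if ¬ I.Typ s θ.1 S then I.pit s θ S else 0) ≤ c * I.Zt s θ.1 0 0 := by
    refine le_trans (le_of_eq ?_) (H.atyp_mass hc hM0 hM sample_nv_pos sample_nv_pos)
    rw [← sum_filter, filter_filter]
    refine sum_congr rfl fun S hS => ?_
    rw [pit_eq, uu_of_isCls_zero (mem_filter.1 hS).2.1]
    simp
  have a1 : ∀ i ∈ range I.nv, ∀ j ∈ range I.nv,
      (if i ≠ j then ∑ S ∈ (I.OmL s θ.1).filter (fun S => I.isCls S i j = true),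
        (if ¬ I.Typ s θ.1 S then I.pit s θ S else 0) else 0) ≤ 4 * (c * I.Zt s θ.1 0 0) := by
    intro i hi j hj
    rw [mem_range] at hi hj
    split_ifs with hij
    · have b1 := H.atyp_mass hc hM0 hM hi hj
      have b2 := (hu i hi j hj hij).2
      have b3 : ∑ S ∈ (I.OmL s θ.1).filter (fun S => I.isCls S i j = true),
          (if ¬ I.Typ s θ.1 S then I.pit s θ S else 0) = (2 : ℝ) ^ (θ.2.1.getD i []).getD j 0 *
            ∑ S ∈ (I.OmL s θ.1).filter (fun S => I.isCls S i j = true ∧ ¬ I.Typ s θ.1 S),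
              I.atw s θ.1 S := by
        rw [← sum_filter, filter_filter, mul_sum]
        refine sum_congr rfl fun S hS => ?_
        rw [pit_eq, uu_of_isCls hi hj hij (mem_filter.1 hS).2.1]
      rw [b3]
      have b4 : (0 : ℝ) < (2 : ℝ) ^ (θ.2.1.getD i []).getD j 0 := by positivity
      calc _ ≤ (2 : ℝ) ^ (θ.2.1.getD i []).getD j 0 * (c * I.Zt s θ.1 i j) := by gcongr
        _ = c * ((2 : ℝ) ^ (θ.2.1.getD i []).getD j 0 * I.Zt s θ.1 i j) := by ring
        _ ≤ c * (4 * I.Zt s θ.1 0 0) := by gcongr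
        _ = _ := by ring
    · positivity
  have a2 := sum_le_sum fun i hi => sum_le_sum (a1 i hi)
  simp only [sum_const, card_range, nsmul_eq_mul] at a2
  have hnv : (I.nv : ℝ) ≤ s := by exact_mod_cast H.nv_le
  have a3 : (I.nv : ℝ) * (I.nv * (4 * (c * I.Zt s θ.1 0 0))) ≤
      s * (s * (4 * (c * I.Zt s θ.1 0 0))) := by gcongr
  have a4 := (H.sum_pit hM hu).1
  have a5 : 0 < c * I.Zt s θ.1 0 0 := by positivity
  calc _ ≤ c * I.Zt s θ.1 0 0 + s * (s * (4 * (c * I.Zt s θ.1 0 0))) :=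
        add_le_add a0 (a2.trans a3)
    _ = (1 + 4 * (s : ℝ) ^ 2) * (c * I.Zt s θ.1 0 0) := by ring
    _ ≤ (5 * (s : ℝ) ^ 2) * (c * ∑ S ∈ I.OmL s θ.1, I.pit s θ S) := by
        gcongr
        nlinarith
    _ = _ := by rw [hcdef]; ring

lemma Sz.sample_warm (H : I.Sz s) (hc : 0 < I.cnt) {θ θ' : Th} (hM : θ.1 ≤ pM0 s)
    (hM' : θ'.1 ≤ θ.1) (hu : I.GoodU s θ.1 θ.2.1) (hu' : I.GoodU s θ'.1 θ'.2.1) {S : List ℤ}
    (hS : I.valid θ.1 S = true) (hh : I.hh s θ'.1 S ≤ I.hh s θ.1 S + 1) :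
    I.pit s θ S / ∑ y ∈ I.OmL s θ.1, I.pit s θ y ≤
      256 * (s : ℝ) ^ 2 * (I.pit s θ' S / ∑ y ∈ I.OmL s θ'.1, I.pit s θ' y) := by
  have hZ := H.sample_Zt_pos hc hM
  have hZ' := H.sample_Zt_pos hc (hM'.trans hM)
  obtain ⟨h1, -⟩ := H.sum_pit hM hu
  obtain ⟨h2, h3⟩ := H.sum_pit (hM'.trans hM) hu'
  have ha := sample_atw_le (I := I) (s := s) hh
  have hap := atw_pos (I := I) (s := s) θ.1 S
  have hap' := atw_pos (I := I) (s := s) θ'.1 S
  have hp := pit_pos (I := I) (s := s) θ S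
  have hp' := pit_pos (I := I) (s := s) θ' S
  have key : I.pit s θ S * I.Zt s θ'.1 0 0 ≤ 64 * (I.pit s θ' S * I.Zt s θ.1 0 0) := by
    rcases sample_cls hS with h0 | ⟨i, hi, j, hj, hij, h0⟩
    · rw [pit_eq, pit_eq, uu_of_isCls_zero h0, uu_of_isCls_zero h0, zpow_zero, one_mul, one_mul]
      have := H.Zt_mono hM hM' 0 0
      calc _ ≤ (2 * I.atw s θ'.1 S) * I.Zt s θ.1 0 0 := by gcongr
        _ ≤ _ := by nlinarith [mul_pos hap' hZ]
    · rw [pit_eq, pit_eq, uu_of_isCls hi hj hij h0, uu_of_isCls hi hj hij h0]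
      have b1 := (hu i hi j hj hij).2
      have b2 := (hu' i hi j hj hij).1
      have b3 := H.Zt_mono hM hM' i j
      have b4 := Zt_nonneg (I := I) (s := s) θ'.1 i j
      set a : ℝ := (2 : ℝ) ^ (θ.2.1.getD i []).getD j 0
      set a' : ℝ := (2 : ℝ) ^ (θ'.2.1.getD i []).getD j 0
      have ha0 : 0 < a := by positivity
      have ha0' : 0 < a' := by positivity
      calc a * I.atw s θ.1 S * I.Zt s θ'.1 0 0
          ≤ a * (2 * I.atw s θ'.1 S) * (4 * (a' * I.Zt s θ.1 i j)) := by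
            gcongr
            exact b2.trans (by gcongr)
        _ = 8 * (a' * I.atw s θ'.1 S) * (a * I.Zt s θ.1 i j) := by ring
        _ ≤ 8 * (a' * I.atw s θ'.1 S) * (4 * I.Zt s θ.1 0 0) := by gcongr
        _ ≤ _ := by nlinarith [mul_pos (mul_pos ha0' hap') hZ]
  have hs1 : 0 < ∑ y ∈ I.OmL s θ.1, I.pit s θ y := hZ.trans_le h1
  have hs2 : 0 < ∑ y ∈ I.OmL s θ'.1, I.pit s θ' y := hZ'.trans_le h2
  rw [← mul_div_assoc, div_le_div_iff₀ hs1 hs2]
  calc _ ≤ I.pit s θ S * (4 * (s : ℝ) ^ 2 * I.Zt s θ'.1 0 0) := by gcongr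
    _ = 4 * (s : ℝ) ^ 2 * (I.pit s θ S * I.Zt s θ'.1 0 0) := by ring
    _ ≤ 4 * (s : ℝ) ^ 2 * (64 * (I.pit s θ' S * ∑ y ∈ I.OmL s θ.1, I.pit s θ y)) := by
        refine mul_le_mul_of_nonneg_left (key.trans ?_) (by positivity)
        gcongr
    _ = _ := by ring

/-- `Near.step` with `G` the typical states (`typ_next`), `M = 256 s²`, `η₁ = 4 s² / 2 ^ (s²)`
(`atyp_mass`, `sum_OmL_le`, `GoodU`, `sum_pit`, `Zt_mono`), and `Sz.mix`. -/
lemma Sz.near_next (H : I.Sz s) (hc : 0 < I.cnt) {t : ℕ} {θ θ' : Th} (hθ : I.GoodTh s t θ)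
    (hθ' : I.GoodTh s (t + 1) θ') {L : (List ℤ → ℝ) → ℝ} {η : ℝ}
    (hL : Near L (I.OmL s θ.1) (I.pit s θ) η) :
    Near (fun φ => L ((Kop (r1 s) (I.step s θ'))^[pT s] φ)) (I.OmL s θ'.1) (I.pit s θ')
      (η + 1 / (s : ℝ) ^ 60) := by
  classical
  have hM : θ.1 ≤ pM0 s := hθ.1 ▸ Mt_le s t
  have hM1 : pP s - 1 ≤ θ.1 := hθ.1 ▸ le_Mt H.big t
  have hM0 : 0 < θ.1 := by
    refine lt_of_lt_of_le ?_ hM1
    have := H.big
    have h2 : 1 ≤ s ^ 2 := Nat.one_le_pow _ _ (by omega)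
    unfold pP
    omega
  have hc' : θ'.1 = cool s θ.1 := by rw [hθ'.1, hθ.1, Mt_succ]
  have hM' : θ'.1 ≤ θ.1 := hc' ▸ cool_le s θ.1
  have hs1 : 0 < ∑ y ∈ I.OmL s θ.1, I.pit s θ y :=
    (H.sample_Zt_pos hc hM).trans_le (H.sum_pit hM hθ.2.1).1
  have hs2 : 0 < ∑ y ∈ I.OmL s θ'.1, I.pit s θ' y :=
    (H.sample_Zt_pos hc (hM'.trans hM)).trans_le (H.sum_pit (hM'.trans hM) hθ'.2.1).1
  have key := hL.step (Ω' := I.OmL s θ'.1) (G := (I.OmL s θ.1).filter (I.Typ s θ.1))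
    (π' := I.pit s θ') (η₁ := 5 * (s : ℝ) ^ 2 / 2 ^ (s ^ 2))
    (M := 256 * (s : ℝ) ^ 2) (v := 3 / (s : ℝ) ^ 65) (fun x _ => (pit_pos θ x).le) hs1
    (fun x _ => (pit_pos θ' x).le) hs2 (filter_subset _ _) ?_
    (by positivity) ?_ ?_ (fun φ => (Kop (r1 s) (I.step s θ'))^[pT s] φ)
    (fun φ hφ => Kop_iterate_unit01 _ _ hφ _) (by positivity) (fun φ hφ => H.mix hc hθ' hφ)
  · refine sample_near_mono key ?_
    have := sample_num H.big
    linarith
  · intro x hx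
    rw [mem_filter, H.mem_OmL hM] at hx
    rw [H.mem_OmL (hM'.trans hM), hc']
    exact (H.typ_next hM1 hx.1 hx.2).1
  · intro x hx
    rw [mem_filter, H.mem_OmL hM] at hx
    exact H.sample_warm hc hM hM' hθ.2.1 hθ'.2.1 hx.1 (hc' ▸ (H.typ_next hM1 hx.1 hx.2).2)
  · convert H.sample_bad hc hM0 hM hθ.2.1

lemma Sz.sample_near_aux (H : I.Sz s) (hc : 0 < I.cnt) (θs : List Th) :
    ∀ θ : Th, I.GoodThs s (θs ++ [θ]) →
    Near (fun φ => Ex (rI s + (θs.length + 1) * (pT s * r1 s))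
        fun ω => φ (I.sample s (θs ++ [θ]) ω))
      (I.OmL s θ.1) (I.pit s θ) ((θs.length + 1 : ℕ) * (1 / (s : ℝ) ^ 60)) := by
  induction θs using List.reverseRecOn with
  | nil =>
    intro θ hθ
    have h0 : I.GoodTh s 0 θ := hθ 0 (by simp)
    have := H.near_first hc h0
    intro φ hφ
    have e := H.Ex_sample_concat [] θ φ
    simp only [List.length_nil] at e ⊢
    rw [e, H.Ex_sample_nil]
    simpa using this φ hφ
  | append_singleton θs θ0 ih =>
    intro θ hθ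
    have hg : I.GoodThs s (θs ++ [θ0]) := by
      intro t ht
      have := hθ t (by simp at ht ⊢; omega)
      rwa [List.getElem_append_left ht] at this
    have h0 : I.GoodTh s θs.length θ0 := by
      have := hg θs.length (by simp)
      simpa using this
    have h1 : I.GoodTh s (θs.length + 1) θ := by
      have := hθ (θs ++ [θ0]).length (by simp)
      rw [List.getElem_concat_length rfl] at this
      simpa using this
    have := H.near_next hc h0 h1 (ih θ0 hg)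
    intro φ hφ
    have e := H.Ex_sample_concat (θs ++ [θ0]) θ φ
    have h2 := this φ hφ
    simp only [List.length_append, List.length_singleton] at e h2 ⊢
    rw [e]
    refine h2.trans (le_of_eq ?_)
    push_cast
    ring

/-- Induction on `θs` from the right, then `Ex_of_prefix`; `(s ^ 8 + 1) / s ^ 60 ≤ 2 / s ^ 52`. -/
theorem Sz.near_sample (H : I.Sz s) (hc : 0 < I.cnt) {θs : List Th} (hθ : I.GoodThs s θs)
    (h0 : θs ≠ []) (hl : θs.length ≤ pTa s + 1) :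
    Near (fun φ => Ex (rS s) fun ω => φ (I.sample s θs ω))
      (I.OmL s (θs.getLastD (0, [], [])).1) (I.pit s (θs.getLastD (0, [], [])))
      (2 / (s : ℝ) ^ 52) := by
  obtain ⟨θs, θ, rfl⟩ : ∃ l a, θs = l ++ [a] :=
    ⟨θs.dropLast, θs.getLast h0, (List.dropLast_append_getLast h0).symm⟩
  have hlen : (θs ++ [θ]).length = θs.length + 1 := by simp
  have hN := H.sample_near_aux hc θs θ hθ
  rw [List.getLastD_concat]
  intro φ hφ
  have e : Ex (rS s) (fun ω => φ (I.sample s (θs ++ [θ]) ω)) =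
      Ex (rI s + (θs.length + 1) * (pT s * r1 s)) fun ω => φ (I.sample s (θs ++ [θ]) ω) := by
    refine Ex_of_prefix ?_ fun l => ?_
    · unfold rS
      rw [hlen] at hl
      gcongr
    · rw [← hlen, H.sample_take]
  have h2 := hN φ hφ
  simp only at h2 ⊢
  rw [e]
  refine h2.trans ?_
  have h100 : (100 : ℝ) ≤ s := by exact_mod_cast H.big
  have hp : (0 : ℝ) < s := by linarith
  have h3 : ((θs.length + 1 : ℕ) : ℝ) ≤ 2 * (s : ℝ) ^ 8 := by
    rw [hlen] at hl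
    have h4 : ((θs.length + 1 : ℕ) : ℝ) ≤ (s : ℝ) ^ 8 + 1 := by
      unfold pTa at hl
      exact_mod_cast hl
    have h5 : (1 : ℝ) ≤ (s : ℝ) ^ 8 := one_le_pow₀ (by linarith)
    linarith
  calc _ ≤ (2 * (s : ℝ) ^ 8) * (1 / (s : ℝ) ^ 60) := by gcongr
    _ = _ := by field_simp

end Inst

end Crest.Agent.R309
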