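import Crest.Agent.R309.Bridge

/-! Row 309: the class weights along the cooling schedule. -/

set_option autoImplicit false

namespace Crest.Agent.R309

open Finset Crest.Agent.Lib.PT

lemma cool_le (s M : ℕ) : cool s M ≤ M := Nat.sub_le _ _

lemma Mt_succ (s t : ℕ) : Mt s (t + 1) = cool s (Mt s t) :=
  Function.iterate_succ_apply' _ _ _

lemma Mt_le (s t : ℕ) : Mt s t ≤ pM0 s := by
  induction t with
  | zero => exact le_rfl
  | succ t ih => rw [Mt_succ]; exact (cool_le _ _).trans ih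

lemma stage_pP_ge {s : ℕ} (hs : 100 ≤ s) : 200000 ≤ pP s := by
  unfold pP
  nlinarith

lemma stage_pJ_eq (s : ℕ) : pJ s = 2 * s ^ 2 * pP s := by
  unfold pJ pP
  ring

lemma stage_le_cool {s M : ℕ} (hs : 100 ≤ s) (hM : pP s - 1 ≤ M) : pP s - 1 ≤ cool s M := by
  have hP := stage_pP_ge hs
  unfold cool
  have h1 := Nat.div_mul_le_self M (pP s)
  rcases Nat.eq_zero_or_pos (M / pP s) with h | h
  · omega
  · obtain ⟨P, hP'⟩ : ∃ P, pP s = P + 1 := ⟨pP s - 1, by omega⟩
    rw [hP'] at h1 h ⊢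
    have h2 : P ≤ M / (P + 1) * P := Nat.le_mul_of_pos_left _ h
    rw [mul_add] at h1
    omega

lemma le_Mt {s : ℕ} (hs : 100 ≤ s) (t : ℕ) : pP s - 1 ≤ Mt s t := by
  induction t with
  | zero =>
    change pP s - 1 ≤ pM0 s
    rw [pM0, stage_pJ_eq, mul_comm (2 * s ^ 2), mul_assoc]
    exact (Nat.sub_le _ _).trans (Nat.le_mul_of_pos_right _ (by positivity))
  | succ t ih => rw [Mt_succ]; exact stage_le_cool hs ih

/-- While `M ≥ P`, `M / P ≥ M / (2 P)` (real quotient), so `2 P` steps halve `M`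
(`(1 - 1 / (2P)) ^ (2P) ≤ 1 / 2`); `pM0 ≤ 2 ^ (3 s + J)` and `2 P (3 s + J) ≤ s ^ 8`. -/
lemma Mt_pTa_lt {s : ℕ} (hs : 100 ≤ s) : Mt s (pTa s) < pP s := by
  have hP := stage_pP_ge hs
  have hP' : (200000 : ℝ) ≤ pP s := by exact_mod_cast hP
  set x : ℝ := 1 / (2 * pP s) with hx
  have hx0 : 0 < x := by positivity
  have hx1 : x ≤ 1 := by
    rw [hx, div_le_one (by positivity)]
    linarith
  have key : ∀ t, Mt s t < pP s ∨ (Mt s t : ℝ) ≤ pM0 s * (1 - x) ^ t := by
    intro t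
    induction t with
    | zero => right; simp [Mt]
    | succ t ih =>
      rw [Mt_succ]
      rcases lt_or_ge (Mt s t) (pP s) with h | h
      · exact Or.inl ((cool_le _ _).trans_lt h)
      · right
        have ih' := ih.resolve_left (by omega)
        have h1 : 0 < Mt s t / pP s := Nat.div_pos h (by omega)
        have h2 : Mt s t ≤ 2 * pP s * (Mt s t / pP s) := by
          have h3 := Nat.lt_mul_div_succ (Mt s t) (show 0 < pP s by omega)
          nlinarith
        have h3 : (Mt s t : ℝ) ≤ 2 * pP s * ((Mt s t / pP s : ℕ) : ℝ) := by exact_mod_cast h2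
        have h4 : (Mt s t : ℝ) * x ≤ ((Mt s t / pP s : ℕ) : ℝ) := by
          rw [hx, mul_one_div, div_le_iff₀ (by positivity)]
          linarith
        rw [cool, Nat.cast_sub (Nat.div_le_self _ _), pow_succ, ← mul_assoc]
        calc (Mt s t : ℝ) - ((Mt s t / pP s : ℕ) : ℝ) ≤ Mt s t * (1 - x) := by linarith
          _ ≤ _ := mul_le_mul_of_nonneg_right ih' (by linarith)
  refine (key (pTa s)).elim id fun h => ?_
  have h1 : (1 - x) ^ (2 * pP s) ≤ 1 / 2 := by
    have h2 : (1 - x) ^ (2 * pP s) * (1 + x) ^ (2 * pP s) ≤ 1 := by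
      rw [← mul_pow]
      exact pow_le_one₀ (mul_nonneg (by linarith) (by linarith)) (by nlinarith)
    have h3 : 1 + ((2 * pP s : ℕ) : ℝ) * x ≤ (1 + x) ^ (2 * pP s) :=
      one_add_mul_le_pow (by linarith) _
    have h4 : ((2 * pP s : ℕ) : ℝ) * x = 1 := by
      rw [hx]; push_cast; field_simp
    have h5 : 0 ≤ (1 - x) ^ (2 * pP s) := pow_nonneg (by linarith) _
    rw [h4] at h3
    nlinarith
  have h2 : (1 - x) ^ pTa s ≤ (1 / 2) ^ (s ^ 5) := by
    have h3 : 2 * pP s * s ^ 5 ≤ pTa s := by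
      unfold pP pTa
      calc 2 * (20 * s ^ 2) * s ^ 5 = 40 * s ^ 7 := by ring
        _ ≤ s * s ^ 7 := Nat.mul_le_mul_right _ (by omega)
        _ = s ^ 8 := by ring
    calc (1 - x) ^ pTa s ≤ (1 - x) ^ (2 * pP s * s ^ 5) :=
          pow_le_pow_of_le_one (by linarith) (by linarith) h3
      _ = ((1 - x) ^ (2 * pP s)) ^ (s ^ 5) := pow_mul _ _ _
      _ ≤ _ := pow_le_pow_left₀ (pow_nonneg (by linarith) _) h1 _
  have h3 : pM0 s ≤ 2 ^ (s ^ 5) := by
    have h4 : pJ s + 3 * s ≤ s ^ 5 := by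
      have h5 : s ≤ s ^ 4 := Nat.le_self_pow (by norm_num) s
      have h6 : 100 * s ^ 4 ≤ s ^ 5 := by
        rw [show s ^ 5 = s * s ^ 4 by ring]
        exact Nat.mul_le_mul_right _ hs
      unfold pJ
      omega
    calc pM0 s ≤ 2 ^ pJ s * 2 ^ (3 * s) := Nat.mul_le_mul_right _ Nat.lt_two_pow_self.le
      _ = 2 ^ (pJ s + 3 * s) := (pow_add _ _ _).symm
      _ ≤ _ := Nat.pow_le_pow_right (by norm_num) h4
  have h4 : (pM0 s : ℝ) ≤ 2 ^ (s ^ 5) := by exact_mod_cast h3
  have h5 : (Mt s (pTa s) : ℝ) ≤ 1 := by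
    calc (Mt s (pTa s) : ℝ) ≤ pM0 s * (1 - x) ^ pTa s := h
      _ ≤ 2 ^ (s ^ 5) * (1 / 2) ^ (s ^ 5) :=
          mul_le_mul h4 h2 (pow_nonneg (by linarith) _) (by positivity)
      _ = 1 := by rw [← mul_pow]; norm_num
  have h6 : Mt s (pTa s) ≤ 1 := by exact_mod_cast h5
  omega

namespace Inst

variable {I : Inst} {s : ℕ}

lemma Sz.stage_q_le (H : I.Sz s) : I.q ≤ s := (Nat.le_add_right _ _).trans H.ne_le

lemma Sz.stage_p_le (H : I.Sz s) : I.p ≤ s := (Nat.le_add_left _ _).trans H.ne_le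

lemma Sz.tot_le (H : I.Sz s) : I.tot ≤ 2 ^ (s ^ 2) := by
  calc I.tot ≤ (2 ^ s) ^ (range I.q).card :=
        Finset.prod_le_pow_card _ _ _ fun e he => H.cap_lt e (mem_range.1 he)
    _ = 2 ^ (s * I.q) := by rw [card_range, ← pow_mul]
    _ ≤ _ := Nat.pow_le_pow_right (by norm_num) (by rw [sq]; exact Nat.mul_le_mul_left _ H.stage_q_le)

lemma tot_pos : 0 < I.tot := Finset.prod_pos fun _ _ => Nat.succ_pos _

lemma stage_valid_iff {M : ℕ} {S : List ℤ} : I.valid M S = true ↔ S.length = I.ne ∧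
    (∀ e < I.ne, I.LO M e ≤ S.getD e 0 ∧ S.getD e 0 ≤ I.HI M e) ∧
    ∃ i < I.nv, ∃ j < I.nv, I.isCls S i j = true := by
  simp only [valid, Bool.and_eq_true, decide_eq_true_eq, and_assoc]

lemma stage_valid_iff' {M : ℕ} {S : List ℤ} : I.valid M S = true ↔ S.length = I.ne ∧
    (∀ e < I.q, 0 ≤ S.getD e 0 ∧ S.getD e 0 ≤ I.cap e) ∧
    (∀ v < I.p, (S.getD (I.q + v) 0).natAbs ≤ M) ∧
    ∃ i < I.nv, ∃ j < I.nv, I.isCls S i j = true := by
  rw [stage_valid_iff]
  refine and_congr_right fun _ => ?_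
  rw [← and_assoc]
  refine and_congr_left fun _ => ⟨fun h => ⟨fun e he => ?_, fun v hv => ?_⟩, fun h e he => ?_⟩
  · have := h e (by unfold ne; omega)
    rwa [LO, HI, if_pos he, if_pos he] at this
  · have := h (I.q + v) (by unfold ne; omega)
    rw [LO, HI, if_neg (by omega), if_neg (by omega)] at this
    omega
  · unfold LO HI
    split_ifs with h1
    · exact h.1 e h1
    · have := h.2 (e - I.q) (by unfold ne at he; omega)
      rw [Nat.add_sub_cancel' (by omega)] at this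
      omega

/-- the defect of the class `(i, j)` -/
def stageDel (i j v : ℕ) : ℤ := (if i = v then 1 else 0) - (if j = v then 1 else 0)

lemma stage_isCls_iff {S : List ℤ} {i j : ℕ} :
    I.isCls S i j = true ↔ ∀ v < I.nv, I.dfc S v = stageDel i j v := by
  simp only [isCls, decide_eq_true_eq, stageDel]

lemma stage_dfc_lt (S : List ℤ) {v : ℕ} (hv : v < I.p) :
    I.dfc S v = ∑ e ∈ range I.q, I.inc v e * S.getD e 0 + S.getD (I.q + v) 0 - I.DD v := by
  rw [dfc, ne, Finset.sum_range_add, Finset.sum_eq_single (s := range I.p) v]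
  · have : I.inc v (I.q + v) = 1 := by
      simp [inc, TL, HD, hv.ne']
    rw [this, one_mul]
  · intro w _ hw
    have : I.inc v (I.q + w) = 0 := by
      simp [inc, TL, HD, hv.ne', hw]
    rw [this, zero_mul]
  · intro h
    exact absurd (mem_range.2 hv) h

lemma stage_sum_getD (l : List ℤ) : ∑ v ∈ range l.length, l.getD v 0 = l.sum := by
  induction l with
  | nil => simp
  | cons a l ih => rw [List.length_cons, Finset.sum_range_succ', List.sum_cons, ← ih, add_comm]; simp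

lemma Sz.stage_sum_dfc (H : I.Sz s) (S : List ℤ) : ∑ v ∈ range I.nv, I.dfc S v = 0 := by
  have h1 : ∑ v ∈ range I.nv, I.DD v = 0 := by
    rw [nv, Finset.sum_range_succ, DD, if_neg (lt_irrefl _), ← stage_sum_getD,
      Finset.sum_congr rfl (g := fun v => I.2.2.2.getD v 0) fun v hv => by
        rw [DD, if_pos (mem_range.1 hv)]]
    exact add_neg_cancel _
  simp only [dfc, Finset.sum_sub_distrib, h1, sub_zero]
  rw [Finset.sum_comm]
  refine Finset.sum_eq_zero fun e he => ?_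
  have h2 : I.TL e ∈ range I.nv := mem_range.2 ((H.TL_lt (mem_range.1 he)).trans (Nat.lt_succ_self _))
  have h3 : I.HD e ∈ range I.nv := mem_range.2 (H.HD_lt (mem_range.1 he))
  rw [← Finset.sum_mul]
  simp [inc, Finset.sum_sub_distrib, h2, h3]

lemma Sz.stage_isCls (H : I.Sz s) {S : List ℤ} {i j : ℕ} (hi : i < I.nv) (hj : j < I.nv)
    (h : ∀ v < I.p, I.dfc S v = stageDel i j v) : I.isCls S i j = true := by
  rw [stage_isCls_iff]
  intro v hv
  rcases Nat.lt_succ_iff_lt_or_eq.1 hv with hv | rfl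
  · exact h v hv
  · have h1 := H.stage_sum_dfc S
    have h2 : ∑ v ∈ range I.nv, stageDel i j v = 0 := by
      simp [stageDel, Finset.sum_sub_distrib, hi, hj]
    rw [nv, Finset.sum_range_succ] at h1 h2
    rw [Finset.sum_congr rfl fun v hv => h v (mem_range.1 hv)] at h1
    linarith

/-- the value on a hub edge is determined by the class and the original edges -/
lemma stage_hub_eq {S : List ℤ} {i j : ℕ} (h : I.isCls S i j = true) {v : ℕ} (hv : v < I.p) :
    S.getD (I.q + v) 0 = I.DD v + stageDel i j v - ∑ e ∈ range I.q, I.inc v e * S.getD e 0 := by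
  have := stage_isCls_iff.1 h v (hv.trans (Nat.lt_succ_self _))
  rw [stage_dfc_lt S hv] at this
  linarith

variable (I) in
/-- assignments to the original edges -/
noncomputable def stageBox : Finset (Fin I.q → ℤ) :=
  Fintype.piFinset fun e : Fin I.q => Icc (0 : ℤ) (I.cap e)

lemma card_stageBox : I.stageBox.card = I.tot := by
  rw [stageBox, Fintype.card_piFinset, tot, Finset.prod_range]
  simp

variable (I) in
/-- restriction to the original edges -/
def stageRes (S : List ℤ) : Fin I.q → ℤ := fun e => S.getD e 0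

variable (I) in
/-- extension to the hub edges -/
def stageExt (x : Fin I.q → ℤ) (i j : ℕ) : List ℤ :=
  (List.range I.ne).map fun e => if h : e < I.q then x ⟨e, h⟩ else
    I.DD (e - I.q) + stageDel i j (e - I.q) - ∑ e' : Fin I.q, I.inc (e - I.q) e' * x e'

lemma stageExt_length (x : Fin I.q → ℤ) (i j : ℕ) : (I.stageExt x i j).length = I.ne := by
  simp [stageExt]

lemma stageExt_lt (x : Fin I.q → ℤ) (i j : ℕ) (e : Fin I.q) :
    (I.stageExt x i j).getD e 0 = x e := by
  have : (e : ℕ) < I.ne := e.2.trans_le (Nat.le_add_right _ _)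
  simp [stageExt, List.getD_eq_getElem?_getD, this]

lemma stageExt_hub (x : Fin I.q → ℤ) (i j : ℕ) {v : ℕ} (hv : v < I.p) :
    (I.stageExt x i j).getD (I.q + v) 0 =
      I.DD v + stageDel i j v - ∑ e' : Fin I.q, I.inc v e' * x e' := by
  have : I.q + v < I.ne := Nat.add_lt_add_left hv _
  simp [stageExt, List.getD_eq_getElem?_getD, this]

lemma stageRes_ext (x : Fin I.q → ℤ) (i j : ℕ) : I.stageRes (I.stageExt x i j) = x :=
  funext fun e => stageExt_lt x i j e

lemma Sz.stageExt_isCls (H : I.Sz s) (x : Fin I.q → ℤ) {i j : ℕ} (hi : i < I.nv) (hj : j < I.nv) :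
    I.isCls (I.stageExt x i j) i j = true := by
  refine H.stage_isCls hi hj fun v hv => ?_
  rw [stage_dfc_lt _ hv, stageExt_hub _ _ _ hv, Finset.sum_range]
  simp only [stageExt_lt]
  ring

lemma Sz.stageExt_valid (H : I.Sz s) {x : Fin I.q → ℤ} (hx : x ∈ I.stageBox) {i j : ℕ}
    (hi : i < I.nv) (hj : j < I.nv) {M : ℕ}
    (hM : ∀ v < I.p, ((I.stageExt x i j).getD (I.q + v) 0).natAbs ≤ M) :
    I.valid M (I.stageExt x i j) = true := by
  rw [stage_valid_iff']
  refine ⟨stageExt_length _ _ _, fun e he => ?_, hM, i, hi, j, hj, H.stageExt_isCls x hi hj⟩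
  have := stageExt_lt x i j ⟨e, he⟩
  simp only at this
  rw [this]
  exact mem_Icc.1 (Fintype.mem_piFinset.1 hx ⟨e, he⟩)

lemma stageRes_mem {M : ℕ} {S : List ℤ} (h : I.valid M S = true) : I.stageRes S ∈ I.stageBox :=
  Fintype.mem_piFinset.2 fun e => mem_Icc.2 ((stage_valid_iff'.1 h).2.1 e e.2)

lemma stageRes_inj {S S' : List ℤ} {i j : ℕ} (hl : S.length = I.ne) (hl' : S'.length = I.ne)
    (h : I.isCls S i j = true) (h' : I.isCls S' i j = true) (he : I.stageRes S = I.stageRes S') :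
    S = S' := by
  have h1 : ∀ e < I.q, S.getD e 0 = S'.getD e 0 := fun e hq => congrFun he ⟨e, hq⟩
  rw [← ofFn_vec hl, ← ofFn_vec hl']
  congr 1
  funext e
  change S.getD e 0 = S'.getD e 0
  by_cases hq : (e : ℕ) < I.q
  · exact h1 e hq
  · have h2 : (e : ℕ) - I.q < I.p := by
      have := e.2
      unfold ne at this
      omega
    have h3 := stage_hub_eq h h2
    have h4 := stage_hub_eq h' h2
    rw [Nat.add_sub_cancel' (by omega)] at h3 h4
    rw [h3, h4, Finset.sum_congr rfl fun e' he' => by rw [h1 e' (mem_range.1 he')]]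

lemma Sz.stageRes_injOn (H : I.Sz s) {M : ℕ} (hM : M ≤ pM0 s) (i j : ℕ) :
    Set.InjOn I.stageRes ((I.OmL s M).filter fun S => I.isCls S i j = true) := by
  intro S hS S' hS' h
  rw [Finset.mem_coe, Finset.mem_filter, H.mem_OmL hM] at hS hS'
  exact stageRes_inj (stage_valid_iff.1 hS.1).1 (stage_valid_iff.1 hS'.1).1 hS.2 hS'.2 h

/-- A state of a given class is determined by its values on the original edges
(`S (q + v) = DD v + δ v - ∑ e < q, inc v e * S e`). -/
lemma Sz.card_cls_le (H : I.Sz s) {M : ℕ} (hM : M ≤ pM0 s) (i j : ℕ) :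
    ((I.OmL s M).filter fun S => I.isCls S i j = true).card ≤ I.tot := by
  rw [← card_stageBox]
  refine Finset.card_le_card_of_injOn I.stageRes (fun S hS => ?_) (H.stageRes_injOn hM i j)
  rw [Finset.mem_coe, Finset.mem_filter, H.mem_OmL hM] at hS
  exact stageRes_mem hS.1

lemma Zt_nonneg (M i j : ℕ) : 0 ≤ I.Zt s M i j :=
  Finset.sum_nonneg fun S _ => (atw_pos M S).le

lemma stage_atw_le {M k : ℕ} {S : List ℤ} (h : k ≤ I.hh s M S) : I.atw s M S ≤ 1 / 2 ^ k :=
  one_div_le_one_div_of_le (by positivity) (pow_le_pow_right₀ (by norm_num) h)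

lemma stage_le_atw {M k : ℕ} {S : List ℤ} (h : I.hh s M S ≤ k) : 1 / 2 ^ k ≤ I.atw s M S :=
  one_div_le_one_div_of_le (by positivity) (pow_le_pow_right₀ (by norm_num) h)

/-- a part of a class on which the energy is at least `k` -/
lemma Sz.stage_sum_le (H : I.Sz s) {M : ℕ} (hM : M ≤ pM0 s) (i j : ℕ) {T : Finset (List ℤ)}
    (hT : T ⊆ (I.OmL s M).filter fun S => I.isCls S i j = true) {k : ℕ}
    (hk : ∀ S ∈ T, k ≤ I.hh s M S) : ∑ S ∈ T, I.atw s M S ≤ 2 ^ (s ^ 2) * (1 / 2 ^ k) := by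
  have h1 : T.card ≤ 2 ^ (s ^ 2) :=
    (Finset.card_le_card hT).trans ((H.card_cls_le hM i j).trans H.tot_le)
  have h2 : (T.card : ℝ) ≤ 2 ^ (s ^ 2) := by exact_mod_cast h1
  calc ∑ S ∈ T, I.atw s M S ≤ T.card • (1 / 2 ^ k : ℝ) :=
        Finset.sum_le_card_nsmul _ _ _ fun S hS => stage_atw_le (hk S hS)
    _ = T.card * (1 / 2 ^ k : ℝ) := nsmul_eq_mul _ _
    _ ≤ _ := mul_le_mul_of_nonneg_right h2 (by positivity)

lemma Sz.Zt_le (H : I.Sz s) {M : ℕ} (hM : M ≤ pM0 s) (i j : ℕ) : I.Zt s M i j ≤ 2 ^ (s ^ 2) := by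
  have := H.stage_sum_le hM i j Finset.Subset.rfl (k := 0) fun _ _ => Nat.zero_le _
  rwa [pow_zero, div_one, mul_one] at this

lemma stageDel_self (i v : ℕ) : stageDel i i v = 0 := sub_self _

lemma stageRes_mem_cnt {S : List ℤ} (h : I.valid 0 S = true) (h0 : I.isCls S 0 0 = true) :
    I.stageRes S ∈ I.stageBox.filter fun x =>
      ∀ v < I.p, ∑ e : Fin I.q, I.inc v e * x e = I.DD v := by
  refine Finset.mem_filter.2 ⟨stageRes_mem h, fun v hv => ?_⟩
  have h1 := stage_hub_eq h0 hv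
  have h2 := (stage_valid_iff'.1 h).2.2.1 v hv
  rw [stageDel_self, Finset.sum_range] at h1
  simp only [stageRes]
  omega

/-- With `M = 0` the defect-free states are the flows counted by `cnt`, each of weight one. -/
lemma Sz.Zt_zero (H : I.Sz s) : I.Zt s 0 0 0 = I.cnt := by
  have h1 : ((I.OmL s 0).filter fun S => I.isCls S 0 0 = true).card = I.cnt := by
    refine Finset.card_nbij I.stageRes (fun S hS => ?_) (H.stageRes_injOn (Nat.zero_le _) 0 0)
      fun x hx => ?_
    · rw [Finset.mem_coe, Finset.mem_filter, H.mem_OmL (Nat.zero_le _)] at hS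
      exact stageRes_mem_cnt hS.1 hS.2
    · rw [Finset.mem_coe, Finset.mem_filter] at hx
      refine ⟨I.stageExt x 0 0, ?_, stageRes_ext _ _ _⟩
      rw [Finset.mem_coe, Finset.mem_filter, H.mem_OmL (Nat.zero_le _)]
      refine ⟨H.stageExt_valid hx.1 (Nat.succ_pos _) (Nat.succ_pos _) fun v hv => ?_,
        H.stageExt_isCls x (Nat.succ_pos _) (Nat.succ_pos _)⟩
      rw [stageExt_hub _ _ _ hv, hx.2 v hv, stageDel_self]
      simp
  rw [← h1, Zt]
  simp [atw, hh]

lemma Sz.cnt_pos (H : I.Sz s) {S : List ℤ} (h : I.valid 0 S = true) (h0 : I.isCls S 0 0 = true) :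
    0 < I.cnt := by
  have _ := H.big
  exact Finset.card_pos.2 ⟨_, stageRes_mem_cnt h h0⟩

lemma valid_mono {M M' : ℕ} (h : M' ≤ M) {S : List ℤ} (hS : I.valid M' S = true) :
    I.valid M S = true := by
  rw [stage_valid_iff'] at hS ⊢
  exact ⟨hS.1, hS.2.1, fun v hv => (hS.2.2.1 v hv).trans h, hS.2.2.2⟩

lemma hh_mono {M M' : ℕ} (h : M' ≤ M) {S : List ℤ} (hS : I.valid M' S = true) :
    I.hh s M S ≤ I.hh s M' S := by
  rcases Nat.eq_zero_or_pos M' with rfl | h0
  · have := hub_le hS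
    rw [mul_zero, Nat.le_zero] at this
    simp [hh, this]
  · exact Nat.div_le_div_left h h0

lemma Sz.Zt_mono (H : I.Sz s) {M M' : ℕ} (hM : M ≤ pM0 s) (h : M' ≤ M) (i j : ℕ) :
    I.Zt s M' i j ≤ I.Zt s M i j := by
  refine le_trans (Finset.sum_le_sum (g := I.atw s M) fun S hS => ?_)
    (Finset.sum_le_sum_of_subset_of_nonneg (fun S hS => ?_) fun S _ _ => (atw_pos M S).le)
  · rw [Finset.mem_filter, H.mem_OmL (h.trans hM)] at hS
    exact stage_le_atw (hh_mono h hS.1)
  · rw [Finset.mem_filter, H.mem_OmL (h.trans hM)] at hS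
    rw [Finset.mem_filter, H.mem_OmL hM]
    exact ⟨valid_mono h hS.1, hS.2⟩

lemma stageDel_natAbs_le (i j v : ℕ) :
    (stageDel i j v).natAbs ≤ 1 ∧
      (stageDel i j v).natAbs ≤ (if i = v then 1 else 0) + if j = v then 1 else 0 := by
  unfold stageDel
  split_ifs <;> simp

/-- Extend a counted flow by `δ v = [i = v] - [j = v]` on the hub edge of `v` (`hub ≤ 2`). -/
lemma Sz.Zt_ge (H : I.Sz s) (hc : 0 < I.cnt) {M : ℕ} (hM0 : 0 < M) (hM : M ≤ pM0 s) {i j : ℕ}
    (hi : i < I.nv) (hj : j < I.nv) : 1 / 2 ^ (2 * pJ s / M) ≤ I.Zt s M i j := by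
  obtain ⟨x, hx⟩ := Finset.card_pos.1 hc
  rw [Finset.mem_filter] at hx
  have h1 : ∀ v < I.p, (I.stageExt x i j).getD (I.q + v) 0 = stageDel i j v := by
    intro v hv
    rw [stageExt_hub _ _ _ hv, hx.2 v hv]
    ring
  have h2 : I.valid M (I.stageExt x i j) = true := by
    refine H.stageExt_valid hx.1 hi hj fun v hv => ?_
    rw [h1 v hv]
    exact (stageDel_natAbs_le i j v).1.trans hM0
  have h3 : I.hub (I.stageExt x i j) ≤ 2 := by
    calc I.hub (I.stageExt x i j)
        ≤ ∑ v ∈ range I.p, ((if i = v then 1 else 0) + if j = v then 1 else 0) := by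
          refine Finset.sum_le_sum fun v hv => ?_
          rw [h1 v (mem_range.1 hv)]
          exact (stageDel_natAbs_le i j v).2
      _ ≤ 2 := by
          rw [Finset.sum_add_distrib, Finset.sum_ite_eq, Finset.sum_ite_eq]
          split_ifs <;> simp
  have h4 : I.hh s M (I.stageExt x i j) ≤ 2 * pJ s / M := by
    refine Nat.div_le_div_right ?_
    rw [mul_comm 2]
    exact Nat.mul_le_mul_left _ h3
  refine (stage_le_atw h4).trans (Finset.single_le_sum (f := I.atw s M)
    (fun S _ => (atw_pos M S).le) ?_)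
  rw [Finset.mem_filter, H.mem_OmL hM]
  exact ⟨h2, H.stageExt_isCls x hi hj⟩

lemma Sz.cnt_le_Zt (H : I.Sz s) {M : ℕ} (hM : M ≤ pM0 s) : (I.cnt : ℝ) ≤ I.Zt s M 0 0 := by
  rw [← H.Zt_zero]
  exact H.Zt_mono hM (Nat.zero_le _) 0 0

/-- bound for the value on a hub edge -/
lemma Sz.stage_hub_le (H : I.Sz s) {x : Fin I.q → ℤ} (hx : x ∈ I.stageBox) (i j : ℕ) {v : ℕ}
    (hv : v < I.p) :
    (I.DD v + stageDel i j v - ∑ e : Fin I.q, I.inc v e * x e).natAbs ≤ (s + 1) * 2 ^ s := by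
  have h1 : |∑ e : Fin I.q, I.inc v e * x e| ≤ s * 2 ^ s := by
    calc |∑ e : Fin I.q, I.inc v e * x e| ≤ ∑ e : Fin I.q, |I.inc v e * x e| :=
          Finset.abs_sum_le_sum_abs _ _
      _ ≤ (univ : Finset (Fin I.q)).card • (2 ^ s : ℤ) := by
          refine Finset.sum_le_card_nsmul _ _ _ fun e _ => ?_
          have h2 := mem_Icc.1 (Fintype.mem_piFinset.1 hx e)
          have h3 : (I.cap e : ℤ) < 2 ^ s := by exact_mod_cast H.cap_lt e e.2
          rw [abs_le]
          unfold inc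
          split_ifs <;> constructor <;> omega
      _ ≤ s * 2 ^ s := by
          rw [card_univ, Fintype.card_fin, nsmul_eq_mul]
          have : (I.q : ℤ) ≤ s := by exact_mod_cast H.stage_q_le
          exact mul_le_mul_of_nonneg_right this (by positivity)
  have h2 := abs_lt.1 (H.dem_lt v hv)
  have h3 := (stageDel_natAbs_le i j v).1
  rw [abs_le] at h1
  have h4 : (((s + 1) * 2 ^ s : ℕ) : ℤ) = s * 2 ^ s + 2 ^ s := by push_cast; ring
  omega

lemma stage_num (s : ℕ) : s * ((s + 1) * 2 ^ s) < 2 ^ (3 * s) ∧ (s + 1) * 2 ^ s ≤ 2 ^ (3 * s) := by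
  have h1 : s < 2 ^ s := Nat.lt_two_pow_self
  have h2 : 2 ^ (3 * s) = 2 ^ s * (2 ^ s * 2 ^ s) := by ring
  have h3 : (s + 1) * 2 ^ s ≤ 2 ^ s * 2 ^ s := Nat.mul_le_mul_right _ h1
  rw [h2]
  exact ⟨Nat.mul_lt_mul_of_lt_of_le h1 h3 (by positivity),
    h3.trans (Nat.le_mul_of_pos_left _ (by positivity))⟩

lemma Sz.stage_atw_M0 (H : I.Sz s) {S : List ℤ} (h : I.valid (pM0 s) S = true) :
    I.atw s (pM0 s) S = 1 := by
  obtain ⟨i, _, j, _, hc⟩ := (stage_valid_iff.1 h).2.2
  have h1 : I.hub S ≤ s * ((s + 1) * 2 ^ s) := by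
    calc I.hub S ≤ (range I.p).card • ((s + 1) * 2 ^ s) := by
          refine Finset.sum_le_card_nsmul _ _ _ fun v hv => ?_
          rw [stage_hub_eq hc (mem_range.1 hv), Finset.sum_range]
          exact H.stage_hub_le (stageRes_mem h) i j (mem_range.1 hv)
      _ ≤ _ := by
          rw [card_range, smul_eq_mul]
          exact Nat.mul_le_mul_right _ H.stage_p_le
  have hJ : 0 < pJ s := by
    have := H.big
    unfold pJ
    positivity
  have h2 : I.hh s (pM0 s) S = 0 :=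
    Nat.div_eq_of_lt (Nat.mul_lt_mul_of_pos_left (h1.trans_lt (stage_num s).1) hJ)
  simp [atw, h2]

/-- At the initial temperature every class is complete (`|hub edge| ≤ 2 ^ (2 s)`) and all weights are
one (`J * hub < pM0`). -/
lemma Sz.Zt_M0 (H : I.Sz s) {i j : ℕ} (hi : i < I.nv) (hj : j < I.nv) :
    I.Zt s (pM0 s) i j = I.tot := by
  have h1 : ((I.OmL s (pM0 s)).filter fun S => I.isCls S i j = true).card = I.tot := by
    rw [← card_stageBox]
    refine Finset.card_nbij I.stageRes (fun S hS => ?_) (H.stageRes_injOn le_rfl i j)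
      fun x hx => ?_
    · rw [Finset.mem_coe, Finset.mem_filter, H.mem_OmL le_rfl] at hS
      exact stageRes_mem hS.1
    · refine ⟨I.stageExt x i j, ?_, stageRes_ext _ _ _⟩
      rw [Finset.mem_coe, Finset.mem_filter, H.mem_OmL le_rfl]
      refine ⟨H.stageExt_valid hx hi hj fun v hv => ?_, H.stageExt_isCls x hi hj⟩
      rw [stageExt_hub _ _ _ hv]
      refine (H.stage_hub_le hx i j hv).trans ((stage_num s).2.trans ?_)
      have := H.big
      exact Nat.le_mul_of_pos_left _ (by unfold pJ; positivity)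
  rw [← h1, Zt, Finset.sum_congr rfl (g := fun _ => (1 : ℝ)) fun S hS =>
    H.stage_atw_M0 ((H.mem_OmL le_rfl S).1 (Finset.mem_filter.1 hS).1)]
  simp

lemma Sz.atw_M0 (H : I.Sz s) {S : List ℤ} (h : I.valid (pM0 s) S = true) :
    I.atw s (pM0 s) S = 1 := H.stage_atw_M0 h

open Classical in
/-- For an atypical state `J hub = 2 s² P hub > 2 s² M + 2 J`, so `hh ≥ 2 s² + 2 J / M`; use
`card_cls_le`, `tot_le`, `Zt_ge`. -/
lemma Sz.atyp_mass (H : I.Sz s) (hc : 0 < I.cnt) {M : ℕ} (hM0 : 0 < M) (hM : M ≤ pM0 s) {i j : ℕ}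
    (hi : i < I.nv) (hj : j < I.nv) :
    ∑ S ∈ (I.OmL s M).filter (fun S => I.isCls S i j = true ∧ ¬ I.Typ s M S), I.atw s M S ≤
      1 / 2 ^ (s ^ 2) * I.Zt s M i j := by
  have h1 := H.stage_sum_le hM i j
    (T := (I.OmL s M).filter (fun S => I.isCls S i j = true ∧ ¬ I.Typ s M S))
    (k := 2 * s ^ 2 + 2 * pJ s / M)
    (fun S hS => by
      rw [Finset.mem_filter] at hS ⊢
      exact ⟨hS.1, hS.2.1⟩)
    (fun S hS => by
      have h2 := (Finset.mem_filter.1 hS).2.2
      rw [Typ, not_le] at h2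
      rw [hh, add_comm, ← Nat.add_mul_div_right _ _ hM0]
      refine Nat.div_le_div_right ?_
      rw [stage_pJ_eq]
      calc 2 * (2 * s ^ 2 * pP s) + 2 * s ^ 2 * M = 2 * s ^ 2 * (M + 2 * pP s) := by ring
        _ ≤ 2 * s ^ 2 * (pP s * I.hub S) := Nat.mul_le_mul_left _ h2.le
        _ = _ := by ring)
  refine h1.trans ?_
  calc (2 : ℝ) ^ (s ^ 2) * (1 / 2 ^ (2 * s ^ 2 + 2 * pJ s / M))
      = 1 / 2 ^ (s ^ 2) * (1 / 2 ^ (2 * pJ s / M)) := by
        rw [pow_add, two_mul (s ^ 2), pow_add]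
        field_simp
    _ ≤ _ := mul_le_mul_of_nonneg_left (H.Zt_ge hc hM0 hM hi hj) (by positivity)

/-- `hub ≤ M / P + 2 ≤ cool M`, and (real quotients) with `M' = cool M ≥ M / 2`,
`J hub / M' - J hub / M ≤ J hub / (P M') ≤ 2 J / P² + 4 J / (P M) < 1`. -/
lemma Sz.typ_next (H : I.Sz s) {M : ℕ} (hM : pP s - 1 ≤ M) {S : List ℤ} (h : I.valid M S = true)
    (ht : I.Typ s M S) :
    I.valid (cool s M) S = true ∧ I.hh s (cool s M) S ≤ I.hh s M S + 1 := by
  have hP := stage_pP_ge H.big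
  have hk := Nat.div_mul_le_self M (pP s)
  have hh1 : I.hub S ≤ M / pP s + 2 := by
    rw [← Nat.add_mul_div_right _ _ (show 0 < pP s by omega),
      Nat.le_div_iff_mul_le (show 0 < pP s by omega), mul_comm]
    exact ht
  unfold hh cool
  generalize M / pP s = k at hk hh1
  have hk2 : k * 200000 ≤ k * pP s := Nat.mul_le_mul_left _ hP
  constructor
  · rw [stage_valid_iff'] at h ⊢
    refine ⟨h.1, h.2.1, fun v hv => ?_, h.2.2.2⟩
    have : (S.getD (I.q + v) 0).natAbs ≤ I.hub S :=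
      Finset.single_le_sum (f := fun v => (S.getD (I.q + v) 0).natAbs)
        (fun _ _ => Nat.zero_le _) (mem_range.2 hv)
    omega
  · obtain ⟨M', rfl⟩ : ∃ M', M = M' + k := ⟨M - k, by omega⟩
    rw [Nat.add_sub_cancel]
    have hM' : 0 < M' := by omega
    have key : pJ s * I.hub S * k ≤ (M' + k) * M' := by
      rcases Nat.eq_zero_or_pos k with rfl | hk0
      · simp
      · obtain ⟨P, hP'⟩ : ∃ P, pP s = P + 1 := ⟨pP s - 1, by omega⟩
        have h1 : 6 * s ^ 2 ≤ P := by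
          have : pP s = 20 * s ^ 2 := rfl
          omega
        have h2 : k * P ≤ M' := by
          rw [hP', mul_add] at hk
          omega
        calc pJ s * I.hub S * k ≤ pJ s * (3 * k) * k :=
              Nat.mul_le_mul_right _ (Nat.mul_le_mul_left _ (by omega))
          _ = (k * pP s) * (k * (6 * s ^ 2)) := by rw [stage_pJ_eq]; ring
          _ ≤ (M' + k) * M' := Nat.mul_le_mul hk ((Nat.mul_le_mul_left _ h1).trans h2)
    generalize pJ s * I.hub S = a at key
    rw [← Nat.add_div_right _ (show 0 < M' + k by omega),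
      Nat.le_div_iff_mul_le (show 0 < M' + k by omega)]
    have h1 := Nat.div_mul_le_self a M'
    refine Nat.le_of_mul_le_mul_right ?_ hM'
    calc a / M' * (M' + k) * M' = a / M' * M' * (M' + k) := by ring
      _ ≤ a * (M' + k) := Nat.mul_le_mul_right _ h1
      _ = a * M' + a * k := by ring
      _ ≤ a * M' + (M' + k) * M' := Nat.add_le_add_left key _
      _ = _ := by ring

lemma Sz.Zt_le_next (H : I.Sz s) (hc : 0 < I.cnt) {M : ℕ} (hM1 : pP s - 1 ≤ M) (hM : M ≤ pM0 s)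
    {i j : ℕ} (hi : i < I.nv) (hj : j < I.nv) : I.Zt s M i j ≤ 4 * I.Zt s (cool s M) i j := by
  classical
  have hP := stage_pP_ge H.big
  have h1 := H.atyp_mass hc (by omega) hM hi hj
  have h2 : ∑ S ∈ (I.OmL s M).filter (fun S => I.isCls S i j = true ∧ I.Typ s M S), I.atw s M S ≤
      2 * I.Zt s (cool s M) i j := by
    rw [Zt, Finset.mul_sum]
    refine le_trans (Finset.sum_le_sum (g := fun S => 2 * I.atw s (cool s M) S) fun S hS => ?_)
      (Finset.sum_le_sum_of_subset_of_nonneg (fun S hS => ?_)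
        fun S _ _ => mul_nonneg zero_le_two (atw_pos _ S).le)
    · rw [Finset.mem_filter, H.mem_OmL hM] at hS
      have h3 := stage_le_atw (H.typ_next hM1 hS.1 hS.2.2).2
      rw [pow_succ, ← div_div] at h3
      unfold atw at h3 ⊢
      linarith
    · rw [Finset.mem_filter, H.mem_OmL hM] at hS
      rw [Finset.mem_filter, H.mem_OmL ((cool_le _ _).trans hM)]
      exact ⟨(H.typ_next hM1 hS.1 hS.2.2).1, hS.2.1⟩
  have h3 := Finset.sum_filter_add_sum_filter_not
    ((I.OmL s M).filter fun S => I.isCls S i j = true) (fun S => I.Typ s M S) (I.atw s M)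
  rw [Finset.filter_filter, Finset.filter_filter] at h3
  have h4 : (1 : ℝ) / 2 ^ (s ^ 2) ≤ 1 / 2 ^ 1 :=
    one_div_le_one_div_of_le (by positivity) (pow_le_pow_right₀ (by norm_num)
      (Nat.one_le_pow _ _ (by have := H.big; omega)))
  have h5 := mul_le_mul_of_nonneg_right h4 (Zt_nonneg (I := I) (s := s) M i j)
  change _ = I.Zt s M i j at h3
  linarith

/-- For `M < P` a state with `hub ≥ 1` has `hh ≥ 2 s²`. -/
lemma Sz.Zt_le_last (H : I.Sz s) (hc : 0 < I.cnt) {M : ℕ} (hM0 : 0 < M) (hM : M < pP s) :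
    I.Zt s M 0 0 ≤ 2 * I.Zt s 0 0 0 := by
  have hM' : M ≤ pM0 s := by
    have := le_Mt H.big 0
    change pP s - 1 ≤ pM0 s at this
    omega
  have h1 := H.stage_sum_le hM' 0 0
    (T := ((I.OmL s M).filter fun S => I.isCls S 0 0 = true).filter fun S => ¬ I.hub S = 0)
    (k := s ^ 2) (Finset.filter_subset _ _) (fun S hS => by
      have h2 := Nat.pos_of_ne_zero (Finset.mem_filter.1 hS).2
      rw [hh, Nat.le_div_iff_mul_le hM0, stage_pJ_eq]
      calc s ^ 2 * M ≤ 2 * s ^ 2 * pP s := Nat.mul_le_mul (by omega) hM.le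
        _ ≤ _ := Nat.le_mul_of_pos_right _ h2)
  rw [mul_one_div_cancel (by positivity)] at h1
  have h2 : ∑ S ∈ ((I.OmL s M).filter fun S => I.isCls S 0 0 = true).filter fun S => I.hub S = 0,
      I.atw s M S ≤ I.Zt s 0 0 0 := by
    refine le_trans (Finset.sum_le_sum (g := I.atw s 0) fun S hS => ?_)
      (Finset.sum_le_sum_of_subset_of_nonneg (fun S hS => ?_) fun S _ _ => (atw_pos _ S).le)
    · simp [atw, hh, (Finset.mem_filter.1 hS).2]
    · rw [Finset.mem_filter, Finset.mem_filter, H.mem_OmL hM', stage_valid_iff'] at hS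
      rw [Finset.mem_filter, H.mem_OmL (Nat.zero_le _), stage_valid_iff']
      refine ⟨⟨hS.1.1.1, hS.1.1.2.1, fun v hv => ?_, hS.1.1.2.2.2⟩, hS.1.2⟩
      rw [← hS.2]
      exact Finset.single_le_sum (f := fun v => (S.getD (I.q + v) 0).natAbs)
        (fun _ _ => Nat.zero_le _) (mem_range.2 hv)
  have h3 := Finset.sum_filter_add_sum_filter_not
    ((I.OmL s M).filter fun S => I.isCls S 0 0 = true) (fun S => I.hub S = 0) (I.atw s M)
  have h4 : (1 : ℝ) ≤ I.Zt s 0 0 0 := by
    rw [H.Zt_zero]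
    exact_mod_cast hc
  change _ = I.Zt s M 0 0 at h3
  linarith

end Inst

end Crest.Agent.R309
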