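import Crest.Agent.R309.Stage

/-! Row 309: hypotheses of the weak Poincaré inequality, the initial state. -/

set_option autoImplicit false

namespace Crest.Agent.R309

open Finset Crest.Agent.Lib.PT

namespace Inst

variable {I : Inst} {s : ℕ}

/-- total flow through the hub edges of a vector -/
def stage2_hub (I : Inst) (z : Fin I.ne → ℤ) : ℕ :=
  ∑ e : Fin I.ne, if (e : ℕ) < I.q then 0 else (z e).natAbs

lemma stage2_wt {M : ℕ} {z : Fin I.ne → ℤ} (hz : InBox (I.lo M) (I.hi M) z) :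
    wt (I.aw s M) z = (2 : ℝ) ^ (-((pJ s : ℝ) * stage2_hub I z / M)) := by
  have e1 : wt (I.aw s M) z = lam s M ^ stage2_hub I z := by
    unfold wt stage2_hub
    rw [← prod_pow_eq_pow_sum]
    refine prod_congr rfl fun e _ => ?_
    unfold aw
    rw [if_pos (hz e)]
    split_ifs
    · rw [pow_zero]
    · rfl
  rw [e1, lam, ← Real.rpow_natCast, ← Real.rpow_mul (by norm_num)]
  congr 1
  ring

lemma stage2_hub_le {M : ℕ} {z : Fin I.ne → ℤ} (hz : InBox (I.lo M) (I.hi M) z) :
    stage2_hub I z ≤ I.ne * M := by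
  unfold stage2_hub
  refine (sum_le_card_nsmul _ _ M fun e _ => ?_).trans (by simp)
  split_ifs with h
  · exact Nat.zero_le _
  · have := hz e
    simp only [lo, hi, LO, HI, if_neg h] at this
    omega

lemma stage2_hub_flat {M n : ℕ} {z z' : Fin I.ne → ℤ}
    (h : ∀ e, (n : ℤ) * |z e - z' e| ≤ I.hi M e - I.lo M e) :
    n * stage2_hub I z' ≤ n * stage2_hub I z + I.ne * (2 * M) := by
  unfold stage2_hub
  have e1 : I.ne * (2 * M) = ∑ _e : Fin I.ne, 2 * M := by simp
  rw [mul_sum, mul_sum, e1, ← sum_add_distrib]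
  refine sum_le_sum fun e _ => ?_
  split_ifs with h1
  · exact Nat.zero_le _
  · have h2 := h e
    simp only [lo, hi, LO, HI, if_neg h1] at h2
    have h3 : |z' e| ≤ |z e| + |z e - z' e| := by
      have := abs_sub (z e) (z e - z' e)
      rwa [sub_sub_cancel] at this
    have h4 : (n : ℤ) * |z' e| ≤ n * (|z e| + |z e - z' e|) :=
      mul_le_mul_of_nonneg_left h3 (Int.natCast_nonneg n)
    have h5 : (n : ℤ) * |z' e| ≤ n * |z e| + 2 * M := by linarith
    rw [← Int.natCast_natAbs, ← Int.natCast_natAbs] at h5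
    exact_mod_cast h5

lemma stage2_pow_le {s : ℕ} (hs : 100 ≤ s) : 100 * s ^ 5 ≤ pW s := by
  unfold pW
  calc 100 * s ^ 5 ≤ s * s ^ 5 := Nat.mul_le_mul_right _ hs
    _ = s ^ 6 := by ring
    _ ≤ s ^ 130 := Nat.pow_le_pow_right (by omega) (by norm_num)

lemma stage2_Zc_eq (M : ℕ) :
    Zc I.gr (rad s) (I.aw s M) (I.dd + rt ⟨0, Nat.succ_pos _⟩ ⟨0, Nat.succ_pos _⟩) =
      Zc I.gr (rad s) (I.aw s M) I.dd := by
  rw [rt_self, add_zero]

/-- The hypotheses of the weak Poincaré inequality, `n = s ^ 130`.  `ratio`: `Zc ≤ 2 ^ (s²)` and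
`wt ≥ 2 ^ (-J s)`.  `flat`: on hub edges `hi - lo = 2 M`, so the `hub` values differ by at most
`2 s M / n` and `lam ^ (2 s M / n) = 2 ^ (-2 s J / n) ≥ 1 / 2`. -/
theorem Sz.hyp (H : I.Sz s) (hc : 0 < I.cnt) {M : ℕ} (hM0 : 0 < M) (hM : M ≤ pM0 s) :
    Hyp I.gr (rad s) (I.lo M) (I.hi M) (I.aw s M) I.dd (pW s) := by
  have hs := H.big
  have hW := stage2_pow_le hs
  have h1 : s ≤ s ^ 5 := Nat.le_self_pow (by norm_num) s
  have h2 : s ^ 2 ≤ s ^ 5 := Nat.pow_le_pow_right (by omega) (by norm_num)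
  have hM' : (0 : ℝ) < M := by exact_mod_cast hM0
  have hZ := H.Zc_le_Zt hM0 hM ⟨0, Nat.succ_pos _⟩ ⟨0, Nat.succ_pos _⟩
  rw [stage2_Zc_eq] at hZ
  refine ⟨H.gr_noloop, adm_aw H hM, fun e x => ?_, by omega, ?_, ?_, fun e => ?_, fun z hz => ?_,
    fun z z' hz hz' h => ?_, ?_⟩
  · unfold aw
    have hl : 0 < lam s M := Real.rpow_pos_of_pos (by norm_num) _
    split_ifs with a b
    · exact iff_of_true one_pos a
    · exact iff_of_true (pow_pos hl _) a
    · exact iff_of_false (lt_irrefl _) a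
  · rw [Fintype.card_fin]
    have := H.nv_le
    omega
  · rw [Fintype.card_fin]
    have := H.ne_le
    omega
  · simp only [lo, hi, LO, HI]
    split_ifs with a
    · have a1 := H.cap_lt e a
      have a2 : 2 ^ s ≤ 2 ^ pW s := Nat.pow_le_pow_right (by norm_num) (by omega)
      have a3 : I.cap e < 2 ^ pW s := a1.trans_le a2
      rw [sub_zero]
      exact_mod_cast a3
    · have a1 : s ^ 4 ≤ (2 ^ s) ^ 4 := Nat.pow_le_pow_left Nat.lt_two_pow_self.le 4
      have a2 : 2 * pM0 s < 2 ^ pW s := by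
        unfold pM0 pJ
        calc 2 * (40 * s ^ 4 * 2 ^ (3 * s)) ≤ 2 * (40 * (2 ^ s) ^ 4 * 2 ^ (3 * s)) := by gcongr
          _ = 80 * 2 ^ (7 * s) := by ring
          _ < 2 ^ 7 * 2 ^ (7 * s) := by gcongr; norm_num
          _ = 2 ^ (7 + 7 * s) := by rw [pow_add]
          _ ≤ 2 ^ pW s := Nat.pow_le_pow_right (by norm_num) (by omega)
      have a3 : M + M < 2 ^ pW s := by omega
      rw [sub_neg_eq_add]
      exact_mod_cast a3
  · refine (hZ.1.trans (H.Zt_le hM 0 0)).trans ?_
    rw [stage2_wt hz, ← Real.rpow_natCast, ← Real.rpow_natCast, ← Real.rpow_add (by norm_num)]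
    refine Real.rpow_le_rpow_of_exponent_le (by norm_num) ?_
    have a1 : stage2_hub I z ≤ s * M := (stage2_hub_le hz).trans (Nat.mul_le_mul_right _ H.ne_le)
    have a2 : (stage2_hub I z : ℝ) ≤ s * M := by exact_mod_cast a1
    have a3 : (pJ s : ℝ) * stage2_hub I z / M ≤ pJ s * s := by
      rw [div_le_iff₀ hM', mul_assoc]
      exact mul_le_mul_of_nonneg_left a2 (Nat.cast_nonneg _)
    have a4 : s ^ 2 + pJ s * s ≤ pW s := by
      have : pJ s * s = 40 * s ^ 5 := by unfold pJ; ring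
      omega
    have a5 : ((s ^ 2 : ℕ) : ℝ) + pJ s * s ≤ pW s := by exact_mod_cast a4
    linarith
  · rw [stage2_wt hz, stage2_wt hz', mul_comm (2 : ℝ), ← Real.rpow_add_one (by norm_num)]
    refine Real.rpow_le_rpow_of_exponent_le (by norm_num) ?_
    have a1 := stage2_hub_flat h
    have a2 : I.ne * (2 * M) * pJ s ≤ pW s * M := by
      calc I.ne * (2 * M) * pJ s ≤ s * (2 * M) * pJ s := by gcongr; exact H.ne_le
        _ = 80 * s ^ 5 * M := by unfold pJ; ring
        _ ≤ pW s * M := Nat.mul_le_mul_right _ (by omega)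
    have a3 : pW s * (pJ s * stage2_hub I z') ≤ pW s * (pJ s * stage2_hub I z + M) := by
      calc pW s * (pJ s * stage2_hub I z') = pW s * stage2_hub I z' * pJ s := by ring
        _ ≤ (pW s * stage2_hub I z + I.ne * (2 * M)) * pJ s := Nat.mul_le_mul_right _ a1
        _ = pW s * (pJ s * stage2_hub I z) + I.ne * (2 * M) * pJ s := by ring
        _ ≤ pW s * (pJ s * stage2_hub I z) + pW s * M := Nat.add_le_add_left a2 _
        _ = _ := by ring
    have a4 : pJ s * stage2_hub I z' ≤ pJ s * stage2_hub I z + M :=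
      Nat.le_of_mul_le_mul_left a3 (by omega)
    have a5 : (pJ s : ℝ) * stage2_hub I z' ≤ pJ s * stage2_hub I z + M := by exact_mod_cast a4
    have a6 : (pJ s : ℝ) * stage2_hub I z' / M ≤ pJ s * stage2_hub I z / M + 1 := by
      rw [div_add_one hM'.ne']
      exact div_le_div_of_nonneg_right a5 hM'.le
    linarith
  · have a1 := H.Zt_ge hc hM0 hM (Nat.succ_pos _) (Nat.succ_pos _)
    have a2 : (0 : ℝ) < 1 / 2 ^ (2 * pJ s / M) := by positivity
    have a3 := hZ.2
    change I.Zt s M 0 0 ≤ _ at a3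
    linarith

open Classical in
/-- `deep_mass` and `wt_le_atw`, `Zc_le_Zt`. -/
lemma Sz.badR_mass (H : I.Sz s) (hc : 0 < I.cnt) {M : ℕ} (hM0 : 0 < M) (hM : M ≤ pM0 s) :
    ∑ S ∈ (I.OmL s M).filter (fun S => I.isCls S 0 0 = true ∧ ¬ I.GoodR s M S), I.atw s M S ≤
      32 / (pW s : ℝ) ^ 4 * I.Zt s M 0 0 := by
  have hy := H.hyp hc hM0 hM
  have hd := deep_mass hy
  have hZ := (H.Zc_le_Zt hM0 hM ⟨0, Nat.succ_pos _⟩ ⟨0, Nat.succ_pos _⟩).1
  rw [stage2_Zc_eq] at hZ
  change _ ≤ I.Zt s M 0 0 at hZ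
  set F : (Fin I.ne → ℤ) → ℝ := fun z => wt (I.aw s M) z *
    (if Deep I.gr (rad s) (I.lo M) (I.hi M) I.dd (pW s) z then 0 else 1) with hF
  have hF0 : ∀ z, 0 ≤ F z := fun z => by
    refine mul_nonneg (hy.adm.wt_nonneg z) ?_
    split_ifs
    · exact le_rfl
    · exact zero_le_one
  rw [sum_filter, sum_OmL]
  calc _ ≤ ∑ z ∈ Om I.gr (rad s) (I.lo M) (I.hi M) I.dd,
        if z ∈ cls I.gr (rad s) I.dd then 2 * F z else 0 := by
        refine sum_le_sum fun z hz => ?_
        have hv : I.valid M (List.ofFn z) = true :=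
          (H.vec_mem_Om hM (by simp)).1 (by rwa [vec_ofFn])
        by_cases hb : I.isCls (List.ofFn z) 0 0 = true ∧ ¬ I.GoodR s M (List.ofFn z)
        · have b1 := (H.isCls_zero_iff _).1 hb.1
          rw [vec_ofFn] at b1
          have b2 : z ∈ cls I.gr (rad s) I.dd := mem_cls.2 ⟨(mem_filter.1 hz).1, b1⟩
          have b3 : ¬ Deep I.gr (rad s) (I.lo M) (I.hi M) I.dd (pW s) z := fun h =>
            hb.2 (by unfold GoodR; rw [vec_ofFn]; exact ⟨b2, h⟩)
          have b4 := (wt_le_atw (s := s) hM0 hv).2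
          rw [vec_ofFn] at b4
          rw [if_pos hb, if_pos b2]
          simp only [hF, if_neg b3, mul_one]
          exact b4
        · rw [if_neg hb]
          split_ifs
          · exact mul_nonneg (by norm_num) (hF0 z)
          · exact le_rfl
    _ ≤ ∑ z ∈ cls I.gr (rad s) I.dd, 2 * F z := by
        rw [← sum_filter]
        exact sum_le_sum_of_subset_of_nonneg (fun z hz => (mem_filter.1 hz).2)
          fun z _ _ => mul_nonneg (by norm_num) (hF0 z)
    _ ≤ 2 * (16 / (pW s : ℝ) ^ 4 * Zc I.gr (rad s) (I.aw s M) I.dd) := by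
        rw [← mul_sum]
        exact mul_le_mul_of_nonneg_left hd (by norm_num)
    _ ≤ 2 * (16 / (pW s : ℝ) ^ 4 * I.Zt s M 0 0) := by gcongr
    _ = _ := by ring

lemma stage2_init_getD (ω : List Bool) {e : ℕ} (he : e < I.ne) :
    (I.init s ω).getD e 0 = if e < I.q then I.x0 s ω e else
      I.DD (e - I.q) - ∑ e' ∈ range I.q, I.inc (e - I.q) e' * I.x0 s ω e' := by
  unfold init
  rw [List.getD_eq_getElem _ _ (by simpa using he), List.getElem_map, List.getElem_range]

lemma stage2_x0 (ω : List Bool) (e : ℕ) : 0 ≤ I.x0 s ω e ∧ I.x0 s ω e ≤ I.cap e := by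
  unfold x0
  refine ⟨Int.natCast_nonneg _, ?_⟩
  exact_mod_cast Nat.le_of_lt_succ (Nat.mod_lt _ (Nat.succ_pos _))

lemma stage2_sum_getD (l : List ℤ) : ∑ v ∈ range l.length, l.getD v 0 = l.sum := by
  induction l with
  | nil => simp
  | cons a l ih =>
    rw [List.length_cons, sum_range_succ', List.sum_cons, ← ih, add_comm]
    simp

lemma stage2_inc_hub (v w : ℕ) :
    I.inc v (I.q + w) = (if w = v then 1 else 0) - (if I.p = v then 1 else 0) := by
  simp [inc, TL, HD]

lemma Sz.init_valid (H : I.Sz s) (ω : List Bool) :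
    I.valid (pM0 s) (I.init s ω) = true ∧ I.isCls (I.init s ω) 0 0 = true := by
  have hcls : I.isCls (I.init s ω) 0 0 = true := by
    unfold isCls
    rw [decide_eq_true_eq]
    intro v hv
    rw [sub_self]
    unfold dfc
    have e1 : ∑ e ∈ range I.ne, I.inc v e * (I.init s ω).getD e 0 =
        ∑ e ∈ range I.q, I.inc v e * I.x0 s ω e + ∑ w ∈ range I.p,
          ((if w = v then 1 else 0) - (if I.p = v then 1 else 0)) *
            (I.DD w - ∑ e' ∈ range I.q, I.inc w e' * I.x0 s ω e') := by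
      change ∑ e ∈ range (I.q + I.p), _ = _
      rw [sum_range_add]
      congr 1
      · refine sum_congr rfl fun e he => ?_
        have he' := mem_range.1 he
        rw [stage2_init_getD ω (by unfold ne; omega), if_pos he']
      · refine sum_congr rfl fun w hw => ?_
        have hw' := mem_range.1 hw
        rw [stage2_init_getD ω (by unfold ne; omega), if_neg (by omega), stage2_inc_hub,
          Nat.add_sub_cancel_left]
    rw [e1]
    by_cases hp : I.p = v
    · subst hp
      have a1 : ∑ e ∈ range I.q, I.inc I.p e * I.x0 s ω e = 0 := by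
        refine sum_eq_zero fun e he => ?_
        have he' := mem_range.1 he
        unfold inc
        rw [if_neg (H.tl_lt e he').ne, if_neg (H.hd_lt e he').ne]
        simp
      have a2 : ∑ w ∈ range I.p, ((if w = I.p then 1 else 0) - (if I.p = I.p then 1 else 0)) *
            (I.DD w - ∑ e' ∈ range I.q, I.inc w e' * I.x0 s ω e') =
          ∑ w ∈ range I.p, (∑ e' ∈ range I.q, I.inc w e' * I.x0 s ω e' - I.2.2.2.getD w 0) := by
        refine sum_congr rfl fun w hw => ?_
        have hw' := mem_range.1 hw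
        rw [if_neg hw'.ne, if_pos rfl, DD, if_pos hw']
        ring
      have a3 : ∑ w ∈ range I.p, ∑ e' ∈ range I.q, I.inc w e' * I.x0 s ω e' = 0 := by
        rw [sum_comm]
        refine sum_eq_zero fun e he => ?_
        have he' := mem_range.1 he
        rw [← sum_mul]
        unfold inc
        rw [sum_sub_distrib, sum_ite_eq, sum_ite_eq, if_pos (mem_range.2 (H.tl_lt e he')),
          if_pos (mem_range.2 (H.hd_lt e he'))]
        simp
      have a4 : ∑ w ∈ range I.p, I.2.2.2.getD w 0 = I.2.2.2.sum := stage2_sum_getD _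
      rw [a1, a2, sum_sub_distrib, a3, a4, DD, if_neg (lt_irrefl _)]
      ring
    · have hv' : v < I.p := by
        unfold nv at hv
        omega
      simp only [if_neg hp, sub_zero, ite_mul, one_mul, zero_mul]
      rw [sum_ite_eq', if_pos (mem_range.2 hv')]
      ring
  refine ⟨?_, hcls⟩
  unfold valid
  simp only [Bool.and_eq_true, decide_eq_true_eq]
  refine ⟨⟨by simp [init], fun e he => ?_⟩, 0, Nat.succ_pos _, 0, Nat.succ_pos _, hcls⟩
  rw [stage2_init_getD ω he]
  unfold LO HI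
  split_ifs with h
  · exact stage2_x0 ω e
  · rw [← abs_le]
    have hv : e - I.q < I.p := by
      unfold ne at he
      omega
    have a1 := (H.dem_lt _ hv).le
    have a2 : |∑ e' ∈ range I.q, I.inc (e - I.q) e' * I.x0 s ω e'| ≤ s * 2 ^ s := by
      refine (abs_sum_le_sum_abs _ _).trans ?_
      refine (sum_le_card_nsmul _ _ ((2 : ℤ) ^ s) fun e' he' => ?_).trans ?_
      · have b1 := stage2_x0 (I := I) (s := s) ω e'
        have b2 : (I.cap e' : ℤ) < 2 ^ s := by exact_mod_cast H.cap_lt e' (mem_range.1 he')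
        have b3 : |I.inc (e - I.q) e'| ≤ 1 := by
          unfold inc
          split_ifs <;> simp
        rw [abs_mul, abs_of_nonneg b1.1]
        calc _ ≤ 1 * I.x0 s ω e' := mul_le_mul_of_nonneg_right b3 b1.1
          _ ≤ _ := by linarith [b1.2]
      · rw [card_range, nsmul_eq_mul]
        have b1 : I.q ≤ s := le_trans (Nat.le_add_right _ _) H.ne_le
        have b2 : (I.q : ℤ) ≤ s := by exact_mod_cast b1
        gcongr
    have a3 : 2 ^ s + s * 2 ^ s ≤ pM0 s := by
      unfold pM0 pJ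
      have b1 : s ≤ s ^ 4 := Nat.le_self_pow (by norm_num) s
      have b2 : 2 ^ s ≤ 2 ^ (3 * s) := Nat.pow_le_pow_right (by norm_num) (by omega)
      have b3 := H.big
      calc 2 ^ s + s * 2 ^ s = (1 + s) * 2 ^ s := by ring
        _ ≤ _ := Nat.mul_le_mul (by omega) b2
    have a4 : (2 : ℤ) ^ s + s * 2 ^ s ≤ pM0 s := by exact_mod_cast a3
    exact (abs_sub _ _).trans (by linarith)

lemma Sz.init_take (H : I.Sz s) (ω : List Bool) : I.init s (ω.take (rI s)) = I.init s ω := by
  have h : I.q * (2 * s) ≤ rI s :=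
    Nat.mul_le_mul_right _ (le_trans (Nat.le_add_right _ _) H.ne_le)
  have e : I.x0 s (ω.take (rI s)) = I.x0 s ω := by
    funext e
    unfold x0
    rw [chunks_take h]
  unfold init
  rw [e]

/-- `Ex_prod_chunks`, `Pr_ofBits_mod_le`: the probability is at most
`∏ e, (1 / (cap e + 1) + 1 / 2 ^ (2 s)) ≤ (1 + 2 ^ (-s)) ^ s / tot`. -/
lemma Sz.init_law (H : I.Sz s) (S : List ℤ) :
    Pr (rI s) (fun ω => I.init s ω = S) ≤ 2 / I.tot := by
  classical
  have hq : I.q ≤ s := le_trans (Nat.le_add_right _ _) H.ne_le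
  have h : I.q * (2 * s) ≤ rI s := Nat.mul_le_mul_right _ hq
  let P : ℕ → List Bool → Prop := fun e u => ofBits u % (I.cap e + 1) = (S.getD e 0).toNat
  have s1 : Pr (rI s) (fun ω => I.init s ω = S) ≤
      Pr (rI s) (fun ω => ∀ e ∈ range I.q, P e ((chunks I.q (2 * s) ω).getD e [])) := by
    refine Pr_mono fun ω _ hω e he => ?_
    have he' := mem_range.1 he
    have := stage2_init_getD (I := I) (s := s) ω (e := e) (by unfold ne; omega)
    rw [hω, if_pos he'] at this
    simp only [P]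
    rw [this]
    rfl
  have s2 : Pr (rI s) (fun ω => ∀ e ∈ range I.q, P e ((chunks I.q (2 * s) ω).getD e [])) =
      ∏ e ∈ range I.q, Pr (2 * s) (P e) := by
    rw [Pr_of_prefix h (fun l => by rw [chunks_take le_rfl])]
    unfold Pr
    rw [← Ex_prod_chunks]
    refine Ex_congr fun l _ => ?_
    split_ifs with hb
    · exact (prod_eq_one fun e he => if_pos (hb e he)).symm
    · obtain ⟨e, he⟩ := not_forall.1 hb
      obtain ⟨he1, he2⟩ := Classical.not_imp.1 he
      exact (prod_eq_zero he1 (if_neg he2)).symm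
  have s3 : ∏ e ∈ range I.q, Pr (2 * s) (P e) ≤
      ∏ e ∈ range I.q, ((1 + 1 / 2 ^ s) * (1 / ((I.cap e + 1 : ℕ) : ℝ))) := by
    refine prod_le_prod (fun e _ => Pr_nonneg _ _) fun e he => ?_
    refine (Pr_ofBits_mod_le _ _ _ (Nat.succ_pos _)).trans ?_
    have a1 : I.cap e + 1 ≤ 2 ^ s := H.cap_lt e (mem_range.1 he)
    have a2 : ((I.cap e + 1 : ℕ) : ℝ) ≤ 2 ^ s := by exact_mod_cast a1
    have a3 : (0 : ℝ) < (I.cap e + 1 : ℕ) := by positivity
    rw [add_mul, one_mul, two_mul, pow_add, one_div_mul_one_div]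
    gcongr
  have s4 : ((1 : ℝ) + 1 / 2 ^ s) ^ I.q ≤ 2 := by
    have a1 : 2 * s ≤ 2 ^ s := Nat.mul_le_pow (by norm_num) s
    have a2 : (2 : ℝ) * I.q ≤ 2 ^ s := by exact_mod_cast (by omega : 2 * I.q ≤ 2 ^ s)
    calc ((1 : ℝ) + 1 / 2 ^ s) ^ I.q ≤ Real.exp (1 / 2 ^ s) ^ I.q := by
          gcongr
          rw [add_comm]
          exact Real.add_one_le_exp _
      _ = Real.exp (I.q * (1 / 2 ^ s)) := (Real.exp_nat_mul _ _).symm
      _ ≤ Real.exp (Real.log 2) := by
          refine Real.exp_le_exp.2 ?_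
          have : (I.q : ℝ) * (1 / 2 ^ s) ≤ 1 / 2 := by
            rw [mul_one_div, div_le_div_iff₀ (by positivity) (by norm_num)]
            linarith
          linarith [Real.log_two_gt_d9]
      _ = 2 := Real.exp_log (by norm_num)
  refine s1.trans (s2.le.trans (s3.trans ?_))
  rw [prod_mul_distrib, prod_const, card_range, prod_div_distrib, prod_const_one, ← Nat.cast_prod,
    mul_one_div]
  exact div_le_div_of_nonneg_right s4 (Nat.cast_nonneg _)

/-- Total stationary weight for good class exponents. -/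
lemma Sz.sum_pit (H : I.Sz s) {θ : Th} (hM : θ.1 ≤ pM0 s) (hu : I.GoodU s θ.1 θ.2.1) :
    I.Zt s θ.1 0 0 ≤ ∑ S ∈ I.OmL s θ.1, I.pit s θ S ∧
      ∑ S ∈ I.OmL s θ.1, I.pit s θ S ≤ 4 * s ^ 2 * I.Zt s θ.1 0 0 := by
  have e0 : ∑ S ∈ (I.OmL s θ.1).filter (fun S => I.isCls S 0 0 = true), I.pit s θ S =
      I.Zt s θ.1 0 0 := by
    refine sum_congr rfl fun S hS => ?_
    rw [pit_eq, uu_of_isCls_zero (mem_filter.1 hS).2, zpow_zero, one_mul]
  have hZ : 0 ≤ I.Zt s θ.1 0 0 := Zt_nonneg _ _ _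
  refine ⟨?_, ?_⟩
  · rw [← e0]
    exact sum_le_sum_of_subset_of_nonneg (filter_subset _ _) fun S _ _ => (pit_pos θ S).le
  · refine (H.sum_OmL_le hM fun S => (pit_pos θ S).le).trans ?_
    rw [e0]
    have a1 : ∑ i ∈ range I.nv, ∑ j ∈ range I.nv, (if i ≠ j then
        ∑ S ∈ (I.OmL s θ.1).filter (fun S => I.isCls S i j = true), I.pit s θ S else 0) ≤
        ∑ i ∈ range I.nv, ∑ j ∈ range I.nv,
          (4 * I.Zt s θ.1 0 0 - if i = j then 4 * I.Zt s θ.1 0 0 else 0) := by
      refine sum_le_sum fun i hi => sum_le_sum fun j hj => ?_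
      by_cases hij : i = j
      · rw [if_neg (not_not.2 hij), if_pos hij, sub_self]
      · rw [if_pos hij, if_neg hij, sub_zero]
        refine le_trans (le_of_eq ?_) (hu i (mem_range.1 hi) j (mem_range.1 hj) hij).2
        unfold Zt
        rw [mul_sum]
        refine sum_congr rfl fun S hS => ?_
        rw [pit_eq, uu_of_isCls (mem_range.1 hi) (mem_range.1 hj) hij (mem_filter.1 hS).2]
    have a2 : ∑ i ∈ range I.nv, ∑ j ∈ range I.nv,
          (4 * I.Zt s θ.1 0 0 - if i = j then 4 * I.Zt s θ.1 0 0 else 0) =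
        I.nv * (I.nv * (4 * I.Zt s θ.1 0 0) - 4 * I.Zt s θ.1 0 0) := by
      rw [← nsmul_eq_mul, ← card_range I.nv, ← sum_const, card_range]
      refine sum_congr rfl fun i hi => ?_
      rw [sum_sub_distrib, sum_ite_eq, if_pos hi, sum_const, card_range, nsmul_eq_mul]
    have a3 : (1 : ℝ) ≤ I.nv := by exact_mod_cast Nat.succ_pos _
    have a4 : (I.nv : ℝ) ≤ s := by exact_mod_cast H.nv_le
    have a5 : (I.nv : ℝ) ^ 2 ≤ s ^ 2 := pow_le_pow_left₀ (by linarith) a4 2
    rw [a2] at a1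
    nlinarith [mul_le_mul_of_nonneg_right a5 hZ, mul_le_mul_of_nonneg_right a3 hZ]

end Inst

end Crest.Agent.R309
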