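import Crest.Agent.R309.Boost
import Crest.Agent.R309.JVV

/-! Row 309: the tree of a table problem. -/

set_option autoImplicit false

namespace Crest.Agent.R309

open Finset Crest.Agent.Lib.PT Crest.Tables

/-! ### bit strings and numbers -/

/-- the number with the bits `f 0, …, f (L - 1)`, most significant bit first -/
def tab_val (L : ℕ) (f : ℕ → Bool) : ℕ := ∑ k ∈ range L, if f k then 2 ^ (L - 1 - k) else 0

theorem tab_val_succ (L : ℕ) (f : ℕ → Bool) :
    tab_val (L + 1) f = 2 * tab_val L f + if f L then 1 else 0 := by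
  unfold tab_val
  rw [sum_range_succ, mul_sum]
  congr 1
  · refine sum_congr rfl fun k hk => ?_
    rw [mem_range] at hk
    split_ifs
    · rw [show L + 1 - 1 - k = (L - 1 - k) + 1 by omega, pow_succ]; ring
    · rfl
  · simp

theorem tab_val_congr {L : ℕ} {f g : ℕ → Bool} (h : ∀ k < L, f k = g k) :
    tab_val L f = tab_val L g :=
  sum_congr rfl fun k hk => by rw [h k (mem_range.1 hk)]

theorem tab_val_lt (L : ℕ) (f : ℕ → Bool) : tab_val L f < 2 ^ L := by
  induction L with
  | zero => simp [tab_val]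
  | succ L ih => rw [tab_val_succ, pow_succ]; split_ifs <;> omega

theorem tab_val_testBit {L : ℕ} (f : ℕ → Bool) {k : ℕ} (hk : k < L) :
    (tab_val L f).testBit (L - 1 - k) = f k := by
  induction L with
  | zero => omega
  | succ L ih =>
    rw [tab_val_succ]
    rcases Nat.lt_succ_iff_lt_or_eq.1 hk with h | rfl
    · rw [show L + 1 - 1 - k = (L - 1 - k) + 1 by omega, Nat.testBit_succ, ← ih h]
      congr 1
      split_ifs <;> omega
    · rw [show k + 1 - 1 - k = 0 by omega, Nat.testBit_zero]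
      cases f k <;> simp

theorem tab_val_inj {L : ℕ} {f g : ℕ → Bool} (h : tab_val L f = tab_val L g) {k : ℕ} (hk : k < L) :
    f k = g k := by
  rw [← tab_val_testBit f hk, ← tab_val_testBit g hk, h]

theorem tab_val_bits {L x : ℕ} (hx : x < 2 ^ L) :
    tab_val L (fun k => x.testBit (L - 1 - k)) = x := by
  refine Nat.eq_of_testBit_eq fun i => ?_
  rcases lt_or_ge i L with h | h
  · have := tab_val_testBit (L := L) (fun k => x.testBit (L - 1 - k)) (k := L - 1 - i) (by omega)
    rwa [show L - 1 - (L - 1 - i) = i by omega] at this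
  · have h2 : 2 ^ L ≤ 2 ^ i := Nat.pow_le_pow_right two_pos h
    rw [Nat.testBit_lt_two_pow ((tab_val_lt _ _).trans_le h2),
      Nat.testBit_lt_two_pow (hx.trans_le h2)]

theorem tab_val_add (p q : ℕ) (f : ℕ → Bool) :
    tab_val (p + q) f = 2 ^ q * tab_val p f + tab_val q fun k => f (p + k) := by
  induction q with
  | zero => simp [tab_val]
  | succ q ih => rw [← add_assoc, tab_val_succ, tab_val_succ, ih, pow_succ]; ring

theorem tab_val_prefix {p L : ℕ} (hp : p ≤ L) {f g : ℕ → Bool}
    (hg : ∀ k, p ≤ k → k < L → g k = false) :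
    (∀ k < p, f k = g k) ↔
      tab_val L g ≤ tab_val L f ∧ tab_val L f ≤ tab_val L g + (2 ^ (L - p) - 1) := by
  obtain ⟨q, rfl⟩ := Nat.exists_eq_add_of_le hp
  rw [tab_val_add, tab_val_add, Nat.add_sub_cancel_left]
  have h0 : (tab_val q fun k => g (p + k)) = 0 :=
    sum_eq_zero fun k hk => by
      simp [hg (p + k) (by omega) (by have := mem_range.1 hk; omega)]
  have h1 := tab_val_lt q fun k => f (p + k)
  rw [h0, add_zero]
  constructor
  · intro h
    rw [tab_val_congr h]
    omega
  · rintro ⟨h2, h3⟩ k hk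
    refine tab_val_inj (L := p) ?_ hk
    rcases lt_trichotomy (tab_val p f) (tab_val p g) with h | h | h
    · have := Nat.mul_le_mul_left (2 ^ q) (Nat.succ_le_of_lt h)
      rw [Nat.mul_succ] at this
      omega
    · exact h
    · have := Nat.mul_le_mul_left (2 ^ q) (Nat.succ_le_of_lt h)
      rw [Nat.mul_succ] at this
      omega

theorem tab_cell_eq (L : ℕ) (w : List Bool) (c : ℕ) :
    cell L w c = tab_val L fun k => w.getD (c * L + k) false := rfl

theorem tab_idx_lt {M L c k : ℕ} (hc : c < M) (hk : k < L) : c * L + k < M * L := by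
  have := Nat.mul_le_mul_right L (Nat.succ_le_of_lt hc)
  rw [Nat.succ_mul] at this
  omega

theorem tab_idx_ex {M L i : ℕ} (h : i < M * L) : ∃ c < M, ∃ k < L, i = c * L + k := by
  have hL : 0 < L := Nat.pos_of_ne_zero fun h0 => by simp [h0] at h
  exact ⟨i / L, Nat.div_lt_of_lt_mul (by rwa [mul_comm] at h), i % L, Nat.mod_lt _ hL,
    (Nat.div_add_mod' i L).symm⟩

theorem tab_idx_div {L c k : ℕ} (hk : k < L) : (c * L + k) / L = c := by
  rw [add_comm, Nat.add_mul_div_right _ _ (by omega), Nat.div_eq_of_lt hk, zero_add]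

theorem tab_idx_mod {L c k : ℕ} (hk : k < L) : (c * L + k) % L = k := by
  rw [add_comm, Nat.add_mul_mod_self_right, Nat.mod_eq_of_lt hk]

theorem tab_take_iff {M L : ℕ} {x w : List Bool} (hx : x.length = M * L) (hw : w.length ≤ M * L) :
    x.take w.length = w ↔
      ∀ c < M, cell L w c ≤ cell L x c ∧ cell L x c ≤ cell L w c + slack L w c := by
  have h1 : x.take w.length = w ↔ ∀ i < w.length, x.getD i false = w.getD i false := by
    constructor
    · intro h i hi
      conv_rhs => rw [← h]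
      simp [List.getD_eq_getElem?_getD, hi]
    · intro h
      refine List.ext_getElem (by rw [List.length_take]; omega) fun i h1 h2 => ?_
      have := h i h2
      rw [List.getD_eq_getElem _ _ (by omega), List.getD_eq_getElem _ _ h2] at this
      rw [List.getElem_take, this]
  have h2 : ∀ c, (∀ k < min L (w.length - c * L),
      x.getD (c * L + k) false = w.getD (c * L + k) false) ↔
      cell L w c ≤ cell L x c ∧ cell L x c ≤ cell L w c + slack L w c := by
    intro c
    rw [tab_cell_eq, tab_cell_eq, slack,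
      show L - (w.length - c * L) = L - min L (w.length - c * L) by omega]
    refine tab_val_prefix (min_le_left _ _) fun k hk hk' => ?_
    exact List.getD_eq_default _ _ (by omega)
  rw [h1]
  constructor
  · intro h c _
    exact (h2 c).1 fun k hk => h _ (by omega)
  · intro h i hi
    obtain ⟨c, hc, k, hk, rfl⟩ := tab_idx_ex (hi.trans_le hw)
    exact (h2 c).2 (h c hc) k (by omega)

theorem tab_getD_map {β : Type} (M : ℕ) (f : ℕ → β) (d : β) {c : ℕ} (hc : c < M) :
    ((List.range M).map f).getD c d = f c := by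
  rw [List.getD_eq_getElem _ _ (by simpa using hc)]
  simp

theorem tab_cell_tenc (rs cs X : List ℕ) {c : ℕ} (hc : c < rs.length * cs.length)
    (hX : X.getD c 0 < 2 ^ tL rs) : cell (tL rs) (tenc rs cs X) c = X.getD c 0 := by
  rw [tab_cell_eq]
  conv_rhs => rw [← tab_val_bits hX]
  refine tab_val_congr fun k hk => ?_
  rw [tenc, tD, tab_getD_map _ _ _ (tab_idx_lt hc hk), tab_idx_div hk, tab_idx_mod hk]

theorem tab_ofFn_eq {β : Type} (M : ℕ) (f : ℕ → β) :
    (List.range M).map f = List.ofFn fun i : Fin M => f i := by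
  refine List.ext_getElem (by simp) fun i h1 h2 => by simp

theorem tab_overlap {a b : ℕ} (hab : a ≤ b) {B : ℕ → ℕ} (h0 : B 0 = 0) (hB : ∀ j, B j ≤ B (j + 1))
    (k : ℕ) : ∑ j ∈ range k, (min b (B (j + 1)) - max a (B j)) = min b (B k) - min a (B k) := by
  induction k with
  | zero => simp [h0]
  | succ k ih =>
    rw [sum_range_succ, ih]
    have := hB k
    omega

theorem tab_take_succ (l : List ℕ) (i : ℕ) : (l.take (i + 1)).sum = (l.take i).sum + l.getD i 0 := by
  rcases lt_or_ge i l.length with h | h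
  · rw [List.sum_take_succ _ _ h, List.getD_eq_getElem _ _ h]
  · rw [List.take_of_length_le h, List.take_of_length_le (by omega), List.getD_eq_default _ _ h,
      add_zero]

theorem tab_take_le (l : List ℕ) (i : ℕ) : (l.take i).sum ≤ l.sum := by
  conv_rhs => rw [← List.take_append_drop i l, List.sum_append]
  omega

variable {m n : ℕ} (rs : Fin m → ℕ) (cs : Fin n → ℕ)

theorem tab_getD_ofFn (i : Fin m) : (List.ofFn rs).getD i 0 = rs i := by
  rw [List.getD_eq_getElem _ _ (by simp)]
  simp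

theorem tab_eq_flat {l : List ℕ} {X : Fin m → Fin n → ℕ} (hl : l.length = m * n)
    (h : ∀ (i : Fin m) (j : Fin n), l.getD (i * n + j) 0 = X i j) : l = flat X := by
  refine List.ext_getElem (by rw [hl, length_flat]) fun c h1 h2 => ?_
  obtain ⟨i, hi, j, hj, rfl⟩ := tab_idx_ex (hl ▸ h1)
  have e1 := h ⟨i, hi⟩ ⟨j, hj⟩
  have e2 := getD_flat X ⟨i, hi⟩ ⟨j, hj⟩
  rw [List.getD_eq_getElem _ _ h1] at e1
  rw [List.getD_eq_getElem _ _ h2] at e2
  exact e1.trans e2.symm

/-- the matrix of the cells of a bit string -/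
def tab_of (n : ℕ) (w : List Bool) (i : Fin m) (j : Fin n) : ℕ :=
  cell (tL (List.ofFn rs)) w (i * n + j)

theorem tab_rowS (w : List Bool) (i : Fin m) :
    rowS (List.ofFn rs) (List.ofFn cs) w i = ∑ j, tab_of rs n w i j := by
  simp only [rowS, List.length_ofFn, tab_of]
  exact (Fin.sum_univ_eq_sum_range (fun j => cell (tL (List.ofFn rs)) w (i * n + j)) n).symm

theorem tab_colS (w : List Bool) (j : Fin n) :
    colS (List.ofFn rs) (List.ofFn cs) w j = ∑ i, tab_of rs n w i j := by
  simp only [colS, List.length_ofFn, tab_of]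
  exact (Fin.sum_univ_eq_sum_range (fun i => cell (tL (List.ofFn rs)) w (i * n + j)) m).symm

theorem tab_tval (w : List Bool) :
    tval (List.ofFn rs) (List.ofFn cs) w = true ↔ IsTable rs cs (tab_of rs n w) := by
  simp only [tval, Bool.and_eq_true, decide_eq_true_eq, List.length_ofFn, IsTable]
  refine and_congr ⟨fun h i => ?_, fun h i hi => ?_⟩ ⟨fun h j => ?_, fun h j hj => ?_⟩
  · rw [← tab_rowS rs cs, h i i.2, tab_getD_ofFn]
  · exact (tab_rowS rs cs w ⟨i, hi⟩).trans ((h _).trans (tab_getD_ofFn rs ⟨i, hi⟩).symm)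
  · rw [← tab_colS rs cs, h j j.2, tab_getD_ofFn]
  · exact (tab_colS rs cs w ⟨j, hj⟩).trans ((h _).trans (tab_getD_ofFn cs ⟨j, hj⟩).symm)

theorem tab_tfeas (w : List Bool) :
    tfeas (List.ofFn rs) (List.ofFn cs) w = true ↔
      (∀ i, ∑ j, tab_of rs n w i j ≤ rs i) ∧ ∀ j, ∑ i, tab_of rs n w i j ≤ cs j := by
  simp only [tfeas, Bool.and_eq_true, decide_eq_true_eq, List.length_ofFn]
  refine and_congr ⟨fun h i => ?_, fun h i hi => ?_⟩ ⟨fun h j => ?_, fun h j hj => ?_⟩
  · rw [← tab_rowS rs cs, ← tab_getD_ofFn rs i]; exact h i i.2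
  · exact (tab_rowS rs cs w ⟨i, hi⟩).trans_le ((h _).trans (tab_getD_ofFn rs ⟨i, hi⟩).ge)
  · rw [← tab_colS rs cs, ← tab_getD_ofFn cs j]; exact h j j.2
  · exact (tab_colS rs cs w ⟨j, hj⟩).trans_le ((h _).trans (tab_getD_ofFn cs ⟨j, hj⟩).ge)

theorem tab_tdec (w : List Bool) : tdec (List.ofFn rs) (List.ofFn cs) w = flat (tab_of rs n w) := by
  refine tab_eq_flat (by simp [tdec]) fun i j => ?_
  rw [tdec, tab_getD_map _ _ _ (by simpa using tab_idx_lt i.2 j.2)]
  rfl

theorem tab_entry_le {X : Fin m → Fin n → ℕ} (h : IsTable rs cs X) (i : Fin m) (j : Fin n) :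
    X i j ≤ ∑ i, rs i :=
  (single_le_sum (f := X i) (fun _ _ => Nat.zero_le _) (mem_univ j)).trans
    ((h.1 i).trans_le (single_le_sum (f := rs) (fun _ _ => Nat.zero_le _) (mem_univ i)))

theorem tab_sum_lt : ∑ i, rs i < 2 ^ tL (List.ofFn rs) := by
  rw [tL, List.sum_ofFn]
  exact Nat.lt_size_self _

theorem tab_of_tenc {X : Fin m → Fin n → ℕ} (h : IsTable rs cs X) :
    tab_of rs n (tenc (List.ofFn rs) (List.ofFn cs) (flat X)) = X := by
  funext i j
  rw [tab_of, tab_cell_tenc _ _ _ (by simpa using tab_idx_lt i.2 j.2), getD_flat]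
  rw [getD_flat]
  exact (tab_entry_le rs cs h i j).trans_lt (tab_sum_lt rs)

theorem tab_card {b : Fin m → Fin n → ℕ} (S : Finset (List Bool))
    (φ : List Bool → Fin m → Fin n → ℕ)
    (h1 : ∀ x ∈ S, (∀ i j, φ x i j ≤ b i j) ∧ IsTable rs cs (φ x))
    (h2 : ∀ x ∈ S, ∀ y ∈ S, φ x = φ y → x = y)
    (h3 : ∀ X : Fin m → Fin n → ℕ, (∀ i j, X i j ≤ b i j) → IsTable rs cs X → ∃ x ∈ S, φ x = X) :
    S.card = numBoundedTables rs cs b := by
  rw [numBoundedTables, Fintype.card_subtype]
  refine card_bij (fun x hx i j => ⟨φ x i j, Nat.lt_succ_of_le ((h1 x hx).1 i j)⟩) ?_ ?_ ?_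
  · intro x hx
    exact mem_filter.2 ⟨mem_univ _, (h1 x hx).2⟩
  · intro x hx y hy e
    refine h2 x hx y hy ?_
    funext i j
    exact congrArg Fin.val (congrFun (congrFun e i) j)
  · intro X hX
    obtain ⟨x, hx, e⟩ := h3 (fun i j => X i j) (fun i j => Nat.le_of_lt_succ (X i j).2)
      (mem_filter.1 hX).2
    refine ⟨x, hx, ?_⟩
    funext i j
    exact Fin.ext (congrFun (congrFun e i) j)

theorem tdec_isTable {w : List Bool} (h : w ∈ tOm (List.ofFn rs) (List.ofFn cs)) :
    ∃ X : Fin m → Fin n → ℕ, IsTable rs cs X ∧ tdec (List.ofFn rs) (List.ofFn cs) w = flat X := by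
  exact ⟨tab_of rs n w, (tab_tval rs cs w).1 (mem_leaves.1 h).2, tab_tdec rs cs w⟩

/-- Every entry of a table is at most `N < 2 ^ L`. -/
theorem tenc_mem {X : Fin m → Fin n → ℕ} (h : IsTable rs cs X) :
    tenc (List.ofFn rs) (List.ofFn cs) (flat X) ∈ tOm (List.ofFn rs) (List.ofFn cs) ∧
      tdec (List.ofFn rs) (List.ofFn cs) (tenc (List.ofFn rs) (List.ofFn cs) (flat X)) = flat X := by
  refine ⟨mem_leaves.2 ⟨by simp [tenc], (tab_tval rs cs _).2 ?_⟩, ?_⟩
  · rwa [tab_of_tenc rs cs h]
  · rw [tab_tdec, tab_of_tenc rs cs h]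

theorem tdec_injOn {rs cs : List ℕ} {w w' : List Bool} (h : w ∈ tOm rs cs) (h' : w' ∈ tOm rs cs)
    (e : tdec rs cs w = tdec rs cs w') : w = w' := by
  have h1 := (mem_leaves.1 h).1
  have h2 := (mem_leaves.1 h').1
  refine List.ext_getElem (h1.trans h2.symm) fun i hi hi' => ?_
  obtain ⟨c, hc, k, hk, rfl⟩ := tab_idx_ex (M := rs.length * cs.length) (L := tL rs) (h1 ▸ hi)
  have e1 := congrArg (fun l => l.getD c 0) e
  simp only [tdec] at e1
  rw [tab_getD_map _ _ _ hc, tab_getD_map _ _ _ hc, tab_cell_eq, tab_cell_eq] at e1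
  have e2 := tab_val_inj e1 hk
  rwa [List.getD_eq_getElem _ _ hi, List.getD_eq_getElem _ _ hi'] at e2

theorem card_tOm : (tOm (List.ofFn rs) (List.ofFn cs)).card =
    numBoundedTables rs cs (fun _ _ => ∑ i, rs i) := by
  refine tab_card rs cs _ (tab_of rs n) (fun x hx => ?_) (fun x hx y hy e => ?_) fun X _ hX => ?_
  · have := (tab_tval rs cs x).1 (mem_leaves.1 hx).2
    exact ⟨tab_entry_le rs cs this, this⟩
  · exact tdec_injOn hx hy (by rw [tab_tdec, tab_tdec, e])
  · exact ⟨_, (tenc_mem rs cs hX).1, tab_of_tenc rs cs hX⟩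

/-- Row `i` is the interval `[A i, A (i+1))` of partial sums, and the column intervals partition
`[0, N)`: `∑ j < k, (min b (B (j+1)) - max a (B j)) = min b (B k) - min a (B k)` for `a ≤ b` and `B`
monotone with `B 0 = 0`. -/
theorem nw_isTable (h : ∑ i, rs i = ∑ j, cs j) :
    ∃ X : Fin m → Fin n → ℕ, IsTable rs cs X ∧ nw (List.ofFn rs) (List.ofFn cs) = flat X := by
  set A : ℕ → ℕ := fun i => ((List.ofFn rs).take i).sum with hA
  set B : ℕ → ℕ := fun j => ((List.ofFn cs).take j).sum with hB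
  have hA1 : ∀ i, A (i + 1) = A i + (List.ofFn rs).getD i 0 := tab_take_succ _
  have hB1 : ∀ j, B (j + 1) = B j + (List.ofFn cs).getD j 0 := tab_take_succ _
  have hAm : A m = ∑ i, rs i := by
    simp only [hA]; rw [List.take_of_length_le (by simp), List.sum_ofFn]
  have hBn : B n = ∑ j, cs j := by
    simp only [hB]; rw [List.take_of_length_le (by simp), List.sum_ofFn]
  have hA2 : ∀ i, A i ≤ ∑ i, rs i := fun i => (tab_take_le _ i).trans_eq List.sum_ofFn
  have hB2 : ∀ j, B j ≤ ∑ j, cs j := fun j => (tab_take_le _ j).trans_eq List.sum_ofFn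
  refine ⟨fun i j => min (A (i + 1)) (B (j + 1)) - max (A i) (B j), ⟨fun i => ?_, fun j => ?_⟩, ?_⟩
  · rw [Fin.sum_univ_eq_sum_range (fun j => min (A (i + 1)) (B (j + 1)) - max (A i) (B j)) n,
      tab_overlap (by rw [hA1]; omega) (by simp [hB]) (fun j => by rw [hB1]; omega)]
    have e1 := hA1 i
    have e2 := hA2 (i + 1)
    rw [tab_getD_ofFn] at e1
    omega
  · simp only [min_comm (A _), max_comm (A _)]
    rw [Fin.sum_univ_eq_sum_range (fun i => min (B (j + 1)) (A (i + 1)) - max (B j) (A i)) m,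
      tab_overlap (by rw [hB1]; omega) (by simp [hA]) (fun j => by rw [hA1]; omega)]
    have e1 := hB1 j
    have e2 := hB2 (j + 1)
    rw [tab_getD_ofFn] at e1
    omega
  · refine tab_eq_flat (by simp [nw]) fun i j => ?_
    rw [nw, tab_getD_map _ _ _ (by simpa using tab_idx_lt i.2 j.2), List.length_ofFn,
      tab_idx_div j.2, tab_idx_mod j.2]

theorem tx0_mem (h : ∑ i, rs i = ∑ j, cs j) :
    tx0 (List.ofFn rs) (List.ofFn cs) ∈ tOm (List.ofFn rs) (List.ofFn cs) := by
  obtain ⟨X, hX, e⟩ := nw_isTable rs cs h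
  rw [tx0, e]
  exact (tenc_mem rs cs hX).1

/-- A bit string `x` of length `D` extends `w` iff `cell w c ≤ cell x c ≤ cell w c + slack w c` for
all cells `c`; so `x ↦ (cell x c - cell w c)_c` is a bijection from the valid leaves below `w` to the
tables of the residual problem (`cnt_tinst`). -/
theorem below_eq {w : List Bool} (hw : w.length ≤ tD (List.ofFn rs) (List.ofFn cs)) :
    below (tD (List.ofFn rs) (List.ofFn cs)) (tval (List.ofFn rs) (List.ofFn cs)) w =
      if tfeas (List.ofFn rs) (List.ofFn cs) w then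
        (tinst (resR (List.ofFn rs) (List.ofFn cs) w) (resC (List.ofFn rs) (List.ofFn cs) w)
          (resB (List.ofFn rs) (List.ofFn cs) w)).cnt else 0 := by
  have hD : tD (List.ofFn rs) (List.ofFn cs) = m * n * tL (List.ofFn rs) := by simp [tD]
  have key : ∀ x ∈ tOm (List.ofFn rs) (List.ofFn cs), x.take w.length = w ↔
      ∀ (i : Fin m) (j : Fin n), tab_of rs n w i j ≤ tab_of rs n x i j ∧
        tab_of rs n x i j ≤ tab_of rs n w i j + slack (tL (List.ofFn rs)) w (i * n + j) := by
    intro x hx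
    rw [tab_take_iff ((mem_leaves.1 hx).1.trans hD) (hw.trans_eq hD)]
    refine ⟨fun h i j => h _ (tab_idx_lt i.2 j.2), fun h c hc => ?_⟩
    obtain ⟨i, hi, j, hj, rfl⟩ := tab_idx_ex hc
    exact h ⟨i, hi⟩ ⟨j, hj⟩
  split_ifs with hf
  · rw [tab_tfeas] at hf
    have eR : resR (List.ofFn rs) (List.ofFn cs) w =
        List.ofFn fun i : Fin m => rs i - ∑ j, tab_of rs n w i j := by
      rw [resR, List.length_ofFn, tab_ofFn_eq]
      congr 1
      funext i
      rw [tab_getD_ofFn, tab_rowS]
    have eC : resC (List.ofFn rs) (List.ofFn cs) w =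
        List.ofFn fun j : Fin n => cs j - ∑ i, tab_of rs n w i j := by
      rw [resC, List.length_ofFn, tab_ofFn_eq]
      congr 1
      funext j
      rw [tab_getD_ofFn, tab_colS]
    have eB : ∀ (i : Fin m) (j : Fin n), (resB (List.ofFn rs) (List.ofFn cs) w).getD (i * n + j) 0 =
        slack (tL (List.ofFn rs)) w (i * n + j) := fun i j => by
      rw [resB, tab_getD_map _ _ _ (by simpa using tab_idx_lt i.2 j.2)]
    rw [eR, eC, cnt_tinst]
    simp only [eB]
    refine tab_card _ _ _ (fun x i j => tab_of rs n x i j - tab_of rs n w i j) (fun x hx => ?_)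
      (fun x hx y hy e => ?_) fun X hX hX' => ?_
    · obtain ⟨hx1, hx2⟩ := mem_filter.1 hx
      have h1 := (key x hx1).1 hx2
      have h2 := (tab_tval rs cs x).1 (mem_leaves.1 hx1).2
      refine ⟨fun i j => ?_, fun i => ?_, fun j => ?_⟩
      · have := h1 i j; omega
      · rw [sum_tsub_distrib _ fun j _ => (h1 i j).1, h2.1 i]
      · rw [sum_tsub_distrib _ fun i _ => (h1 i j).1, h2.2 j]
    · obtain ⟨hx1, hx2⟩ := mem_filter.1 hx
      obtain ⟨hy1, hy2⟩ := mem_filter.1 hy
      refine tdec_injOn hx1 hy1 ?_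
      rw [tab_tdec, tab_tdec]
      congr 1
      funext i j
      have h1 := (key x hx1).1 hx2 i j
      have h2 := (key y hy1).1 hy2 i j
      have h3 : tab_of rs n x i j - tab_of rs n w i j = tab_of rs n y i j - tab_of rs n w i j :=
        congrFun (congrFun e i) j
      omega
    · have hT : IsTable rs cs fun i j => tab_of rs n w i j + X i j := by
        refine ⟨fun i => ?_, fun j => ?_⟩
        · rw [sum_add_distrib, hX'.1 i]; exact Nat.add_sub_cancel' (hf.1 i)
        · rw [sum_add_distrib, hX'.2 j]; exact Nat.add_sub_cancel' (hf.2 j)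
      have h1 := (tenc_mem rs cs hT).1
      have h2 := tab_of_tenc rs cs hT
      refine ⟨_, mem_filter.2 ⟨h1, (key _ h1).2 fun i j => ?_⟩, ?_⟩
      · rw [h2]; exact ⟨Nat.le_add_right _ _, Nat.add_le_add_left (hX i j) _⟩
      · rw [h2]; funext i j; simp
  · rw [below, card_eq_zero, filter_eq_empty_iff]
    intro x hx hx2
    apply hf
    have h1 := (key x hx).1 hx2
    have h2 := (tab_tval rs cs x).1 (mem_leaves.1 hx).2
    rw [tab_tfeas]
    exact ⟨fun i => (sum_le_sum fun j _ => (h1 i j).1).trans_eq (h2.1 i),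
      fun j => (sum_le_sum fun i _ => (h1 i j).1).trans_eq (h2.2 j)⟩

/-- `doeb_jstep`, `below_eq`, `TSz.best_good`. -/
theorem doeb_tstep (h : ∑ i, rs i = ∑ j, cs j) :
    Doeb (tOm (List.ofFn rs) (List.ofFn cs)) (tR (List.ofFn rs) (List.ofFn cs))
      (tstep (List.ofFn rs) (List.ofFn cs)) := by
  refine doeb_jstep (D := tD (List.ofFn rs) (List.ofFn cs)) (s := tS (List.ofFn rs) (List.ofFn cs))
    (val := tval (List.ofFn rs) (List.ofFn cs)) (r := tRe (List.ofFn rs) (List.ofFn cs))
    (est := tEst (List.ofFn rs) (List.ofFn cs)) (by unfold tS; omega) fun w hw => ?_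
  rw [below_eq rs cs hw.le]
  unfold tEst
  split_ifs with hf
  · have hL : 2 ^ tL (List.ofFn rs) ≤ 2 ^ tS (List.ofFn rs) (List.ofFn cs) :=
      Nat.pow_le_pow_right two_pos (by unfold tS; omega)
    have hN := (tab_sum_lt rs).trans_le hL
    refine TSz.best_good ⟨by unfold tS; omega, ?_, ?_, ?_, ?_⟩ _
    · simp only [resR, resC, List.length_map, List.length_range, tS]; omega
    · intro x hx
      simp only [resR, List.mem_map, List.mem_range, List.length_ofFn] at hx
      obtain ⟨i, hi, rfl⟩ := hx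
      have h1 := tab_getD_ofFn rs ⟨i, hi⟩
      have h2 := single_le_sum (f := rs) (fun _ _ => Nat.zero_le _) (mem_univ ⟨i, hi⟩)
      simp only at h1
      omega
    · intro x hx
      simp only [resC, List.mem_map, List.mem_range, List.length_ofFn] at hx
      obtain ⟨j, hj, rfl⟩ := hx
      have h1 := tab_getD_ofFn cs ⟨j, hj⟩
      have h2 := single_le_sum (f := cs) (fun _ _ => Nat.zero_le _) (mem_univ ⟨j, hj⟩)
      simp only at h1
      omega
    · intro x hx
      simp only [resB, List.mem_map] at hx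
      obtain ⟨c, -, rfl⟩ := hx
      have h1 : 2 ^ (tL (List.ofFn rs) - (w.length - c * tL (List.ofFn rs))) ≤
          2 ^ tL (List.ofFn rs) := Nat.pow_le_pow_right two_pos (Nat.sub_le _ _)
      have h2 := Nat.two_pow_pos (tL (List.ofFn rs) - (w.length - c * tL (List.ofFn rs)))
      unfold slack
      omega
  · rw [Pr_congr (Q := fun _ => False) (fun l _ => by simp), Pr_false]
    positivity

end Crest.Agent.R309
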