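import Crest.Agent.R309.Alg
import Crest.Prelude.Def_Tables

/-!
Row 309: definitions for tables: the flow instance of a table problem, the boosted estimate, the
self-reduction tree (bit strings, most significant bit first, cell by cell), the symmetric kernel, and
the round of the exact sampler.
-/

set_option autoImplicit false

namespace Crest.Agent.R309

open Finset Crest.Agent.Lib.PT

/-! ### boosting -/

/-- The least entry `z` such that more than half of the entries are `≤ z`. -/
def med (l : List ℚ) : ℚ :=
  ((l.filter fun z => decide (l.length < 2 * l.countP fun y => decide (y ≤ z))).argmin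
    fun z => z).getD 0

/-- The flow instance: rows are the vertices `< m`, columns the vertices `m + j`, the cell `(i, j)` is
the edge `i * n + j`; `b` is the flat list of cell bounds. -/
def tinst (rs cs b : List ℕ) : Inst :=
  ((List.range (rs.length * cs.length)).map fun e => e / cs.length,
    (List.range (rs.length * cs.length)).map fun e => rs.length + e % cs.length,
    (List.range (rs.length * cs.length)).map fun e => b.getD e 0,
    rs.map (fun x : ℕ => (x : ℤ)) ++ cs.map fun x : ℕ => -(x : ℤ))

/-- The median of `k` independent estimates. -/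
def best (rs cs b : List ℕ) (s k : ℕ) (ω : List Bool) : ℚ :=
  med ((chunks k (rTot s) ω).map ((tinst rs cs b).est s))

/-- Size condition. -/
structure TSz (rs cs b : List ℕ) (s : ℕ) : Prop where
  big : 100 ≤ s
  dim : rs.length * cs.length + rs.length + cs.length + 1 ≤ s
  rs_lt : ∀ x ∈ rs, x < 2 ^ s
  cs_lt : ∀ x ∈ cs, x < 2 ^ s
  b_lt : ∀ x ∈ b, x < 2 ^ s

/-- A matrix as the flat list of its entries, row by row. -/
def flat {m n : ℕ} (X : Fin m → Fin n → ℕ) : List ℕ := (List.ofFn fun i => List.ofFn (X i)).flatten

/-! ### interval descent in a binary tree of depth `D` with integer node weights `u` -/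

/-- one step of the descent -/
def dstep (u : List Bool → ℕ) (st : List Bool × ℕ) : List Bool × ℕ :=
  if st.2 < u (st.1 ++ [false]) then (st.1 ++ [false], st.2)
  else (st.1 ++ [true], st.2 - u (st.1 ++ [false]))

/-- the leaf reached from the number `U`, if any -/
def hit (D : ℕ) (u : List Bool → ℕ) (U : ℕ) : Option (List Bool) :=
  if ((dstep u)^[D] ([], U)).2 < u ((dstep u)^[D] ([], U)).1 then some ((dstep u)^[D] ([], U)).1
  else none

/-- the only number that can lead to the leaf `x` -/
def pos (D : ℕ) (u : List Bool → ℕ) (x : List Bool) : ℕ :=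
  ∑ k ∈ range D, if x.getD k false then u (x.take k ++ [false]) else 0

/-- the number of bits used -/
def qq (D : ℕ) (u : List Bool → ℕ) : ℕ := min (D + 2) (Nat.size (u []))

/-- The symmetric step: if `x` is reachable, jump to the leaf hit by a random number. -/
def jstep (D : ℕ) (u : List Bool → ℕ) (x ω : List Bool) : List Bool :=
  if pos D u x < 2 ^ qq D u ∧ hit D u (pos D u x) = some x then
    (hit D u (ofBits (ω.take (D + 2)) % 2 ^ qq D u)).getD x else x

/-- Node weights from estimates with relative error `1 / s`. -/
def uOf (D s : ℕ) (val : List Bool → Bool) (est : List Bool → ℚ) (w : List Bool) : ℕ :=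
  if D ≤ w.length then (if val w then 1 else 0)
  else ⌊est w * (1 + 3 / (s : ℚ)) ^ (D - w.length)⌋₊

/-- the valid leaves -/
def leaves (D : ℕ) (val : List Bool → Bool) : Finset (List Bool) := ((allBits D).filter val).toFinset

/-- the number of valid leaves below the node `w` -/
def below (D : ℕ) (val : List Bool → Bool) (w : List Bool) : ℕ :=
  ((leaves D val).filter fun x => x.take w.length = w).card

/-! ### the tree of a table problem -/

/-- bits per cell -/
def tL (rs : List ℕ) : ℕ := Nat.size rs.sum
/-- depth of the tree -/
def tD (rs cs : List ℕ) : ℕ := rs.length * cs.length * tL rs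
/-- the value of the cell `c` when the missing bits are zero -/
def cell (L : ℕ) (w : List Bool) (c : ℕ) : ℕ :=
  ∑ k ∈ range L, if w.getD (c * L + k) false then 2 ^ (L - 1 - k) else 0
/-- the freedom left in the cell `c` -/
def slack (L : ℕ) (w : List Bool) (c : ℕ) : ℕ := 2 ^ (L - (w.length - c * L)) - 1
/-- row sum -/
def rowS (rs cs : List ℕ) (w : List Bool) (i : ℕ) : ℕ :=
  ∑ j ∈ range cs.length, cell (tL rs) w (i * cs.length + j)
/-- column sum -/
def colS (rs cs : List ℕ) (w : List Bool) (j : ℕ) : ℕ :=
  ∑ i ∈ range rs.length, cell (tL rs) w (i * cs.length + j)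
/-- the bit string is a table with the given margins -/
def tval (rs cs : List ℕ) (w : List Bool) : Bool :=
  decide (∀ i < rs.length, rowS rs cs w i = rs.getD i 0) &&
    decide (∀ j < cs.length, colS rs cs w j = cs.getD j 0)
/-- the fixed part does not exceed the margins -/
def tfeas (rs cs : List ℕ) (w : List Bool) : Bool :=
  decide (∀ i < rs.length, rowS rs cs w i ≤ rs.getD i 0) &&
    decide (∀ j < cs.length, colS rs cs w j ≤ cs.getD j 0)
/-- residual row sums -/
def resR (rs cs : List ℕ) (w : List Bool) : List ℕ :=
  (List.range rs.length).map fun i => rs.getD i 0 - rowS rs cs w i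
/-- residual column sums -/
def resC (rs cs : List ℕ) (w : List Bool) : List ℕ :=
  (List.range cs.length).map fun j => cs.getD j 0 - colS rs cs w j
/-- residual cell bounds -/
def resB (rs cs : List ℕ) (w : List Bool) : List ℕ :=
  (List.range (rs.length * cs.length)).map fun c => slack (tL rs) w c
/-- size parameter -/
def tS (rs cs : List ℕ) : ℕ :=
  8 * (tD rs cs + 1) + rs.length * cs.length + rs.length + cs.length + tL rs + 100
/-- bits for the estimates -/
def tRe (rs cs : List ℕ) : ℕ := (tD rs cs + 1) * rTot (tS rs cs)
/-- the estimate for the node `w` -/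
def tEst (rs cs : List ℕ) (r w : List Bool) : ℚ :=
  if tfeas rs cs w then best (resR rs cs w) (resC rs cs w) (resB rs cs w) (tS rs cs) (tD rs cs + 1) r
  else 0
/-- bits per step -/
def tR (rs cs : List ℕ) : ℕ := tRe rs cs + (tD rs cs + 2)
/-- one step of the symmetric chain on tables -/
def tstep (rs cs : List ℕ) (x ω : List Bool) : List Bool :=
  jstep (tD rs cs) (uOf (tD rs cs) (tS rs cs) (tval rs cs) (tEst rs cs (ω.take (tRe rs cs)))) x
    (ω.drop (tRe rs cs))
/-- the tables as bit strings -/
def tOm (rs cs : List ℕ) : Finset (List Bool) := leaves (tD rs cs) (tval rs cs)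
/-- decoding -/
def tdec (rs cs : List ℕ) (w : List Bool) : List ℕ :=
  (List.range (rs.length * cs.length)).map (cell (tL rs) w)
/-- encoding of a flat table -/
def tenc (rs cs X : List ℕ) : List Bool :=
  (List.range (tD rs cs)).map fun k => (X.getD (k / tL rs) 0).testBit (tL rs - 1 - k % tL rs)
/-- The north-west corner table in closed form: the overlap of the `i`-th row interval and the `j`-th
column interval of `[0, N)`. -/
def nw (rs cs : List ℕ) : List ℕ :=
  (List.range (rs.length * cs.length)).map fun c =>
    min (rs.take (c / cs.length + 1)).sum (cs.take (c % cs.length + 1)).sum -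
      max (rs.take (c / cs.length)).sum (cs.take (c % cs.length)).sum
/-- starting point -/
def tx0 (rs cs : List ℕ) : List Bool := tenc rs cs (nw rs cs)
/-- `t` steps of the chain -/
def walk (rs cs : List ℕ) (t : ℕ) (ω : List Bool) : List Bool :=
  (chunks t (tR rs cs) ω).foldl (tstep rs cs) (tx0 rs cs)

/-! ### the exact sampler -/

/-- the list of tables -/
def lvs (rs cs : List ℕ) : List (List Bool) := (allBits (tD rs cs)).filter (tval rs cs)
/-- number of tapes leading from `x` to `y` -/
def kcnt (rs cs : List ℕ) (x y : List Bool) : ℕ :=
  (allBits (tR rs cs)).countP fun ω => tstep rs cs x ω == y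
/-- one step of the exact computation of the law of the walk -/
def vstep (rs cs : List ℕ) (v : List ℕ) : List ℕ :=
  (lvs rs cs).map fun y => (((lvs rs cs).zip v).map fun p => p.2 * kcnt rs cs p.1 y).sum
/-- number of tapes of length `t * tR` leading to each table -/
def vt (rs cs : List ℕ) (t : ℕ) : List ℕ :=
  (vstep rs cs)^[t] ((lvs rs cs).map fun y => if y = tx0 rs cs then 1 else 0)
/-- select an item by consecutive intervals of the given lengths -/
def select {β : Type} : List (β × ℕ) → ℕ → Option β
  | [], _ => none
  | (y, a) :: l, U => if U < a then some y else select l (U - a)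
theorem select_nil {β : Type} (U : ℕ) : select ([] : List (β × ℕ)) U = none := select.eq_1 U
theorem select_cons {β : Type} (y : β) (a : ℕ) (l : List (β × ℕ)) (U : ℕ) :
    select ((y, a) :: l) U = if U < a then some y else select l (U - a) := select.eq_2 U y a l
theorem select_eq_def_true : @select.eq_def = @select.eq_def := rfl
/-- the slow branch supplies the missing probability -/
def slow (rs cs : List ℕ) (k t U : ℕ) : Option (List Bool) :=
  select ((lvs rs cs).zip ((vt rs cs t).map fun a => (2 ^ k - 1) * ((vt rs cs t).foldr max 0 - a))) U
/-- number of steps of the walk in a round -/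
def rT (rs cs : List ℕ) (k : ℕ) : ℕ := 6 * (k + tD rs cs)
/-- bits per round -/
def rLen (rs cs : List ℕ) (k : ℕ) : ℕ := k + rT rs cs k * tR rs cs
/-- one round of the exact sampler -/
def round (rs cs : List ℕ) (k : ℕ) (ω : List Bool) : Option (List ℕ) :=
  if (ω.take k).all (fun b => !b) then
    (slow rs cs k (rT rs cs k) (ofBits (ω.drop k))).map (tdec rs cs)
  else some (tdec rs cs (walk rs cs (rT rs cs k) (ω.drop k)))

end Crest.Agent.R309
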