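import Crest.Agent.R309.Boost
import Crest.Agent.Lib.PT.Exp

/-!
Row 309: the chain on tables runs in polynomial time, the slow branch in exponential time.
Prove `@[fun_prop]` lemmas for the definitions of `TabDefs.lean` in order.  `uOf … w` is `PT` in
`(rs, cs, r, w)`; `hit` is an iteration whose state has size at most `6 D + sz U + 2`; in `walk` the
state is the start or a bit string of length `D`.
-/

set_option autoImplicit false

namespace Crest.Agent.R309

open Finset Crest.Agent.Lib.PT

variable {α : Type} [Enc α] {rs cs : α → List ℕ}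

@[fun_prop] theorem tabpt_tL (hr : PT rs) : PT fun a => tL (rs a) := by
  unfold tL; fun_prop

@[fun_prop] theorem tabpt_tL' (hr : PT rs) : PB fun a => tL (rs a) := by
  unfold tL; fun_prop

@[fun_prop] theorem tabpt_tD (hr : PT rs) (hc : PT cs) : PT fun a => tD (rs a) (cs a) := by
  unfold tD; fun_prop

@[fun_prop] theorem tabpt_tD' (hr : PT rs) (hc : PT cs) : PB fun a => tD (rs a) (cs a) := by
  unfold tD; fun_prop

@[fun_prop] theorem tabpt_tS (hr : PT rs) (hc : PT cs) : PT fun a => tS (rs a) (cs a) := by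
  unfold tS; fun_prop

@[fun_prop] theorem tabpt_tS' (hr : PT rs) (hc : PT cs) : PB fun a => tS (rs a) (cs a) := by
  unfold tS; fun_prop

@[fun_prop] theorem tabpt_tRe (hr : PT rs) (hc : PT cs) : PT fun a => tRe (rs a) (cs a) := by
  have := (pt_rTot (tabpt_tS hr hc) (tabpt_tS' hr hc)).1
  unfold tRe
  exact ((tabpt_tD hr hc).add (PT.const 1)).mul this

@[fun_prop] theorem tabpt_tRe' (hr : PT rs) (hc : PT cs) : PB fun a => tRe (rs a) (cs a) := by
  have := (pt_rTot (tabpt_tS hr hc) (tabpt_tS' hr hc)).2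
  unfold tRe
  exact ((tabpt_tD' hr hc).add (PB.const 1)).mul this

@[fun_prop] theorem tabpt_tR (hr : PT rs) (hc : PT cs) : PT fun a => tR (rs a) (cs a) := by
  unfold tR
  exact (tabpt_tRe hr hc).add ((tabpt_tD hr hc).add (PT.const 2))

@[fun_prop] theorem tabpt_tR' (hr : PT rs) (hc : PT cs) : PB fun a => tR (rs a) (cs a) := by
  unfold tR
  exact (tabpt_tRe' hr hc).add ((tabpt_tD' hr hc).add (PB.const 2))

theorem pt_tD (hr : PT rs) (hc : PT cs) :
    PT (fun a => tD (rs a) (cs a)) ∧ PB (fun a => tD (rs a) (cs a)) := by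
  exact ⟨tabpt_tD hr hc, tabpt_tD' hr hc⟩

theorem pt_tR (hr : PT rs) (hc : PT cs) :
    PT (fun a => tR (rs a) (cs a)) ∧ PB (fun a => tR (rs a) (cs a)) := by
  exact ⟨tabpt_tR hr hc, tabpt_tR' hr hc⟩

@[fun_prop] theorem tabpt_cell {w : α → List Bool} {c : α → ℕ} (hr : PT rs) (hw : PT w) (hc : PT c) :
    PT fun a => cell (tL (rs a)) (w a) (c a) := by
  unfold cell; fun_prop

@[fun_prop] theorem tabpt_slack {w : α → List Bool} {c : α → ℕ} (hr : PT rs) (hw : PT w) (hc : PT c) :
    PT fun a => slack (tL (rs a)) (w a) (c a) := by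
  unfold slack; fun_prop

@[fun_prop] theorem tabpt_rowS {w : α → List Bool} {i : α → ℕ} (hr : PT rs) (hc : PT cs) (hw : PT w)
    (hi : PT i) : PT fun a => rowS (rs a) (cs a) (w a) (i a) := by
  unfold rowS; fun_prop

@[fun_prop] theorem tabpt_colS {w : α → List Bool} {i : α → ℕ} (hr : PT rs) (hc : PT cs) (hw : PT w)
    (hi : PT i) : PT fun a => colS (rs a) (cs a) (w a) (i a) := by
  unfold colS; fun_prop

@[fun_prop] theorem tabpt_tval {w : α → List Bool} (hr : PT rs) (hc : PT cs) (hw : PT w) :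
    PT fun a => tval (rs a) (cs a) (w a) := by
  unfold tval; fun_prop

@[fun_prop] theorem tabpt_tfeas {w : α → List Bool} (hr : PT rs) (hc : PT cs) (hw : PT w) :
    PT fun a => tfeas (rs a) (cs a) (w a) := by
  unfold tfeas; fun_prop

@[fun_prop] theorem tabpt_resR {w : α → List Bool} (hr : PT rs) (hc : PT cs) (hw : PT w) :
    PT fun a => resR (rs a) (cs a) (w a) := by
  unfold resR; fun_prop

@[fun_prop] theorem tabpt_resC {w : α → List Bool} (hr : PT rs) (hc : PT cs) (hw : PT w) :
    PT fun a => resC (rs a) (cs a) (w a) := by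
  unfold resC; fun_prop

@[fun_prop] theorem tabpt_resB {w : α → List Bool} (hr : PT rs) (hc : PT cs) (hw : PT w) :
    PT fun a => resB (rs a) (cs a) (w a) := by
  unfold resB; fun_prop

@[fun_prop] theorem tabpt_tEst {r w : α → List Bool} (hr : PT rs) (hc : PT cs) (hρ : PT r) (hw : PT w) :
    PT fun a => tEst (rs a) (cs a) (r a) (w a) := by
  unfold tEst
  refine PT.ite (by fun_prop) ?_ (PT.const _)
  exact pt_best (tabpt_resR hr hc hw) (tabpt_resC hr hc hw) (tabpt_resB hr hc hw) (tabpt_tS hr hc)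
    (tabpt_tS' hr hc) (by fun_prop) (by fun_prop) hρ

theorem tabpt_uOf {r w : α → List Bool} (hr : PT rs) (hc : PT cs) (hρ : PT r) (hw : PT w) :
    PT fun a => uOf (tD (rs a) (cs a)) (tS (rs a) (cs a)) (tval (rs a) (cs a))
      (tEst (rs a) (cs a) (r a)) (w a) := by
  unfold uOf; fun_prop

theorem tabpt_dstep_iter (u : List Bool → ℕ) (U i : ℕ) :
    ((dstep u)^[i] ([], U)).1.length = i ∧ ((dstep u)^[i] ([], U)).2 ≤ U := by
  induction i with
  | zero => simp
  | succ i ih =>
    rw [Function.iterate_succ_apply']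
    unfold dstep at ih ⊢
    split_ifs
    · simp only [List.length_append, List.length_singleton]
      omega
    · simp only [List.length_append, List.length_singleton]
      omega

theorem tabpt_length_hit {D : ℕ} {u : List Bool → ℕ} {U : ℕ} {y : List Bool}
    (h : hit D u U = some y) : y.length = D := by
  unfold hit at h
  split_ifs at h
  rw [← Option.some.inj h]
  exact (tabpt_dstep_iter u U D).1

section
variable {D U : α → ℕ} {u : α → List Bool → ℕ}

theorem tabpt_app (hu : PT fun p : α × List Bool => u p.1 p.2) {β : Type} [Enc β] {f : β → α}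
    {w : β → List Bool} (hf : PT f) (hw : PT w) : PT fun b => u (f b) (w b) :=
  hu.comp (hf.pair hw)

theorem tabpt_hit (hD : PT D) (hD' : PB D) (hu : PT fun p : α × List Bool => u p.1 p.2)
    (hU : PT U) : PT fun a => hit (D a) (u a) (U a) := by
  have h1 : PT fun p : α × List Bool × ℕ => u p.1 (p.2.1 ++ [false]) :=
    tabpt_app hu (by fun_prop) (by fun_prop)
  have h2 : PT fun p : α × List Bool × ℕ => dstep (u p.1) p.2 := by
    unfold dstep
    exact PT.ite (PT.decide_lt (by fun_prop) h1) (by fun_prop)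
      (PT.pair (by fun_prop) (PT.sub (by fun_prop) h1))
  have h3 : PT fun a => (dstep (u a))^[D a] (([] : List Bool), U a) := by
    refine PT.iterate (fun a => 6 * D a + sz (U a) + 2) h2 hD hD' (by fun_prop) (by fun_prop)
      fun a i hi => ?_
    have h4 := tabpt_dstep_iter (u a) (U a) i
    have h5 := sz_nat_mono h4.2
    rw [sz_prod, sz_boolList, h4.1]
    omega
  unfold hit
  exact PT.ite (PT.decide_lt h3.snd (tabpt_app hu PT.id h3.fst)) h3.fst.some (PT.const _)

theorem tabpt_pos {x : α → List Bool} (hD : PT D) (hD' : PB D)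
    (hu : PT fun p : α × List Bool => u p.1 p.2) (hx : PT x) :
    PT fun a => pos (D a) (u a) (x a) := by
  unfold pos
  refine PT.sum_range hD hD' (PT.ite (by fun_prop) ?_ (PT.const _))
  exact tabpt_app hu (by fun_prop) (by fun_prop)

theorem tabpt_jstep {x ω : α → List Bool} (hD : PT D) (hD' : PB D)
    (hu : PT fun p : α × List Bool => u p.1 p.2) (hx : PT x) (hω : PT ω) :
    PT fun a => jstep (D a) (u a) (x a) (ω a) := by
  have h0 : PT fun a => u a [] := tabpt_app hu PT.id (PT.const _)
  have h1 : PT fun a => qq (D a) (u a) := by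
    unfold qq
    exact PT.min (by fun_prop) h0.size
  have h2 : PB fun a => qq (D a) (u a) := by
    unfold qq
    exact PB.min_left (by fun_prop) _
  have h3 : PT fun a => 2 ^ qq (D a) (u a) := (PT.const 2).pow h1 h2
  have h4 := tabpt_pos hD hD' hu hx
  unfold jstep
  exact PT.ite (PT.decide_and (PT.decide_lt h4 h3) (PT.decide_eq (tabpt_hit hD hD' hu h4) hx.some))
    ((tabpt_hit hD hD' hu (PT.mod (by fun_prop) h3)).optionGetD hx) hx

end

theorem tabpt_length_jstep {D : ℕ} {u : List Bool → ℕ} {x : List Bool} (hx : x.length = D)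
    (ω : List Bool) : (jstep D u x ω).length = D := by
  unfold jstep
  split_ifs
  · rcases h : hit D u (ofBits (ω.take (D + 2)) % 2 ^ qq D u) with _ | y
    · exact hx
    · exact tabpt_length_hit h
  · exact hx

theorem pt_tstep {x ω : α → List Bool} (hr : PT rs) (hc : PT cs) (hx : PT x) (hω : PT ω) :
    PT fun a => tstep (rs a) (cs a) (x a) (ω a) := by
  unfold tstep
  refine tabpt_jstep (tabpt_tD hr hc) (tabpt_tD' hr hc) ?_ hx (by fun_prop)
  exact tabpt_uOf (rs := fun p : α × List Bool => rs p.1) (cs := fun p => cs p.1)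
    (r := fun p => (ω p.1).take (tRe (rs p.1) (cs p.1))) (w := fun p => p.2) (by fun_prop)
    (by fun_prop) (by fun_prop) (by fun_prop)

theorem pt_tdec {w : α → List Bool} (hr : PT rs) (hc : PT cs) (hw : PT w) :
    PT fun a => tdec (rs a) (cs a) (w a) := by
  unfold tdec; fun_prop

@[fun_prop] theorem tabpt_tx0 (hr : PT rs) (hc : PT cs) : PT fun a => tx0 (rs a) (cs a) := by
  have h : PT fun a => nw (rs a) (cs a) := by
    unfold nw; fun_prop
  unfold tx0 tenc
  refine PT.map (by fun_prop) (PT.testBit (PT.getD (by fun_prop) (h.comp PT.id.fst) (PT.const _))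
    (by fun_prop))

theorem pt_walk {t : α → ℕ} {ω : α → List Bool} (hr : PT rs) (hc : PT cs) (ht : PT t) (ht' : PB t)
    (hω : PT ω) : PT fun a => walk (rs a) (cs a) (t a) (ω a) := by
  unfold walk
  refine PT.foldl_inv (fun a x => x.length = tD (rs a) (cs a)) (fun a => 6 * tD (rs a) (cs a) + 1)
    (pt_tstep (rs := fun p : α × List Bool × List Bool => rs p.1) (cs := fun p => cs p.1)
      (by fun_prop) (by fun_prop) (by fun_prop) (by fun_prop))
    (by fun_prop) (tabpt_tx0 hr hc) (by fun_prop) (fun a => ?_)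
    (fun a acc x _ h => tabpt_length_jstep h _) (fun a acc h => ?_)
  · simp [tx0, tenc]
  · rw [sz_boolList, h]

/-- `select` as a fold -/
def tabptSel {β : Type} (s : Option β × ℕ) (p : β × ℕ) : Option β × ℕ :=
  if s.1.isSome then s else if s.2 < p.2 then (some p.1, s.2) else (none, s.2 - p.2)

theorem tabpt_sel_some {β : Type} (l : List (β × ℕ)) (y : β) (U : ℕ) :
    l.foldl tabptSel (some y, U) = (some y, U) := by
  induction l with
  | nil => rfl
  | cons p l ih => simpa [tabptSel] using ih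

theorem tabpt_select_eq {β : Type} (l : List (β × ℕ)) (U : ℕ) :
    select l U = (l.foldl tabptSel (none, U)).1 := by
  induction l generalizing U with
  | nil => rfl
  | cons p l ih =>
    obtain ⟨y, a⟩ := p
    by_cases h : U < a
    · simp [select, tabptSel, h, tabpt_sel_some]
    · simp [select, tabptSel, h, ih]

theorem tabpt_select {β : Type} [Enc β] {l : α → List (β × ℕ)} {U : α → ℕ} (hl : PT l) (hU : PT U) :
    PT fun a => select (l a) (U a) := by
  have h : PT fun a => (l a).foldl tabptSel (none, U a) := by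
    refine PT.foldl_add (f := fun _ => tabptSel) (fun p => sz p.2 + 2) ?_ hl (by fun_prop)
      (by fun_prop) fun a acc x _ => ?_
    · unfold tabptSel; fun_prop
    · obtain ⟨o, V⟩ := acc
      obtain ⟨y, b⟩ := x
      have := sz_nat_mono (Nat.sub_le V b)
      have := sz_pos o
      unfold tabptSel
      split_ifs <;> simp <;> omega
  exact h.fst.congr fun a => tabpt_select_eq _ _

theorem tabpt_length_lvs (rs cs : List ℕ) : (lvs rs cs).length ≤ 2 ^ tD rs cs := by
  unfold lvs
  exact (List.length_filter_le _ _).trans (length_allBits _).le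

theorem tabpt_vt_bound (rs cs : List ℕ) (t : ℕ) :
    (vt rs cs t).length = (lvs rs cs).length ∧
      ∀ x ∈ vt rs cs t, x ≤ 2 ^ ((tD rs cs + tR rs cs) * t) := by
  induction t with
  | zero =>
    refine ⟨by simp [vt], fun x hx => ?_⟩
    simp only [vt, Function.iterate_zero, id, List.mem_map] at hx
    obtain ⟨y, -, rfl⟩ := hx
    split_ifs <;> simp
  | succ t ih =>
    have e : vt rs cs (t + 1) = vstep rs cs (vt rs cs t) := Function.iterate_succ_apply' _ _ _
    rw [e]
    refine ⟨by simp [vstep], fun x hx => ?_⟩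
    simp only [vstep, List.mem_map] at hx
    obtain ⟨y, -, rfl⟩ := hx
    have h1 := List.sum_le_card_nsmul (((lvs rs cs).zip (vt rs cs t)).map
      fun p => p.2 * kcnt rs cs p.1 y) (2 ^ ((tD rs cs + tR rs cs) * t) * 2 ^ tR rs cs) (by
        intro z hz
        obtain ⟨p, hp, rfl⟩ := List.mem_map.1 hz
        refine Nat.mul_le_mul (ih.2 _ (List.of_mem_zip hp).2) ?_
        exact List.countP_le_length.trans (length_allBits _).le)
    refine h1.trans ?_
    rw [List.length_map, List.length_zip, smul_eq_mul, mul_add _ t 1, mul_one, pow_add, pow_add]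
    have h2 := (min_le_left _ (vt rs cs t).length).trans (tabpt_length_lvs rs cs)
    calc _ ≤ 2 ^ tD rs cs * (2 ^ ((tD rs cs + tR rs cs) * t) * 2 ^ tR rs cs) :=
          Nat.mul_le_mul_right _ h2
      _ = _ := by ring

/-- `pt_allBits`; the entries of `vt t` are at most `(2 ^ D * 2 ^ tR) ^ t`. -/
theorem pt_slow {k t U : α → ℕ} (hr : PT rs) (hc : PT cs) (hk : PT k) (hk' : PB k) (ht : PT t)
    (ht' : PB t) (hU : PT U) (hb : PB fun a => 2 ^ (tD (rs a) (cs a) + tR (rs a) (cs a))) :
    PT fun a => slow (rs a) (cs a) (k a) (t a) (U a) := by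
  have hbD : PB fun a => 2 ^ tD (rs a) (cs a) :=
    hb.of_le fun a => Nat.pow_le_pow_right two_pos (Nat.le_add_right _ _)
  have hbR : PB fun a => 2 ^ tR (rs a) (cs a) :=
    hb.of_le fun a => Nat.pow_le_pow_right two_pos (Nat.le_add_left _ _)
  have hA : PT fun a => allBits (tR (rs a) (cs a)) := pt_allBits (tabpt_tR hr hc) hbR
  have hL : PT fun a => lvs (rs a) (cs a) := by
    unfold lvs
    exact PT.filter (pt_allBits (tabpt_tD hr hc) hbD) (by fun_prop)
  have hK : PT fun p : α × List Bool × List Bool => kcnt (rs p.1) (cs p.1) p.2.1 p.2.2 := by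
    unfold kcnt
    refine PT.countP (hA.comp PT.id.fst) (PT.beq ?_ (by fun_prop))
    exact pt_tstep (by fun_prop) (by fun_prop) (by fun_prop) (by fun_prop)
  have hV : PT fun p : α × List ℕ => vstep (rs p.1) (cs p.1) p.2 := by
    unfold vstep
    refine PT.map (hL.comp PT.id.fst) (PT.natSum (PT.map (PT.zip (hL.comp PT.id.fst.fst) (by fun_prop))
      (PT.mul (by fun_prop) ?_)))
    exact hK.comp (f := fun q : ((α × List ℕ) × List Bool) × List Bool × ℕ => (q.1.1.1, q.2.1, q.1.2))
      (by fun_prop)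
  have hT : PT fun a => vt (rs a) (cs a) (t a) := by
    unfold vt
    refine PT.iterate (fun a => (6 * ((tD (rs a) (cs a) + tR (rs a) (cs a)) * t a + 1) + 1 + 1) *
      2 ^ tD (rs a) (cs a) + 1) hV ht ht' (PT.map hL (by fun_prop))
      ((PB.mul (by fun_prop) hbD).add (PB.const 1)) fun a i hi => ?_
    obtain ⟨h1, h2⟩ := tabpt_vt_bound (rs a) (cs a) i
    refine (sz_list_le (vt (rs a) (cs a) i)
      (6 * ((tD (rs a) (cs a) + tR (rs a) (cs a)) * t a + 1) + 1) fun x hx => ?_).trans ?_
    · refine sz_nat_le_of_lt_two_pow ((h2 x hx).trans_lt (Nat.pow_lt_pow_right one_lt_two ?_))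
      exact Nat.lt_succ_of_le (Nat.mul_le_mul_left _ hi)
    · rw [h1]
      exact Nat.add_le_add_right (Nat.mul_le_mul_left _ (tabpt_length_lvs _ _)) 1
  have hM : PT fun a => (vt (rs a) (cs a) (t a)).foldr max 0 := by
    refine PT.foldr_add (f := fun _ => max) (fun p => sz p.2) (by fun_prop) hT (PT.const _)
      (by fun_prop) fun a acc x _ => ?_
    rcases max_choice x acc with h | h <;> rw [h] <;> simp
  unfold slow
  refine tabpt_select (PT.zip hL (PT.map hT (PT.mul ?_ (PT.sub (hM.comp PT.id.fst) PT.id.snd)))) hU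
  exact PT.comp (g := fun a => 2 ^ k a - 1) (by fun_prop) PT.id.fst

theorem tabpt_timeF_ite {β : Type} [Enc β] [Dec β] {m : α → ℕ} (hm : PT m) {c : α → Bool} (hc : PT c)
    {f g : α → β} (hf : PT fun i : Pad α m => f i.val) (hg : PT g) :
    ∃ C d : ℕ, TimeF (fun a => if c a then f a else g a)
      (fun a => if c a then C * (sz a + 2 ^ m a) ^ d else C * sz a ^ d) := by
  obtain ⟨G, hG, hGe⟩ := hf.extendDec (fun i : Pad α m => (i.val, List.replicate (2 ^ m i.val) ()))
    fun _ => rfl
  obtain ⟨c1, k1, h1⟩ := TimeF.of_pad hm hG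
  obtain ⟨c2, k2, h2⟩ := hg.exists_bound
  obtain ⟨c3, k3, h3⟩ := hc.enc.car.exists_bound
  refine ⟨c1 + c2 + c3, k1 + k2 + k3, ((h3.iteNil h2 h1).congr fun a => ?_).mono fun a => ?_⟩
  · rw [hGe ⟨a⟩]
    cases c a
    · rfl
    · rfl
  · have hs := sz_pos a
    cases c a
    · have a1 : sz a ^ k2 ≤ sz a ^ (k1 + k2 + k3) := Nat.pow_le_pow_right hs (by omega)
      have a2 : sz a ^ k3 ≤ sz a ^ (k1 + k2 + k3) := Nat.pow_le_pow_right hs (by omega)
      have a3 := Nat.mul_le_mul_left c2 a1
      have a4 := Nat.mul_le_mul_left c3 a2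
      change c3 * sz a ^ k3 + c2 * sz a ^ k2 ≤ (c1 + c2 + c3) * sz a ^ (k1 + k2 + k3)
      rw [add_mul, add_mul]
      omega
    · have a0 : 0 < sz a + 2 ^ m a := Nat.add_pos_left hs _
      have a1 : (sz a + 2 ^ m a) ^ k1 ≤ (sz a + 2 ^ m a) ^ (k1 + k2 + k3) :=
        Nat.pow_le_pow_right a0 (by omega)
      have a2 : sz a ^ k3 ≤ (sz a + 2 ^ m a) ^ (k1 + k2 + k3) :=
        (Nat.pow_le_pow_left (Nat.le_add_right _ _) _).trans
          (Nat.pow_le_pow_right a0 (by omega))
      have a3 := Nat.mul_le_mul_left c1 a1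
      have a4 := Nat.mul_le_mul_left c3 a2
      change c3 * sz a ^ k3 + c1 * (sz a + 2 ^ m a) ^ k1 ≤
        (c1 + c2 + c3) * (sz a + 2 ^ m a) ^ (k1 + k2 + k3)
      rw [add_mul, add_mul]
      omega

theorem tabpt_slow_pad {m k t U : α → ℕ} (hr : PT rs) (hc : PT cs) (hk : PT k) (hk' : PB k) (ht : PT t)
    (ht' : PB t) (hU : PT U) (hm : ∀ a, tD (rs a) (cs a) + tR (rs a) (cs a) ≤ m a) :
    PT fun i : Pad α m => (slow (rs i.val) (cs i.val) (k i.val) (t i.val) (U i.val)).map
      (tdec (rs i.val) (cs i.val)) := by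
  have hval : PT fun i : Pad α m => i.val := PT.padVal PT.id
  have h1 : PT fun i : Pad α m => rs i.val := hr.comp hval
  have h2 : PT fun i : Pad α m => cs i.val := hc.comp hval
  have h3 : PB fun i : Pad α m => 2 ^ (tD (rs i.val) (cs i.val) + tR (rs i.val) (cs i.val)) :=
    Pad.pb.of_le fun i => Nat.pow_le_pow_right two_pos (hm i.val)
  have h4 := pt_slow h1 h2 (hk.comp hval) (hk'.comp hval) (ht.comp hval) (ht'.comp hval)
    (hU.comp hval) h3
  exact PT.optionMap (g := fun i : Pad α m => tdec (rs i.val) (cs i.val)) h4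
    (pt_tdec (h1.comp PT.id.fst) (h2.comp PT.id.fst) PT.id.snd)

theorem tabpt_timeF_round {k : α → ℕ} {ω : α → List Bool} (hr : PT rs) (hc : PT cs) (hk : PT k)
    (hk' : PB k) (hω : PT ω) : ∃ c d : ℕ,
    TimeF (fun a => round (rs a) (cs a) (k a) (ω a))
      (fun a => if ((ω a).take (k a)).all (fun b => !b) then
        c * (sz a + 2 ^ (tD (rs a) (cs a) + tR (rs a) (cs a))) ^ d else c * sz a ^ d) := by
  have hm : PT fun a => tD (rs a) (cs a) + tR (rs a) (cs a) := (tabpt_tD hr hc).add (tabpt_tR hr hc)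
  have hT : PT (fun a => rT (rs a) (cs a) (k a)) := (PT.const 6).mul (hk.add (tabpt_tD hr hc))
  have hT' : PB (fun a => rT (rs a) (cs a) (k a)) := (PB.const 6).mul (hk'.add (tabpt_tD' hr hc))
  have hslow := tabpt_slow_pad (m := fun a => tD (rs a) (cs a) + tR (rs a) (cs a)) hr hc hk hk' hT hT'
    (PT.ofBits (PT.drop hk hω)) fun _ => le_rfl
  have hfast := (pt_tdec hr hc (pt_walk hr hc hT hT' (PT.drop hk hω))).some
  have htest : PT fun a => ((ω a).take (k a)).all (fun b => !b) :=
    PT.all (g := fun _ b => !b) (PT.take hk hω) PT.id.snd.not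
  exact tabpt_timeF_ite (f := fun a => (slow (rs a) (cs a) (k a) (rT (rs a) (cs a) (k a))
    (ofBits ((ω a).drop (k a)))).map (tdec (rs a) (cs a))) hm htest hslow hfast

/-- Time of a round: `TimeF.iteNil` on the test, `pt_walk` for the fast branch; for the slow branch
`pt_slow` on `Pad`, `PT.extendDec` and `TimeF.of_pad`. -/
theorem timeF_round : ∃ c d : ℕ,
    TimeF (fun a : (List ℕ × List ℕ) × List Unit × List Bool => round a.1.1 a.1.2 a.2.1.length a.2.2)
      (fun a => if (a.2.2.take a.2.1.length).all (fun b => !b) then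
        c * (sz a + 2 ^ (tD a.1.1 a.1.2 + tR a.1.1 a.1.2)) ^ d else c * sz a ^ d) := by
  exact tabpt_timeF_round PT.id.fst.fst PT.id.fst.snd PT.id.snd.fst.length (PB.length PT.id.snd.fst)
    PT.id.snd.snd

end Crest.Agent.R309
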