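import Crest.Agent.R309.Route

/-! Row 309: Poincaré inequalities inside windows of polynomial side. -/

set_option autoImplicit false

namespace Crest.Agent.R309

open Finset

variable {V E : Type} [Fintype V] [DecidableEq V] [Fintype E] [DecidableEq E]

/-- The failure term of the unary theorem. -/
noncomputable def tau (n w l : ℕ) : ℝ := (2 / 3 : ℝ) ^ l * (n ^ 3 * (2 * w) ^ 4)

lemma window_UDir_nonneg (G : Gr V E) (R : ℕ) (d : V → ℤ) {π : (E → ℤ) → ℝ} (hπ : ∀ S, 0 ≤ π S)
    (f : (E → ℤ) → ℝ) : 0 ≤ UDir G R d π f := by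
  unfold UDir
  refine sum_nonneg fun e _ => sum_nonneg fun S _ => ?_
  split_ifs
  · exact mul_nonneg (le_min (hπ _) (hπ _)) (sq_nonneg _)
  · exact le_rfl

lemma window_om_nonneg (G : Gr V E) {R : ℕ} (d ρ : V → ℤ) {a : E → ℤ → ℝ} (ha : Adm R a)
    (S : E → ℤ) : 0 ≤ om G R d ρ a S := mul_nonneg (ha.wt_nonneg _) (ha.Zc_nonneg G _)

lemma window_pstar_nonneg (G : Gr V E) {R : ℕ} {a : E → ℤ → ℝ} (ha : Adm R a)
    (S : E → ℤ) : 0 ≤ pstar G R a S := div_nonneg (ha.wt_nonneg _) (ha.Zc_nonneg G _)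

lemma window_sq_le_one {x y : ℝ} (hx : 0 ≤ x ∧ x ≤ 1) (hy : 0 ≤ y ∧ y ≤ 1) : (x - y) ^ 2 ≤ 1 := by
  nlinarith [hx.1, hx.2, hy.1, hy.2]

omit [DecidableEq V] [DecidableEq E] in
lemma window_card_le {n : ℕ} (hV : Fintype.card V ≤ n) (hE : Fintype.card E ≤ n) (w : ℕ) :
    ((Fintype.card V : ℝ) * (Fintype.card E : ℝ) ^ 2 * (2 * w) ^ 4) ≤ n ^ 3 * (2 * w) ^ 4 := by
  have h1 : (Fintype.card V : ℝ) ≤ n := by exact_mod_cast hV
  have h2 : (Fintype.card E : ℝ) ≤ n := by exact_mod_cast hE
  have h3 : (Fintype.card V : ℝ) * (Fintype.card E : ℝ) ^ 2 ≤ n * n ^ 2 := by gcongr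
  calc _ ≤ (n * n ^ 2 : ℝ) * (2 * w) ^ 4 := by gcongr
    _ = _ := by ring

/-- Monotonicity of `UDir` in the vertex weights (only near-flows matter). -/
lemma window_UDir_mono (G : Gr V E) (R : ℕ) (d : V → ℤ) {π π' : (E → ℤ) → ℝ} {c : ℝ} (hc : 0 ≤ c)
    (h : ∀ S, IsRt (G.div S - d) → π S ≤ c * π' S) (f : (E → ℤ) → ℝ) :
    UDir G R d π f ≤ c * UDir G R d π' f := by
  unfold UDir
  rw [mul_sum]
  refine sum_le_sum fun e _ => ?_
  rw [mul_sum]
  refine sum_le_sum fun S _ => ?_
  split_ifs with hS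
  · rw [← mul_assoc, mul_min_of_nonneg _ _ hc]
    exact mul_le_mul_of_nonneg_right (min_le_min (h _ hS.2.1) (h _ hS.2.2)) (sq_nonneg _)
  · simp

/-- The Dirichlet forms of the windows add up to at most the whole Dirichlet form. -/
lemma window_UDir_sum (G : Gr V E) (R : ℕ) (d : V → ℤ) {π : (E → ℤ) → ℝ} (hπ : ∀ S, 0 ≤ π S)
    (P o : ℕ) (K : Finset (E → ℤ)) (f : (E → ℤ) → ℝ) :
    ∑ k ∈ K, UDir G R d (fun S => if win P o S = k then π S else 0) f ≤ UDir G R d π f := by
  unfold UDir
  rw [sum_comm]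
  refine sum_le_sum fun e _ => ?_
  rw [sum_comm]
  refine sum_le_sum fun S _ => ?_
  by_cases hS : S + Pi.single e 1 ∈ box E R ∧ IsRt (G.div S - d) ∧
      IsRt (G.div (S + Pi.single e 1) - d)
  · simp only [if_pos hS]
    rw [← sum_mul]
    refine mul_le_mul_of_nonneg_right ?_ (sq_nonneg _)
    have hm : 0 ≤ min (π S) (π (S + Pi.single e 1)) := le_min (hπ _) (hπ _)
    calc _ ≤ ∑ k ∈ K, (if win P o S = k then min (π S) (π (S + Pi.single e 1)) else 0) := by
          refine sum_le_sum fun k _ => ?_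
          by_cases h1 : win P o S = k
          · simp only [if_pos h1]
            refine min_le_min le_rfl ?_
            split_ifs
            · exact le_rfl
            · exact hπ _
          · simp only [if_neg h1]
            exact min_le_left _ _
      _ ≤ _ := by
          rw [sum_ite_eq]
          split_ifs
          · exact le_rfl
          · exact hm
  · simp only [if_neg hS]
    simp

/-- Decomposition of a class sum along the windows. -/
lemma window_sum_cut (G : Gr V E) (R : ℕ) (c : V → ℤ) (a : E → ℤ → ℝ) (P o : ℕ)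
    (g : (E → ℤ) → (E → ℤ) → ℝ) :
    ∑ X ∈ cls G R c, wt a X * g (win P o X) X =
      ∑ k ∈ (box E R).image (win P o), ∑ X ∈ cls G R c, wt (cut a P o k) X * g k X := by
  rw [sum_comm]
  refine sum_congr rfl fun X hX => ?_
  simp only [wt_cut, ite_mul, zero_mul]
  rw [sum_ite_eq, if_pos (mem_image_of_mem _ (mem_cls.1 hX).1)]

lemma window_sum_Zc (G : Gr V E) (R : ℕ) (c : V → ℤ) (a : E → ℤ → ℝ) (P o : ℕ) :
    ∑ k ∈ (box E R).image (win P o), Zc G R (cut a P o k) c = Zc G R a c := by
  have h := window_sum_cut G R c a P o (fun _ _ => 1)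
  simp only [mul_one] at h
  exact h.symm

lemma window_Zc_cut_le (G : Gr V E) {R : ℕ} (c : V → ℤ) {a : E → ℤ → ℝ} (ha : Adm R a) (P o : ℕ)
    (k : E → ℤ) : Zc G R (cut a P o k) c ≤ Zc G R a c := by
  refine sum_le_sum fun X _ => ?_
  rw [wt_cut]
  split_ifs
  · exact le_rfl
  · exact ha.wt_nonneg _

/-- If a class has weight zero then every weighted sum over it vanishes. -/
lemma window_sum_eq_zero (G : Gr V E) {R : ℕ} (c : V → ℤ) {a : E → ℤ → ℝ} (ha : Adm R a)
    (hZ : Zc G R a c = 0) (g : (E → ℤ) → ℝ) : ∑ X ∈ cls G R c, wt a X * g X = 0 := by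
  have h := (sum_eq_zero_iff_of_nonneg fun X _ => ha.wt_nonneg X).1 hZ
  exact sum_eq_zero fun X hX => by rw [h X hX, zero_mul]

lemma window_GS_const (G : Gr V E) {R : ℕ} (d ρ : V → ℤ) (l : ℕ) {a : E → ℤ → ℝ} (ha : Adm R a)
    (c : ℝ) : GS G R d ρ l a (fun _ _ => c) = c * (Zc G R a (d + ρ) * Zc G R a d) := by
  rw [GS_left G d ρ l ha (fun _ => c), ← sum_mul]
  unfold Zc
  ring

lemma window_notGood (G : Gr V E) {R : ℕ} (d : V → ℤ) {ρ : V → ℤ} (hρ : IsRt ρ) {n : ℕ}
    (hV : Fintype.card V ≤ n) (hE : Fintype.card E ≤ n) (l : ℕ) {a : E → ℤ → ℝ} (ha : Adm R a)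
    {w : ℕ} (hw : Wid a w) :
    GS G R d ρ l a (fun N X => if Good G (N - X) then 0 else 1) ≤
      tau n w l * (Zc G R a (d + ρ) * Zc G R a d) := by
  refine (GS_notGood G d ρ l ha hρ hw).trans ?_
  refine mul_le_mul_of_nonneg_right ?_ (mul_nonneg (ha.Zc_nonneg G _) (ha.Zc_nonneg G _))
  unfold tau
  have h1 : (if ρ = 0 then 1 / 3 else 2 / 3 : ℝ) ≤ 2 / 3 := by split_ifs <;> norm_num
  have h0 : (0 : ℝ) ≤ (if ρ = 0 then 1 / 3 else 2 / 3 : ℝ) := by split_ifs <;> norm_num
  exact mul_le_mul (pow_le_pow_left₀ h0 h1 l) (window_card_le hV hE w) (by positivity)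
    (by positivity)

/-- Unary theorem for the class `d`: `var_mul_Z`, `GS_sq`, split along `Good (N - X)`,
`GS_notGood`, `GS_route`. -/
theorem unary_zero [Nonempty V] (G : Gr V E) (hl : ∀ e, G.tl e ≠ G.hd e) {R : ℕ} (d : V → ℤ)
    {n : ℕ} (hV : Fintype.card V ≤ n) (hE : Fintype.card E ≤ n) (l : ℕ)
    {a : E → ℤ → ℝ} (ha : Adm R a) {w : ℕ} (hw : Wid a w) {f : (E → ℤ) → ℝ} (hf : Unit01 f) :
    (∑ X ∈ cls G R d, wt a X *
        (f X - (∑ Y ∈ cls G R d, wt a Y * f Y) / Zc G R a d) ^ 2) * Zc G R a d ≤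
      tau n w l * Zc G R a d ^ 2 + 4 ^ l * n * UDir G R d (om G R d 0 a) f := by
  have hZ := ha.Zc_nonneg G d
  have hU : 0 ≤ UDir G R d (om G R d 0 a) f := window_UDir_nonneg G R d (window_om_nonneg G d 0 ha) f
  have h1 := var_mul_Z G d ha f
  have h2 := GS_sq G d l ha f
  have h3 : GS G R d 0 l a (fun N X => (f N - f X) ^ 2) ≤
      GS G R d 0 l a (fun N X => (if Good G (N - X) then (f N - f X) ^ 2 else 0) +
        (if Good G (N - X) then 0 else 1)) := by
    refine GS_mono G d 0 l ha fun N X _ _ _ _ => ?_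
    split_ifs
    · simp
    · simpa using window_sq_le_one (hf N) (hf X)
  rw [GS_add] at h3
  have h4 := GS_route G hl d isRt_zero l ha f
  have h5 := GS_notGood G d 0 l ha isRt_zero hw
  rw [if_pos rfl, add_zero] at h5
  have hE' : (Fintype.card E : ℝ) ≤ n := by exact_mod_cast hE
  have h6 : (2 : ℝ) ^ (l + 1) * Fintype.card E * UDir G R d (om G R d 0 a) f ≤
      2 ^ (l + 1) * n * UDir G R d (om G R d 0 a) f := by gcongr
  have h7 : (1 / 3 : ℝ) ^ l * (Fintype.card V * Fintype.card E ^ 2 * (2 * w) ^ 4) *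
      (Zc G R a d * Zc G R a d) ≤ (1 / 3 : ℝ) ^ l * (n ^ 3 * (2 * w) ^ 4) *
      (Zc G R a d * Zc G R a d) := by
    have := window_card_le hV hE w
    gcongr
  have h8 : GS G R d 0 l a (fun N X => (f N - f X) ^ 2) ≤
      2 ^ (l + 1) * n * UDir G R d (om G R d 0 a) f + (1 / 3 : ℝ) ^ l * (n ^ 3 * (2 * w) ^ 4) *
      (Zc G R a d * Zc G R a d) := by linarith
  have h9 := h2.trans (mul_le_mul_of_nonneg_left h8 (by positivity))
  have e1 : (2 : ℝ) ^ l * (2 ^ (l + 1) * n * UDir G R d (om G R d 0 a) f +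
      (1 / 3 : ℝ) ^ l * (n ^ 3 * (2 * w) ^ 4) * (Zc G R a d * Zc G R a d)) =
      2 * (4 ^ l * n * UDir G R d (om G R d 0 a) f) + tau n w l * Zc G R a d ^ 2 := by
    unfold tau
    have k1 : (4 : ℝ) ^ l = 2 ^ l * 2 ^ l := by rw [← mul_pow]; norm_num
    have k2 : (2 / 3 : ℝ) ^ l = 2 ^ l * (1 / 3) ^ l := by rw [← mul_pow]; norm_num
    rw [k1, k2]
    ring
  have ht : 0 ≤ tau n w l * Zc G R a d ^ 2 := by unfold tau; positivity
  rw [e1, ← h1] at h9
  linarith

/-- Unary theorem for the class `d + ρ`: `(f N - m)² ≤ 2 (f X - m)² + 2 (f N - f X)²` integrated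
against the level-`l` coupling (`GS_left`, `GS_right`, `GS_notGood`, `GS_route`). -/
theorem unary_root (G : Gr V E) (hl : ∀ e, G.tl e ≠ G.hd e) {R : ℕ} (d : V → ℤ) {ρ : V → ℤ}
    (hρ : IsRt ρ) {n : ℕ} (hV : Fintype.card V ≤ n) (hE : Fintype.card E ≤ n) (l : ℕ)
    {a : E → ℤ → ℝ} (ha : Adm R a) {w : ℕ} (hw : Wid a w) {f : (E → ℤ) → ℝ} (hf : Unit01 f)
    (m : ℝ) :
    (∑ N ∈ cls G R (d + ρ), wt a N * (f N - m) ^ 2) * Zc G R a d ≤
      2 * (∑ X ∈ cls G R d, wt a X * (f X - m) ^ 2) * Zc G R a (d + ρ) +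
        2 * tau n w l * (Zc G R a (d + ρ) * Zc G R a d) +
        2 ^ (l + 2) * n * UDir G R d (om G R d ρ a) f := by
  have hU : 0 ≤ UDir G R d (om G R d ρ a) f := window_UDir_nonneg G R d (window_om_nonneg G d ρ ha) f
  rw [← GS_left G d ρ l ha (fun N => (f N - m) ^ 2)]
  have h3 : GS G R d ρ l a (fun N _ => (f N - m) ^ 2) ≤
      GS G R d ρ l a (fun N X => 2 * (f X - m) ^ 2 +
        (2 * (if Good G (N - X) then (f N - f X) ^ 2 else 0) +
        2 * (if Good G (N - X) then 0 else 1))) := by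
    refine GS_mono G d ρ l ha fun N X _ _ _ _ => ?_
    have h1 := window_sq_le_one (hf N) (hf X)
    split_ifs
    · nlinarith [sq_nonneg (f N - 2 * f X + m)]
    · nlinarith [sq_nonneg (f N - 2 * f X + m)]
  rw [GS_add, GS_add, GS_smul, GS_smul, GS_smul, GS_right G d ρ l ha (fun X => (f X - m) ^ 2)] at h3
  have h4 := GS_route G hl d hρ l ha f
  have h5 := window_notGood G d hρ hV hE l ha hw
  have hE' : (Fintype.card E : ℝ) ≤ n := by exact_mod_cast hE
  have h6 : (2 : ℝ) ^ (l + 1) * Fintype.card E * UDir G R d (om G R d ρ a) f ≤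
      2 ^ (l + 1) * n * UDir G R d (om G R d ρ a) f := by gcongr
  have e1 : (2 : ℝ) ^ (l + 2) * n * UDir G R d (om G R d ρ a) f =
      2 * (2 ^ (l + 1) * n * UDir G R d (om G R d ρ a) f) := by ring
  rw [e1]
  linarith

/-- The classes `d + ρ` and `d` see almost the same windows.  Take a level `l` so large that
`P * GS l [¬ Good] ≤ n Z Z` (`GS_notGood` with `Adm.wid`); a good pair has `|N e - X e| ≤ 1`, so it is
separated by at most `card E` offsets (`card_win_ne_le`); a bad pair by at most `P`. -/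
theorem win_couple (G : Gr V E) (hl : ∀ e, G.tl e ≠ G.hd e) {R : ℕ} (d : V → ℤ) {ρ : V → ℤ}
    (hρ : IsRt ρ) {n : ℕ} (hn : 1 ≤ n) (hE : Fintype.card E ≤ n) {a : E → ℤ → ℝ} (ha : Adm R a)
    (P : ℕ) (h : ℕ → (E → ℤ) → ℝ) (hh : ∀ o, Unit01 (h o)) :
    (∑ o ∈ range P, ∑ N ∈ cls G R (d + ρ), wt a N * h o (win P o N)) * Zc G R a d ≤
      (∑ o ∈ range P, ∑ X ∈ cls G R d, wt a X * h o (win P o X)) * Zc G R a (d + ρ) +
        2 * n * (Zc G R a (d + ρ) * Zc G R a d) := by
  classical
  have hZZ : 0 ≤ Zc G R a (d + ρ) * Zc G R a d := mul_nonneg (ha.Zc_nonneg G _) (ha.Zc_nonneg G _)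
  set n' : ℕ := max (Fintype.card V) (Fintype.card E) with hn'
  set C : ℝ := (n' : ℝ) ^ 3 * (2 * ((2 * R : ℕ) : ℝ)) ^ 4 with hC
  have hC0 : 0 ≤ C := by positivity
  obtain ⟨l, hl'⟩ := exists_pow_lt_of_lt_one (x := 1 / ((P : ℝ) * C + 1)) (y := (2 / 3 : ℝ))
    (by positivity) (by norm_num)
  have hτ : (P : ℝ) * tau n' (2 * R) l ≤ 1 := by
    unfold tau
    rw [← hC]
    rw [lt_div_iff₀ (by positivity)] at hl'
    have : (0 : ℝ) ≤ (2 / 3 : ℝ) ^ l := by positivity
    nlinarith
  have h5 := window_notGood G d hρ (le_max_left _ _ : _ ≤ n') (le_max_right _ _ : _ ≤ n') l ha ha.wid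
  have e1 : (∑ o ∈ range P, ∑ N ∈ cls G R (d + ρ), wt a N * h o (win P o N)) * Zc G R a d =
      GS G R d ρ l a (fun N _ => ∑ o ∈ range P, h o (win P o N)) := by
    rw [GS_left G d ρ l ha (fun N => ∑ o ∈ range P, h o (win P o N)), sum_comm]
    simp only [mul_sum]
  have e2 : (∑ o ∈ range P, ∑ X ∈ cls G R d, wt a X * h o (win P o X)) * Zc G R a (d + ρ) =
      GS G R d ρ l a (fun _ X => ∑ o ∈ range P, h o (win P o X)) := by
    rw [GS_right G d ρ l ha (fun X => ∑ o ∈ range P, h o (win P o X)), sum_comm]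
    simp only [mul_sum]
  have h3 : GS G R d ρ l a (fun N _ => ∑ o ∈ range P, h o (win P o N)) ≤
      GS G R d ρ l a (fun N X => ∑ o ∈ range P, h o (win P o X) +
        ((n : ℝ) + P * (if Good G (N - X) then 0 else 1))) := by
    refine GS_mono G d ρ l ha fun N X _ _ _ _ => ?_
    have k1 : ∑ o ∈ range P, h o (win P o N) ≤ ∑ o ∈ range P, (h o (win P o X) +
        if win P o N ≠ win P o X then (1 : ℝ) else 0) := by
      refine sum_le_sum fun o _ => ?_
      split_ifs with ho
      · linarith [(hh o (win P o N)).2, (hh o (win P o X)).1]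
      · rw [not_not.1 ho]; simp
    rw [sum_add_distrib, sum_boole] at k1
    refine k1.trans (add_le_add le_rfl ?_)
    split_ifs with hg
    · have k2 := card_win_ne_le P N X 1 (fun e => by simpa using Good.abs_le hl hg e)
      have k3 : ((range P).filter fun o => win P o N ≠ win P o X).card ≤ n := by omega
      have k4 : (((range P).filter fun o => win P o N ≠ win P o X).card : ℝ) ≤ n := by
        exact_mod_cast k3
      simpa using k4
    · have k2 : ((range P).filter fun o => win P o N ≠ win P o X).card ≤ P := by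
        simpa using card_filter_le (range P) fun o => win P o N ≠ win P o X
      have k4 : (((range P).filter fun o => win P o N ≠ win P o X).card : ℝ) ≤ P := by
        exact_mod_cast k2
      have : (0 : ℝ) ≤ n := Nat.cast_nonneg n
      linarith
  rw [GS_add, GS_add, GS_smul, window_GS_const G d ρ l ha] at h3
  rw [e1, e2]
  have hn1 : (1 : ℝ) ≤ n := by exact_mod_cast hn
  have h6 : (P : ℝ) * GS G R d ρ l a (fun N X => if Good G (N - X) then 0 else 1) ≤
      n * (Zc G R a (d + ρ) * Zc G R a d) := by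
    calc _ ≤ (P : ℝ) * (tau n' (2 * R) l * (Zc G R a (d + ρ) * Zc G R a d)) :=
          mul_le_mul_of_nonneg_left h5 (Nat.cast_nonneg P)
      _ = ((P : ℝ) * tau n' (2 * R) l) * (Zc G R a (d + ρ) * Zc G R a d) := by ring
      _ ≤ _ := mul_le_mul_of_nonneg_right (hτ.trans hn1) hZZ
  linarith

/-- A window is good if no class at distance two roots is over-represented in it. -/
def GoodWin (G : Gr V E) (R : ℕ) (d : V → ℤ) (a : E → ℤ → ℝ) (P o : ℕ) (Q : ℝ) (k : E → ℤ) : Prop :=
  ∀ i j i' j' : V, Zc G R (cut a P o k) (d + rt i j + rt i' j') * Zc G R a d ≤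
    Q * Zc G R a (d + rt i j + rt i' j') * Zc G R (cut a P o k) d

open Classical in
/-- Markov's inequality for each of the `card V ^ 4` classes `c`, using
`∑ k, Zc (cut a P o k) c = Zc a c` (sum over the image of `box R` under `win P o`, `wt_cut`). -/
theorem badWin_mass (G : Gr V E) {R : ℕ} (d : V → ℤ) {n : ℕ} (hV : Fintype.card V ≤ n)
    {a : E → ℤ → ℝ} (ha : Adm R a) (P o : ℕ) {Q : ℝ} (hQ : 0 < Q) :
    ∑ X ∈ cls G R d, wt a X * (if GoodWin G R d a P o Q (win P o X) then 0 else 1) ≤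
      n ^ 4 / Q * Zc G R a d := by
  have hZ := ha.Zc_nonneg G d
  -- one class
  have key : ∀ c : V → ℤ, ∑ k ∈ (box E R).image (win P o),
      (if Zc G R (cut a P o k) c * Zc G R a d ≤ Q * Zc G R a c * Zc G R (cut a P o k) d
        then 0 else Zc G R (cut a P o k) d) ≤ Zc G R a d / Q := by
    intro c
    rcases (ha.Zc_nonneg G c).eq_or_lt with hc | hc
    · refine le_of_eq_of_le (sum_eq_zero fun k _ => ?_) (div_nonneg hZ hQ.le)
      have h1 : Zc G R (cut a P o k) c = 0 :=
        le_antisymm (hc ▸ window_Zc_cut_le G c ha P o k) ((ha.cut P o k).Zc_nonneg G c)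
      rw [if_pos]
      rw [h1, ← hc]; simp
    · calc _ ≤ ∑ k ∈ (box E R).image (win P o),
            Zc G R (cut a P o k) c * (Zc G R a d / (Q * Zc G R a c)) := by
            refine sum_le_sum fun k _ => ?_
            split_ifs with hk
            · exact mul_nonneg ((ha.cut P o k).Zc_nonneg G c) (by positivity)
            · rw [← mul_div_assoc, le_div_iff₀ (by positivity)]
              linarith [not_le.1 hk]
        _ = Zc G R a d / Q := by
            rw [← sum_mul, window_sum_Zc]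
            field_simp
  rw [window_sum_cut G R d a P o (fun k _ => if GoodWin G R d a P o Q k then 0 else 1)]
  calc _ ≤ ∑ k ∈ (box E R).image (win P o), ∑ q : V × V × V × V,
        (if Zc G R (cut a P o k) (d + rt q.1 q.2.1 + rt q.2.2.1 q.2.2.2) * Zc G R a d ≤
          Q * Zc G R a (d + rt q.1 q.2.1 + rt q.2.2.1 q.2.2.2) * Zc G R (cut a P o k) d
        then 0 else Zc G R (cut a P o k) d) := by
        refine sum_le_sum fun k _ => ?_
        have hk0 := (ha.cut P o k).Zc_nonneg G d
        have hnn : ∀ q ∈ (univ : Finset (V × V × V × V)), 0 ≤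
            (if Zc G R (cut a P o k) (d + rt q.1 q.2.1 + rt q.2.2.1 q.2.2.2) * Zc G R a d ≤
              Q * Zc G R a (d + rt q.1 q.2.1 + rt q.2.2.1 q.2.2.2) * Zc G R (cut a P o k) d
            then 0 else Zc G R (cut a P o k) d) := by
          intro q _
          split_ifs
          · exact le_rfl
          · exact hk0
        by_cases hg : GoodWin G R d a P o Q k
        · simp only [if_pos hg, mul_zero, sum_const_zero]
          exact sum_nonneg hnn
        · simp only [if_neg hg, mul_one]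
          unfold GoodWin at hg
          simp only [not_forall] at hg
          obtain ⟨i, j, i', j', hq⟩ := hg
          have := single_le_sum hnn (mem_univ (i, j, i', j'))
          simp only [if_neg hq] at this
          exact this
    _ ≤ ∑ _q : V × V × V × V, Zc G R a d / Q := by
        rw [sum_comm]
        exact sum_le_sum fun q _ => key _
    _ ≤ _ := by
        rw [sum_const, card_univ, nsmul_eq_mul]
        simp only [Fintype.card_prod]
        have h1 : (Fintype.card V : ℝ) ≤ n := by exact_mod_cast hV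
        have h2 : ((Fintype.card V * (Fintype.card V * (Fintype.card V * Fintype.card V)) : ℕ) : ℝ)
            ≤ (n : ℝ) ^ 4 := by
          push_cast
          calc _ = (Fintype.card V : ℝ) ^ 4 := by ring
            _ ≤ _ := by gcongr
        calc _ ≤ (n : ℝ) ^ 4 * (Zc G R a d / Q) :=
              mul_le_mul_of_nonneg_right h2 (div_nonneg hZ hQ.le)
          _ = _ := by ring

open Classical in
/-- `unary_zero` in every good window `k` (weights `cut a P o k`), divided by `Z_k d`:
for a near-flow `S` with `δ = div S - d`, `om (cut ..) S = [win S = k] a S * Z_k (d - δ)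
≤ [win S = k] a S * Q Z (d - δ) Z_k d / Z d ≤ [win S = k] Q Z d Z_k d * pstar S` by `Z_mul_le_sq`, and
`∑ k, min ([win S = k] x) ([win S' = k] x') ≤ min x x'`. -/
theorem goodWin_energy [Nonempty V] (G : Gr V E) (hl : ∀ e, G.tl e ≠ G.hd e) {R : ℕ} (d : V → ℤ)
    {n : ℕ} (hV : Fintype.card V ≤ n) (hE : Fintype.card E ≤ n) (l : ℕ)
    {a : E → ℤ → ℝ} (ha : Adm R a) (hZ : 0 < Zc G R a d) {P : ℕ} (hP : 0 < P) (o : ℕ) {Q : ℝ}
    (hQ : 1 ≤ Q) {f : (E → ℤ) → ℝ} (hf : Unit01 f) :
    ∑ X ∈ cls G R d, wt a X * (if GoodWin G R d a P o Q (win P o X) then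
        (f X - wmean G R d a f P o (win P o X)) ^ 2 else 0) ≤
      Zc G R a d * (tau n P l + 4 ^ l * n * Q * UDir G R d (pstar G R a) f) := by
  have hτ : 0 ≤ tau n P l := by unfold tau; positivity
  have hQ0 : 0 ≤ Q := by linarith
  rw [window_sum_cut G R d a P o (fun k X => if GoodWin G R d a P o Q k then
    (f X - wmean G R d a f P o k) ^ 2 else 0)]
  have key : ∀ k, ∑ X ∈ cls G R d, wt (cut a P o k) X * (if GoodWin G R d a P o Q k then
      (f X - wmean G R d a f P o k) ^ 2 else 0) ≤ tau n P l * Zc G R (cut a P o k) d +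
        4 ^ l * n * Q * Zc G R a d *
          UDir G R d (fun S => if win P o S = k then pstar G R a S else 0) f := by
    intro k
    have hk := ha.cut P o k
    have hU0 : 0 ≤ UDir G R d (fun S => if win P o S = k then pstar G R a S else 0) f := by
      refine window_UDir_nonneg G R d (fun S => ?_) f
      split_ifs
      · exact window_pstar_nonneg G ha S
      · exact le_rfl
    have hR0 : 0 ≤ tau n P l * Zc G R (cut a P o k) d + 4 ^ l * n * Q * Zc G R a d *
        UDir G R d (fun S => if win P o S = k then pstar G R a S else 0) f := by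
      have := hk.Zc_nonneg G d
      positivity
    by_cases hg : GoodWin G R d a P o Q k
    swap
    · simpa only [if_neg hg, mul_zero, sum_const_zero] using hR0
    simp only [if_pos hg]
    rcases (hk.Zc_nonneg G d).eq_or_lt with h0 | h0
    · rw [window_sum_eq_zero G d hk h0.symm]
      exact hR0
    have h1 := unary_zero G hl d hV hE l hk (wid_cut a hP o k) hf
    have h2 : UDir G R d (om G R d 0 (cut a P o k)) f ≤ (Q * Zc G R a d * Zc G R (cut a P o k) d) *
        UDir G R d (fun S => if win P o S = k then pstar G R a S else 0) f := by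
      refine window_UDir_mono G R d (by positivity) (fun S hS => ?_) f
      unfold om
      rw [wt_cut]
      split_ifs with hw
      swap
      · simp
      rcases (ha.wt_nonneg S).eq_or_lt with hS0 | hS0
      · unfold pstar
        rw [← hS0]; simp
      obtain ⟨i, j, hij⟩ := hS
      have hdiv : G.div S = d + rt i j := by rw [← hij]; abel
      have hZS : 0 < Zc G R a (d + rt i j) := hdiv ▸ hS0.trans_le (ha.wt_le_Zc G S)
      have e1 : d + d + 0 - G.div S = d + rt j i + rt i i := by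
        rw [hdiv, rt_self, ← rt_neg i j]; abel
      have e2 : d - rt i j = d + rt j i + rt i i := by
        rw [rt_self, ← rt_neg i j]; abel
      have h3 := hg j i i i
      have h4 := Z_mul_le_sq G ha d (ρ := rt i j) ⟨i, j, rfl⟩
      rw [e2] at h4
      unfold pstar
      rw [e1, hdiv, ← mul_div_assoc, le_div_iff₀ hZS]
      have h5 : Zc G R (cut a P o k) (d + rt j i + rt i i) * Zc G R a (d + rt i j) ≤
          Q * Zc G R a d * Zc G R (cut a P o k) d := by
        refine le_of_mul_le_mul_right ?_ hZ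
        calc _ = (Zc G R (cut a P o k) (d + rt j i + rt i i) * Zc G R a d) *
              Zc G R a (d + rt i j) := by ring
          _ ≤ (Q * Zc G R a (d + rt j i + rt i i) * Zc G R (cut a P o k) d) *
              Zc G R a (d + rt i j) := mul_le_mul_of_nonneg_right h3 hZS.le
          _ = Q * Zc G R (cut a P o k) d *
              (Zc G R a (d + rt i j) * Zc G R a (d + rt j i + rt i i)) := by ring
          _ ≤ Q * Zc G R (cut a P o k) d * Zc G R a d ^ 2 :=
              mul_le_mul_of_nonneg_left h4 (by positivity)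
          _ = _ := by ring
      calc _ = wt a S * (Zc G R (cut a P o k) (d + rt j i + rt i i) * Zc G R a (d + rt i j)) := by
            ring
        _ ≤ wt a S * (Q * Zc G R a d * Zc G R (cut a P o k) d) :=
            mul_le_mul_of_nonneg_left h5 hS0.le
        _ = _ := by ring
    refine le_of_mul_le_mul_right ?_ h0
    unfold wmean
    refine h1.trans ?_
    have h6 := mul_le_mul_of_nonneg_left h2 (show (0 : ℝ) ≤ 4 ^ l * n by positivity)
    calc _ ≤ tau n P l * Zc G R (cut a P o k) d ^ 2 + 4 ^ l * n *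
          ((Q * Zc G R a d * Zc G R (cut a P o k) d) *
            UDir G R d (fun S => if win P o S = k then pstar G R a S else 0) f) := by linarith
      _ = _ := by ring
  refine (sum_le_sum fun k _ => key k).trans ?_
  rw [sum_add_distrib, ← mul_sum, ← mul_sum, window_sum_Zc]
  have h7 := window_UDir_sum G R d (window_pstar_nonneg G ha) P o ((box E R).image (win P o)) f
  have h8 := mul_le_mul_of_nonneg_left h7 (show (0 : ℝ) ≤ 4 ^ l * n * Q * Zc G R a d by positivity)
  calc _ ≤ tau n P l * Zc G R a d + 4 ^ l * n * Q * Zc G R a d * UDir G R d (pstar G R a) f := by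
        linarith
    _ = _ := by ring

lemma wmean_unit01 (G : Gr V E) {R : ℕ} (d : V → ℤ) {a : E → ℤ → ℝ} (ha : Adm R a)
    {f : (E → ℤ) → ℝ} (hf : Unit01 f) (P o : ℕ) : Unit01 (wmean G R d a f P o) := by
  intro k
  have hk := ha.cut P o k
  unfold wmean
  constructor
  · exact div_nonneg (sum_nonneg fun X _ => mul_nonneg (hk.wt_nonneg X) (hf X).1)
      (hk.Zc_nonneg G d)
  · refine div_le_one_of_le₀ (sum_le_sum fun X _ => ?_) (hk.Zc_nonneg G d)
    exact mul_le_of_le_one_right (hk.wt_nonneg X) (hf X).2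

/-- `badWin_mass` + `goodWin_energy`. -/
theorem window_zero [Nonempty V] (G : Gr V E) (hl : ∀ e, G.tl e ≠ G.hd e) {R : ℕ} (d : V → ℤ)
    {n : ℕ} (hV : Fintype.card V ≤ n) (hE : Fintype.card E ≤ n) (l : ℕ)
    {a : E → ℤ → ℝ} (ha : Adm R a) (hZ : 0 < Zc G R a d) {P : ℕ} (hP : 0 < P) (o : ℕ) {Q : ℝ}
    (hQ : 1 ≤ Q) {f : (E → ℤ) → ℝ} (hf : Unit01 f) :
    WE G R d a f P o ≤
      Zc G R a d * (n ^ 4 / Q + tau n P l + 4 ^ l * n * Q * UDir G R d (pstar G R a) f) := by
  classical
  have h1 := badWin_mass G d hV ha P o (Q := Q) (by linarith)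
  have h2 := goodWin_energy G hl d hV hE l ha hZ hP o hQ hf
  have h3 : WE G R d a f P o ≤
      ∑ X ∈ cls G R d, wt a X * (if GoodWin G R d a P o Q (win P o X) then 0 else 1) +
      ∑ X ∈ cls G R d, wt a X * (if GoodWin G R d a P o Q (win P o X) then
        (f X - wmean G R d a f P o (win P o X)) ^ 2 else 0) := by
    rw [← sum_add_distrib]
    refine sum_le_sum fun X _ => ?_
    rw [← mul_add]
    refine mul_le_mul_of_nonneg_left ?_ (ha.wt_nonneg X)
    split_ifs
    · simp
    · simpa using window_sq_le_one (hf X) (wmean_unit01 G d ha hf P o _)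
  calc _ ≤ n ^ 4 / Q * Zc G R a d +
        Zc G R a d * (tau n P l + 4 ^ l * n * Q * UDir G R d (pstar G R a) f) := by
        refine h3.trans (add_le_add ?_ ?_)
        · convert h1
        · convert h2
    _ = _ := by ring

end Crest.Agent.R309
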