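import Crest.Agent.R309.Window

/-! Row 309: the classes `d + ρ` are controlled by the class `d` and unit moves. -/

set_option autoImplicit false

namespace Crest.Agent.R309

open Finset

variable {V E : Type} [Fintype V] [DecidableEq V] [Fintype E] [DecidableEq E]

/-- Split a class sum along the windows. -/
lemma windowroot_split (G : Gr V E) (R : ℕ) (c : V → ℤ) (a : E → ℤ → ℝ) (P o : ℕ)
    (h : (E → ℤ) → (E → ℤ) → ℝ) :
    ∑ X ∈ cls G R c, wt a X * h (win P o X) X =
      ∑ k ∈ (box E R).image (win P o), ∑ X ∈ cls G R c, wt (cut a P o k) X * h k X := by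
  rw [Finset.sum_comm]
  refine Finset.sum_congr rfl fun X hX => ?_
  simp only [wt_cut, ite_mul, zero_mul]
  rw [Finset.sum_ite_eq, if_pos (Finset.mem_image_of_mem _ (mem_cls.1 hX).1)]

lemma windowroot_sum_Zc (G : Gr V E) (R : ℕ) (c : V → ℤ) (a : E → ℤ → ℝ) (P o : ℕ) :
    ∑ k ∈ (box E R).image (win P o), Zc G R (cut a P o k) c = Zc G R a c := by
  simpa [Zc] using (windowroot_split G R c a P o fun _ _ => 1).symm

lemma windowroot_pstar_nonneg (G : Gr V E) {R : ℕ} {a : E → ℤ → ℝ} (ha : Adm R a) (S : E → ℤ) :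
    0 ≤ pstar G R a S := div_nonneg (ha.wt_nonneg S) (ha.Zc_nonneg G _)

lemma windowroot_UDir_nonneg (G : Gr V E) (R : ℕ) (d : V → ℤ) {π : (E → ℤ) → ℝ}
    (hπ : ∀ S, 0 ≤ π S) (f : (E → ℤ) → ℝ) : 0 ≤ UDir G R d π f := by
  refine Finset.sum_nonneg fun e _ => Finset.sum_nonneg fun S _ => ?_
  split_ifs
  · exact mul_nonneg (le_min (hπ _) (hπ _)) (sq_nonneg _)
  · exact le_rfl

lemma windowroot_UDir_le (G : Gr V E) (R : ℕ) (d : V → ℤ) {π π' : (E → ℤ) → ℝ} {c : ℝ}
    (hc : 0 ≤ c) (h : ∀ S, IsRt (G.div S - d) → π S ≤ c * π' S) (f : (E → ℤ) → ℝ) :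
    UDir G R d π f ≤ c * UDir G R d π' f := by
  unfold UDir
  rw [Finset.mul_sum]
  refine Finset.sum_le_sum fun e _ => ?_
  rw [Finset.mul_sum]
  refine Finset.sum_le_sum fun S _ => ?_
  split_ifs with hS
  · rw [← mul_assoc, mul_min_of_nonneg _ _ hc]
    exact mul_le_mul_of_nonneg_right (min_le_min (h _ hS.2.1) (h _ hS.2.2)) (sq_nonneg _)
  · simp

lemma windowroot_UDir_sum (G : Gr V E) (R : ℕ) (d : V → ℤ) {π : (E → ℤ) → ℝ}
    (hπ : ∀ S, 0 ≤ π S) (P o : ℕ) (K : Finset (E → ℤ)) (f : (E → ℤ) → ℝ) :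
    ∑ k ∈ K, UDir G R d (fun S => if win P o S = k then π S else 0) f ≤ UDir G R d π f := by
  unfold UDir
  rw [Finset.sum_comm]
  refine Finset.sum_le_sum fun e _ => ?_
  rw [Finset.sum_comm]
  refine Finset.sum_le_sum fun S _ => ?_
  by_cases hS : S + Pi.single e 1 ∈ box E R ∧ IsRt (G.div S - d) ∧
      IsRt (G.div (S + Pi.single e 1) - d)
  · simp only [if_pos hS]
    rw [← Finset.sum_mul]
    refine mul_le_mul_of_nonneg_right ?_ (sq_nonneg _)
    have hm : 0 ≤ min (π S) (π (S + Pi.single e 1)) := le_min (hπ _) (hπ _)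
    calc _ ≤ ∑ k ∈ K, if win P o S = k then min (π S) (π (S + Pi.single e 1)) else 0 := by
          refine Finset.sum_le_sum fun k _ => ?_
          by_cases h1 : win P o S = k
          · rw [if_pos h1, if_pos h1]
            refine min_le_min le_rfl ?_
            split_ifs
            · exact le_rfl
            · exact hπ _
          · rw [if_neg h1, if_neg h1]
            exact min_le_left _ _
      _ ≤ _ := by
          rw [Finset.sum_ite_eq]
          split_ifs
          · exact le_rfl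
          · exact hm
  · simp only [if_neg hS, Finset.sum_const_zero, le_refl]

lemma windowroot_tau_nonneg (n w l : ℕ) : 0 ≤ tau n w l := by unfold tau; positivity

lemma windowroot_om_le (G : Gr V E) {R : ℕ} (d : V → ℤ) {ρ : V → ℤ} (hρ : IsRt ρ)
    {a : E → ℤ → ℝ} (ha : Adm R a) (hZ : 0 < Zc G R a d) (P o : ℕ) {Q : ℝ} (hQ : 1 ≤ Q)
    {k : E → ℤ} (hk : GoodWin G R d a P o Q k) (S : E → ℤ) (hS : IsRt (G.div S - d)) :
    om G R d ρ (cut a P o k) S ≤ (2 * Q * Zc G R a (d + ρ) * Zc G R (cut a P o k) d) *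
      (if win P o S = k then pstar G R a S else 0) := by
  unfold om
  rw [wt_cut]
  split_ifs with h
  swap
  · simp
  have h2 := Z_mul_le_two G ha d hρ hS
  obtain ⟨i, j, rfl⟩ := hρ
  obtain ⟨i', j', h'⟩ := hS.neg
  have h1 := hk i j i' j'
  have e1 : d + rt i j + rt i' j' = d + d + rt i j - G.div S := by rw [← h']; abel
  have e2 : d + rt i j - (G.div S - d) = d + d + rt i j - G.div S := by abel
  have e3 : d + (G.div S - d) = G.div S := by abel
  rw [e1] at h1
  rw [e2, e3] at h2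
  rcases (ha.wt_nonneg S).eq_or_lt with hw | hw
  · simp [pstar, ← hw]
  have hZS : 0 < Zc G R a (G.div S) := hw.trans_le (ha.wt_le_Zc G S)
  have hk0 := (ha.cut P o k).Zc_nonneg G d
  unfold pstar
  rw [← mul_div_assoc, le_div_iff₀ hZS, mul_assoc, mul_comm _ (wt a S)]
  refine mul_le_mul_of_nonneg_left ?_ hw.le
  refine le_of_mul_le_mul_right ?_ hZ
  have h3 := mul_le_mul_of_nonneg_left h1 hZS.le
  have h4 := mul_le_mul_of_nonneg_left h2 (mul_nonneg (zero_le_one.trans hQ) hk0)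
  nlinarith

lemma windowroot_good (G : Gr V E) (hl : ∀ e, G.tl e ≠ G.hd e) {R : ℕ} (d : V → ℤ)
    {ρ : V → ℤ} (hρ : IsRt ρ) {n : ℕ} (hV : Fintype.card V ≤ n) (hE : Fintype.card E ≤ n) (l : ℕ)
    {a : E → ℤ → ℝ} (ha : Adm R a) (hZ : 0 < Zc G R a d) {P : ℕ} (hP : 0 < P) (o : ℕ) {Q : ℝ}
    (hQ : 1 ≤ Q) {f : (E → ℤ) → ℝ} (hf : Unit01 f) {k : E → ℤ} (hk : GoodWin G R d a P o Q k)
    (m : ℝ) :
    ∑ N ∈ cls G R (d + ρ), wt (cut a P o k) N * (f N - m) ^ 2 ≤
      (2 * Q * Zc G R a (d + ρ) / Zc G R a d) *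
          ∑ X ∈ cls G R d, wt (cut a P o k) X * (f X - m) ^ 2 +
        2 * tau n P l * Zc G R (cut a P o k) (d + ρ) +
        (2 ^ (l + 3) * n * Q * Zc G R a (d + ρ)) *
          UDir G R d (fun S => if win P o S = k then pstar G R a S else 0) f := by
  have hak := ha.cut P o k
  have hQ0 : 0 ≤ Q := zero_le_one.trans hQ
  have hZρ := ha.Zc_nonneg G (d + ρ)
  have hkρ := hak.Zc_nonneg G (d + ρ)
  have hτ := windowroot_tau_nonneg n P l
  have hB : 0 ≤ ∑ X ∈ cls G R d, wt (cut a P o k) X * (f X - m) ^ 2 :=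
    Finset.sum_nonneg fun X _ => mul_nonneg (hak.wt_nonneg X) (sq_nonneg _)
  have hU : 0 ≤ UDir G R d (fun S => if win P o S = k then pstar G R a S else 0) f :=
    windowroot_UDir_nonneg G R d (fun S => by
      split_ifs
      · exact windowroot_pstar_nonneg G ha S
      · exact le_rfl) f
  have hg : Zc G R (cut a P o k) (d + ρ) * Zc G R a d ≤
      Q * Zc G R a (d + ρ) * Zc G R (cut a P o k) d := by
    obtain ⟨i, j, rfl⟩ := hρ
    simpa [rt_self] using hk i j i i
  rcases (hak.Zc_nonneg G d).eq_or_lt with h0 | h0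
  · have h1 : Zc G R (cut a P o k) (d + ρ) = 0 := by
      rw [← h0, mul_zero] at hg
      exact le_antisymm (le_of_mul_le_mul_right (by simpa using hg) hZ) hkρ
    have h2 := (Finset.sum_eq_zero_iff_of_nonneg fun z _ => hak.wt_nonneg z).1 h1
    rw [Finset.sum_eq_zero fun N hN => by rw [h2 N hN, zero_mul]]
    positivity
  have h1 := unary_root G hl d hρ hV hE l hak (wid_cut a hP o k) hf m
  have h2 := windowroot_UDir_le G R d (by positivity)
    (windowroot_om_le G d hρ ha hZ P o hQ hk) f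
  have h3 : Zc G R (cut a P o k) (d + ρ) ≤
      Q * Zc G R a (d + ρ) / Zc G R a d * Zc G R (cut a P o k) d := by
    rw [div_mul_eq_mul_div, le_div_iff₀ hZ]
    exact hg
  refine le_of_mul_le_mul_right (h1.trans ?_) h0
  have h4 := mul_le_mul_of_nonneg_left h3 (mul_nonneg zero_le_two hB)
  have h5 := mul_le_mul_of_nonneg_left h2 (show (0 : ℝ) ≤ 2 ^ (l + 2) * n by positivity)
  refine (add_le_add (add_le_add h4 le_rfl) h5).trans (le_of_eq ?_)
  ring

/-- Jensen's inequality in each window. -/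
lemma windowroot_jensen (G : Gr V E) {R : ℕ} (d : V → ℤ) {a : E → ℤ → ℝ} (ha : Adm R a)
    (f : (E → ℤ) → ℝ) (P o : ℕ) (m : ℝ) :
    ∑ X ∈ cls G R d, wt a X * (wmean G R d a f P o (win P o X) - m) ^ 2 ≤
      ∑ X ∈ cls G R d, wt a X * (f X - m) ^ 2 := by
  rw [windowroot_split G R d a P o fun k _ => (wmean G R d a f P o k - m) ^ 2,
    windowroot_split G R d a P o fun _ X => (f X - m) ^ 2]
  refine Finset.sum_le_sum fun k _ => ?_
  have hak := ha.cut P o k
  rcases (hak.Zc_nonneg G d).eq_or_lt with h0 | h0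
  · have h2 := (Finset.sum_eq_zero_iff_of_nonneg fun z _ => hak.wt_nonneg z).1 h0.symm
    exact Finset.sum_le_sum fun N hN => by rw [h2 N hN, zero_mul, zero_mul]
  set μ := wmean G R d a f P o k with hμ
  have h1 : ∑ X ∈ cls G R d, wt (cut a P o k) X * (f X - μ) = 0 := by
    simp only [mul_sub, Finset.sum_sub_distrib, ← Finset.sum_mul]
    change _ - Zc G R (cut a P o k) d * μ = 0
    rw [hμ, wmean, mul_div_cancel₀ _ h0.ne', sub_self]
  calc _ = ∑ X ∈ cls G R d, (wt (cut a P o k) X * (μ - m) ^ 2 +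
        2 * (μ - m) * (wt (cut a P o k) X * (f X - μ))) := by
        rw [Finset.sum_add_distrib, ← Finset.mul_sum, h1, mul_zero, add_zero]
    _ ≤ _ := Finset.sum_le_sum fun X _ => by
        have := mul_nonneg (hak.wt_nonneg X) (sq_nonneg (f X - μ))
        nlinarith

open Classical in
/-- `unary_root` in every good window `k` with `m = wmean k` (if `Z_k d = 0` the class `d + ρ` has
weight zero in a good window), divided by `Z_k d`.  Use `Z_k (d + ρ) / Z_k d ≤ Q Z (d + ρ) / Z d` and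
`goodWin_energy` for the first term, `∑ k, Z_k (d + ρ) ≤ Z (d + ρ)` for the second one, and for a
near-flow `S` with `δ = div S - d`: `om ρ (cut ..) S = [win S = k] a S * Z_k (d + ρ - δ)
≤ [win S = k] a S * Q Z (d + ρ - δ) Z_k d / Z d ≤ [win S = k] 2 Q Z (d + ρ) Z_k d * pstar S` by
`Z_mul_le_two`. -/
theorem goodWin_energy_root (G : Gr V E) (hl : ∀ e, G.tl e ≠ G.hd e) {R : ℕ} (d : V → ℤ)
    {ρ : V → ℤ} (hρ : IsRt ρ) {n : ℕ} (hV : Fintype.card V ≤ n) (hE : Fintype.card E ≤ n) (l : ℕ)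
    {a : E → ℤ → ℝ} (ha : Adm R a) (hZ : 0 < Zc G R a d) {P : ℕ} (hP : 0 < P) (o : ℕ) {Q : ℝ}
    (hQ : 1 ≤ Q) {f : (E → ℤ) → ℝ} (hf : Unit01 f) :
    ∑ N ∈ cls G R (d + ρ), wt a N * (if GoodWin G R d a P o Q (win P o N) then
        (f N - wmean G R d a f P o (win P o N)) ^ 2 else 0) ≤
      Zc G R a (d + ρ) * (4 * Q * tau n P l + 10 * 4 ^ l * n * Q ^ 2 * UDir G R d (pstar G R a) f) := by
  have : Nonempty V := ⟨hρ.choose⟩
  have hQ0 : 0 ≤ Q := zero_le_one.trans hQ
  have hZρ := ha.Zc_nonneg G (d + ρ)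
  have hτ := windowroot_tau_nonneg n P l
  have hU := windowroot_UDir_nonneg G R d (windowroot_pstar_nonneg G ha) f
  have h1 := goodWin_energy G hl d hV hE l ha hZ hP o hQ hf
  rw [windowroot_split G R d a P o fun k X => if GoodWin G R d a P o Q k then
    (f X - wmean G R d a f P o k) ^ 2 else 0] at h1
  rw [windowroot_split G R (d + ρ) a P o fun k X => if GoodWin G R d a P o Q k then
    (f X - wmean G R d a f P o k) ^ 2 else 0]
  have h2 := windowroot_sum_Zc G R (d + ρ) a P o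
  have h3 := windowroot_UDir_sum G R d (windowroot_pstar_nonneg G ha) P o
    ((box E R).image (win P o)) f
  calc _ ≤ ∑ k ∈ (box E R).image (win P o), ((2 * Q * Zc G R a (d + ρ) / Zc G R a d) *
          (∑ X ∈ cls G R d, wt (cut a P o k) X * if GoodWin G R d a P o Q k then
            (f X - wmean G R d a f P o k) ^ 2 else 0) +
        2 * tau n P l * Zc G R (cut a P o k) (d + ρ) +
        (2 ^ (l + 3) * n * Q * Zc G R a (d + ρ)) *
          UDir G R d (fun S => if win P o S = k then pstar G R a S else 0) f) := by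
        refine Finset.sum_le_sum fun k _ => ?_
        by_cases hk : GoodWin G R d a P o Q k
        · simp only [if_pos hk]
          exact windowroot_good G hl d hρ hV hE l ha hZ hP o hQ hf hk _
        · simp only [if_neg hk, mul_zero, Finset.sum_const_zero, zero_add]
          have h4 := (ha.cut P o k).Zc_nonneg G (d + ρ)
          have h5 : 0 ≤ UDir G R d (fun S => if win P o S = k then pstar G R a S else 0) f :=
            windowroot_UDir_nonneg G R d (fun S => by
              split_ifs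
              · exact windowroot_pstar_nonneg G ha S
              · exact le_rfl) f
          positivity
    _ ≤ (2 * Q * Zc G R a (d + ρ) / Zc G R a d) *
          (Zc G R a d * (tau n P l + 4 ^ l * n * Q * UDir G R d (pstar G R a) f)) +
        2 * tau n P l * Zc G R a (d + ρ) +
        (2 ^ (l + 3) * n * Q * Zc G R a (d + ρ)) * UDir G R d (pstar G R a) f := by
        rw [Finset.sum_add_distrib, Finset.sum_add_distrib, ← Finset.mul_sum, ← Finset.mul_sum,
          ← Finset.mul_sum, h2]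
        gcongr
    _ = Zc G R a (d + ρ) * (2 * Q * tau n P l + 2 * tau n P l +
          (2 * 4 ^ l * n * Q ^ 2 + 8 * 2 ^ l * n * Q) * UDir G R d (pstar G R a) f) := by
        field_simp
        ring
    _ ≤ _ := by
        refine mul_le_mul_of_nonneg_left (add_le_add (by nlinarith)
          (mul_le_mul_of_nonneg_right ?_ hU)) hZρ
        have h4 : (2 : ℝ) ^ l ≤ 4 ^ l := pow_le_pow_left₀ zero_le_two (by norm_num) l
        have h5 : Q ≤ Q ^ 2 := by nlinarith
        have h6 : (2 : ℝ) ^ l * n * Q ≤ 4 ^ l * n * Q ^ 2 := by gcongr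
        linarith

/-- For every offset `o`, `(f N - m)² ≤ 2 (f N - m_o N)² + 2 (m_o N - m)²` with
`m_o N = wmean (win N)`; average over `o < P`.  Good windows: `goodWin_energy_root`.  Bad windows:
`win_couple` with the indicator of a bad window, and `badWin_mass`.  Last term: `win_couple` with
`h o k = (wmean k - m)²` and Jensen in each window,
`∑ X, a X (wmean (win X) - m)² ≤ ∑ X, a X (f X - m)²`. -/
theorem window_root (G : Gr V E) (hl : ∀ e, G.tl e ≠ G.hd e) {R : ℕ} (d : V → ℤ)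
    {ρ : V → ℤ} (hρ : IsRt ρ) {n : ℕ} (hV : Fintype.card V ≤ n) (hE : Fintype.card E ≤ n) (l : ℕ)
    {a : E → ℤ → ℝ} (ha : Adm R a) (hZ : 0 < Zc G R a d) {P : ℕ} (hP : 0 < P) {Q : ℝ}
    (hQ : 1 ≤ Q) {f : (E → ℤ) → ℝ} (hf : Unit01 f) {m : ℝ} (hm0 : 0 ≤ m) (hm1 : m ≤ 1) :
    ∑ N ∈ cls G R (d + ρ), wt a N * (f N - m) ^ 2 ≤
      Zc G R a (d + ρ) * (2 * (∑ X ∈ cls G R d, wt a X * (f X - m) ^ 2) / Zc G R a d +
        2 * n ^ 4 / Q + 8 * n / P + 8 * Q * tau n P l +
        20 * 4 ^ l * n * Q ^ 2 * UDir G R d (pstar G R a) f) := by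
  classical
  have : Nonempty V := ⟨hρ.choose⟩
  have hn : 1 ≤ n := Fintype.card_pos.trans_le hV
  have hP' : (0 : ℝ) < P := by exact_mod_cast hP
  have hQ0 : 0 < Q := zero_lt_one.trans_le hQ
  have hw := wmean_unit01 G d ha hf P
  have hsq : ∀ x y : ℝ, 0 ≤ x → x ≤ 1 → 0 ≤ y → y ≤ 1 → (x - y) ^ 2 ≤ 1 := by
    intro x y _ _ _ _
    nlinarith
  have h1 := win_couple G hl d hρ hn hE ha P
    (fun o k => if GoodWin G R d a P o Q k then 0 else 1) (fun o k => by
      dsimp only
      split_ifs <;> simp)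
  have h2 := win_couple G hl d hρ hn hE ha P
    (fun o k => (wmean G R d a f P o k - m) ^ 2)
    (fun o k => ⟨sq_nonneg _, hsq _ _ (hw o k).1 (hw o k).2 hm0 hm1⟩)
  have h3 : ∑ o ∈ range P, ∑ X ∈ cls G R d,
      wt a X * (if GoodWin G R d a P o Q (win P o X) then 0 else 1) ≤
      P * (n ^ 4 / Q * Zc G R a d) := by
    refine (Finset.sum_le_sum fun o _ => badWin_mass G d hV ha P o hQ0).trans (le_of_eq ?_)
    simp
  have h4 : ∑ o ∈ range P, ∑ X ∈ cls G R d, wt a X * (wmean G R d a f P o (win P o X) - m) ^ 2 ≤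
      P * ∑ X ∈ cls G R d, wt a X * (f X - m) ^ 2 := by
    refine (Finset.sum_le_sum fun o _ => windowroot_jensen G d ha f P o m).trans (le_of_eq ?_)
    simp
  have h5 : ∑ o ∈ range P, ∑ N ∈ cls G R (d + ρ), wt a N *
      (if GoodWin G R d a P o Q (win P o N) then
        (f N - wmean G R d a f P o (win P o N)) ^ 2 else 0) ≤ P * (Zc G R a (d + ρ) *
        (4 * Q * tau n P l + 10 * 4 ^ l * n * Q ^ 2 * UDir G R d (pstar G R a) f)) := by
    refine (Finset.sum_le_sum fun o _ =>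
      goodWin_energy_root G hl d hρ hV hE l ha hZ hP o hQ hf).trans (le_of_eq ?_)
    simp
  have h6 : P * ∑ N ∈ cls G R (d + ρ), wt a N * (f N - m) ^ 2 ≤
      2 * (∑ o ∈ range P, ∑ N ∈ cls G R (d + ρ), wt a N *
        (if GoodWin G R d a P o Q (win P o N) then
          (f N - wmean G R d a f P o (win P o N)) ^ 2 else 0)) +
      2 * (∑ o ∈ range P, ∑ N ∈ cls G R (d + ρ), wt a N *
        (if GoodWin G R d a P o Q (win P o N) then 0 else 1)) +
      2 * ∑ o ∈ range P, ∑ N ∈ cls G R (d + ρ), wt a N *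
        (wmean G R d a f P o (win P o N) - m) ^ 2 := by
    rw [← nsmul_eq_mul, ← Finset.card_range P, ← Finset.sum_const, Finset.card_range]
    simp only [Finset.mul_sum, ← Finset.sum_add_distrib]
    refine Finset.sum_le_sum fun o _ => Finset.sum_le_sum fun N _ => ?_
    have hwN := ha.wt_nonneg N
    have h7 := hsq _ _ (hf N).1 (hf N).2 (hw o (win P o N)).1 (hw o (win P o N)).2
    have h8 : (f N - m) ^ 2 ≤ 2 * (f N - wmean G R d a f P o (win P o N)) ^ 2 +
        2 * (wmean G R d a f P o (win P o N) - m) ^ 2 := by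
      nlinarith [sq_nonneg (f N - 2 * wmean G R d a f P o (win P o N) + m)]
    split_ifs
    · nlinarith [mul_le_mul_of_nonneg_left h8 hwN]
    · nlinarith [mul_le_mul_of_nonneg_left h8 hwN, mul_le_mul_of_nonneg_left h7 hwN]
  have hZρ := ha.Zc_nonneg G (d + ρ)
  have h7 := h1.trans (add_le_add (mul_le_mul_of_nonneg_right h3 hZρ) le_rfl)
  have h8 := h2.trans (add_le_add (mul_le_mul_of_nonneg_right h4 hZρ) le_rfl)
  rw [← le_div_iff₀ hZ] at h7 h8
  refine le_of_mul_le_mul_left (h6.trans ((add_le_add (add_le_add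
    (mul_le_mul_of_nonneg_left h5 zero_le_two) (mul_le_mul_of_nonneg_left h7 zero_le_two))
    (mul_le_mul_of_nonneg_left h8 zero_le_two)).trans (le_of_eq ?_))) hP'
  field_simp
  ring

end Crest.Agent.R309
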